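import Vale.Agent.P157.Cube2.Jac

/-!
# P157: concavity of the free energy of one spin in the cumulative variances
-/

open MeasureTheory ProbabilityTheory Real Filter Topology Finset
open Vale.Agent.P157.Rsb (lev mass)

namespace Vale.Agent.P157.Cube2

variable {k : ℕ} {r : ℕ → ℝ}

theorem magn_identity {j : ℕ} (hj : j ≤ k) : ∀ h,
    mass k * ∑ l ∈ Ioc j k, spinW k r l j h
      = 1 - deriv (spinU k r j) h - lev k (j + 1) * spinU k r j h ^ 2 := by
  refine spinF_induction (P := fun j => ∀ h, mass k * ∑ l ∈ Ioc j k, spinW k r l j h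
      = 1 - deriv (spinU k r j) h - lev k (j + 1) * spinU k r j h ^ 2) ?_ ?_ hj
  · intro h
    simp only [Ioc_self, sum_empty, mul_zero, spinU, spinF_top, deriv_logcosh, levK_top,
      (hasDerivAt_tanh' h).deriv, one_mul]
    ring
  · intro j hj hjk ih h
    set a := r j - r (j - 1)
    have hf : Pot (spinF k r j) := pot_spinF hjk
    obtain ⟨Cu, hu⟩ := bd2_u (r := r) hjk
    have hW : ∀ l ∈ Ioc j k, ∃ C, Bd 0 C (spinW k r l j) := fun l hl => by
      obtain ⟨C, hC⟩ := bd2_w (r := r) (mem_Ioc.1 hl).1.le (mem_Ioc.1 hl).2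
      exact ⟨C, hC.down.down⟩
    have q2 : Bd 0 (2 ^ 0 * (Cu * Cu)) fun x => spinU k r j x ^ 2 := by
      simpa only [sq] using hu.down.down.mul hu.down.down
    have e1 : ∀ l ∈ Ioc j k, spinW k r l (j - 1) h
        = tE (lev k j) a (spinF k r j) (spinW k r l j) h := fun l hl => by
      rw [spinW_step hj (mem_Ioc.1 hl).1.le]
    have hT : mass k * ∑ l ∈ Ioc j k, tE (lev k j) a (spinF k r j) (spinW k r l j) h
        = 1 - tE (lev k j) a (spinF k r j) (deriv (spinU k r j)) h
          - lev k (j + 1) * tE (lev k j) a (spinF k r j) (fun x => spinU k r j x ^ 2) h := by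
      rw [← tE_sum hf _ hW, ← tE_const_mul]
      simp only [ih]
      rw [show (fun x => 1 - deriv (spinU k r j) x - lev k (j + 1) * spinU k r j x ^ 2)
        = fun x => (1 + (-1) * deriv (spinU k r j) x) + -lev k (j + 1) * spinU k r j x ^ 2 from
        funext fun x => by ring,
        tE_add hf ((Bd.const 0 1).add ((Bd.const 0 (-1)).mul hu.2.2.down)) ((Bd.const 0 _).mul q2),
        tE_add hf (Bd.const 0 1) ((Bd.const 0 (-1)).mul hu.2.2.down), tE_const hf, tE_const_mul,
        tE_const_mul]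
      ring
    rw [Ioc_pred hj, sum_Icc_eq hjk, sum_congr rfl e1, mul_add, hT, spinW_step hj le_rfl, spinW_self,
      show j - 1 + 1 = j by omega, spinU_deriv_step hj hjk, spinU_step hj hjk, levK_succ]
    simp only [tC, sq]
    ring

theorem magn_identity_deriv {j : ℕ} (hj : j ≤ k) (h : ℝ) :
    mass k * ∑ l ∈ Ioc j k, deriv (spinW k r l j) h
      = -deriv (deriv (spinU k r j)) h
        - lev k (j + 1) * (2 * (spinU k r j h * deriv (spinU k r j) h)) := by
  obtain ⟨Cu, hu⟩ := bd2_u (r := r) hj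
  have h1 : HasDerivAt (fun x => mass k * ∑ l ∈ Ioc j k, spinW k r l j x)
      (mass k * ∑ l ∈ Ioc j k, deriv (spinW k r l j) h) h :=
    (HasDerivAt.fun_sum fun l hl => by
      obtain ⟨C, hC⟩ := bd2_w (r := r) (mem_Ioc.1 hl).1.le (mem_Ioc.1 hl).2
      exact (hC.1 h).hasDerivAt).const_mul _
  rw [show (fun x => mass k * ∑ l ∈ Ioc j k, spinW k r l j x)
    = fun x => 1 - deriv (spinU k r j) x - lev k (j + 1) * spinU k r j x ^ 2 from
    funext (magn_identity hj)] at h1
  refine h1.unique ((((hu.2.2.1 h).hasDerivAt.const_sub 1).fun_sub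
    (((hu.1 h).hasDerivAt.fun_pow 2).const_mul _)).congr_deriv ?_)
  push_cast; ring

theorem coef_row {l : ℕ} (hr : ∀ i, 1 ≤ i → i ≤ k → r (i - 1) < r i) (hl1 : 1 ≤ l) (hl : l ≤ k) :
    0 ≤ ∑ i ∈ Icc 1 k, coef k r i l 0 0 := by
  obtain ⟨ε, hε⟩ : ∃ ε, PosNear k r (fun _ => (1 : ℝ)) 0 ε :=
    ⟨1, one_pos, fun s _ j h1 h2 => by simp only [line]; linarith [hr j h1 h2]⟩
  have hd := deriv_spinW hε hl1 (Nat.zero_le l) hl 0 (by simpa using hε.1) 0
  have e : ∀ t, spinW k (line r (fun _ => 1) t) l 0 0 = spinW k r l 0 0 := by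
    intro t
    have hN : ∀ d, spinN k (line r (fun _ => (1 : ℝ)) t) d = spinN k r d := by
      intro d
      induction d with
      | zero => rfl
      | succ d ih =>
        simp only [spinN, ih]
        congr 1; simp only [line]; ring
    have hA : ∀ (ψ : ℝ → ℝ) d, avgN k (line r (fun _ => (1 : ℝ)) t) l ψ d = avgN k r l ψ d := by
      intro ψ d
      induction d with
      | zero => rfl
      | succ d ih =>
        simp only [avgN, ih, spinF, hN]
        congr 1; simp only [line]; ring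
    simp only [spinW, spinU, spinF, hN, hA]
  simp only [e] at hd
  have h0 := hd.unique (hasDerivAt_const _ _)
  have hl0 : line r (fun _ => (1 : ℝ)) 0 = r := by funext i; simp [line]
  simp only [rateW, hl0, one_mul, eOp] at h0
  obtain ⟨C, hC⟩ := bd2_w (r := r) (Nat.zero_le l) hl
  have hw := absMono_spinW hr (Nat.zero_le l) hl
  have h2 := hw.deriv2_nonneg hC.1 hC.2.2.1
  rw [hw.deriv_zero hC.1, mul_zero, mul_zero, add_zero] at h0
  linarith

theorem sum_coef_col {i j : ℕ} (hji : j < i) (hik : i ≤ k) : ∀ h,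
    ∑ l ∈ Ioc j k, coef k r i l j h
      = 1 / 2 * deriv (deriv (spinW k r i j)) h
        + lev k (j + 1) * (spinU k r j h * deriv (spinW k r i j) h) := by
  refine spinF_induction (P := fun j => j < i → ∀ h, ∑ l ∈ Ioc j k, coef k r i l j h
      = 1 / 2 * deriv (deriv (spinW k r i j)) h
        + lev k (j + 1) * (spinU k r j h * deriv (spinW k r i j) h)) (fun h => absurd h (by omega)) ?_
    (hji.le.trans hik) hji
  intro j hj hjk ih hji h
  have hji' : j ≤ i := by omega
  set a := r j - r (j - 1)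
  set T := tE (lev k j) a (spinF k r j) with hT
  have hf : Pot (spinF k r j) := pot_spinF hjk
  obtain ⟨Cu, hu⟩ := bd2_u (r := r) hjk
  obtain ⟨Ci, hwi⟩ := bd2_w (r := r) hji' hik
  have hc : ∀ l ∈ Icc j k, ∃ C, Bd 0 C (coef k r i l j) := fun l hl => by
    obtain ⟨C, hC⟩ := bd_coef (k := k) (mem_Icc.1 hl).1 (mem_Icc.1 hl).2 hik
    exact ⟨C, hC r⟩
  have hW : ∀ l ∈ Icc j k, ∃ C, Bd 0 C (spinW k r l j) := fun l hl => by
    obtain ⟨C, hC⟩ := bd2_w (r := r) (mem_Icc.1 hl).1 (mem_Icc.1 hl).2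
    exact ⟨C, hC.down.down⟩
  have hW' : ∀ l ∈ Icc j k, ∃ C, Bd 0 C fun x => spinU k r j x * deriv (spinW k r l j) x := fun l hl => by
    obtain ⟨C, hC⟩ := bd2_w (r := r) (mem_Icc.1 hl).1 (mem_Icc.1 hl).2
    exact ⟨_, hu.down.down.mul hC.2.2.down⟩
  have e : ∀ l ∈ Icc j k, coef k r i l (j - 1) h = T (coef k r i l j) h
      + -(mass k * lev k j / 2) * tC (lev k j) a (spinF k r j) (spinW k r i j) (spinW k r l j) h
      + (if i = j then -mass k else 0) * T (fun x => spinU k r j x * deriv (spinW k r l j) x) h :=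
    fun l hl => by rw [coef_step hj (mem_Icc.1 hl).1, if_neg (by omega)]
  rw [Ioc_pred hj, sum_congr rfl e, sum_add_distrib, sum_add_distrib, ← mul_sum, ← mul_sum, hT,
    ← tE_sum hf _ hc, ← tC_sum hf _ hwi.down.down hW, ← tE_sum hf _ hW']
  have q0 : Bd 0 _ (deriv (spinU k r j)) := hu.2.2.down
  have q2 : Bd 0 (2 ^ 0 * (Cu * Cu)) fun x => spinU k r j x ^ 2 := by
    simpa only [sq] using hu.down.down.mul hu.down.down
  have eS : (fun x => ∑ l ∈ Icc j k, spinW k r l j x)
      = fun x => (mass k)⁻¹ * (1 + -1 * (deriv (spinU k r j) x + lev k j * spinU k r j x ^ 2)) :=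
    funext fun x => by
      have hid := magn_identity (r := r) hjk x
      rw [levK_succ] at hid
      rw [sum_Icc_eq hjk, spinW_self]
      have := (massK_pos (k := k)).ne'
      field_simp
      linarith
  rw [eS, tC_const_mul, tC_add hf hwi.down.down (Bd.const 0 1)
    ((Bd.const 0 (-1)).mul (q0.add ((Bd.const 0 (lev k j)).mul q2))), tC_const hf, tC_const_mul]
  have hheat := heat (m := lev k j) (a := a) hf (C := max Ci Cu) (hwi.mono (le_max_left _ _))
    (hu.down.mono (le_max_right _ _)) (levK_ne hj) h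
  rw [deriv_hT hf (levK_ne hj)] at hheat
  rw [spinW_step hj hji', show j - 1 + 1 = j by omega, spinU_step hj hjk, ← mul_assoc (lev k j)]
  refine Eq.trans ?_ hheat.symm
  rcases hji'.lt_or_eq with hlt | heq
  · rw [if_neg (by omega), zero_mul, add_zero]
    have eC : (fun x => ∑ l ∈ Icc j k, coef k r i l j x) = fun x =>
        1 / 2 * deriv (deriv (spinW k r i j)) x
          + lev k j * (spinU k r j x * deriv (spinW k r i j) x) := funext fun x => by
      rw [sum_Icc_eq hjk, ih hlt x, coef_self, if_pos hlt, levK_succ]; ring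
    rw [eC, tE_add hf ((Bd.const 0 (1 / 2)).mul hwi.2.2.2.2)
      ((Bd.const 0 (lev k j)).mul (hu.down.down.mul hwi.2.2.down)), tE_const_mul, tE_const_mul]
    have := (massK_pos (k := k)).ne'
    simp only [spinU]
    field_simp
    ring
  · subst heq
    rw [if_pos rfl]
    have eC : (fun x => ∑ l ∈ Icc j k, coef k r j l j x) = fun x => deriv (spinU k r j) x ^ 2 :=
      funext fun x => by
        rw [sum_Icc_eq hjk, coef_self, if_neg (lt_irrefl j), if_pos rfl,
          sum_eq_zero fun l hl => by rw [coef_below le_rfl (mem_Ioc.1 hl).1]]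
        ring
    have e1 : deriv (spinW k r j j) = fun x => 2 * (spinU k r j x * deriv (spinU k r j) x) :=
      funext fun x => by rw [spinW_self, deriv_fun_pow (hu.1 x)]; push_cast; ring
    have e2 : deriv (deriv (spinW k r j j)) = fun x =>
        2 * (deriv (spinU k r j) x ^ 2 + spinU k r j x * deriv (deriv (spinU k r j)) x) :=
      funext fun x => by
        rw [e1, deriv_const_mul _ ((hu.1 x).fun_mul (hu.2.2.1 x)), deriv_fun_mul (hu.1 x) (hu.2.2.1 x)]
        ring
    have eW : (fun x => ∑ l ∈ Icc j k, spinU k r j x * deriv (spinW k r l j) x) = fun x =>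
        -1 / mass k * (spinU k r j x * deriv (deriv (spinU k r j)) x)
          + -2 * lev k j / mass k * (spinU k r j x * (spinU k r j x * deriv (spinU k r j) x)) :=
      funext fun x => by
        have hid := magn_identity_deriv (r := r) hjk x
        rw [levK_succ] at hid
        have := (massK_pos (k := k)).ne'
        rw [← mul_sum, sum_Icc_eq hjk, e1]
        field_simp
        linear_combination (spinU k r j x) * hid
    have b3 : Bd 0 _ fun x => spinU k r j x * deriv (deriv (spinU k r j)) x :=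
      hu.down.down.mul hu.2.2.2.2
    have b4 : Bd 0 _ fun x => spinU k r j x * (spinU k r j x * deriv (spinU k r j) x) :=
      hu.down.down.mul (hu.down.down.mul q0)
    have b5 : Bd 0 (2 ^ 0 * (Cu * Cu)) fun x => deriv (spinU k r j) x ^ 2 := by
      simpa only [sq] using q0.mul q0
    rw [eC, eW, e2, e1, tE_add hf ((Bd.const 0 _).mul b3) ((Bd.const 0 _).mul b4), tE_const_mul,
      tE_const_mul, tE_const_mul, tE_add hf b5 b3,
      show (fun x => deriv (spinF k r j) x * (2 * (spinU k r j x * deriv (spinU k r j) x)))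
        = fun x => 2 * (spinU k r j x * (spinU k r j x * deriv (spinU k r j) x)) from
        funext fun x => by simp only [spinU]; ring, tE_const_mul]
    have := (massK_pos (k := k)).ne'
    simp only [spinU]
    field_simp
    ring

theorem coef_col {i : ℕ} (hr : ∀ i, 1 ≤ i → i ≤ k → r (i - 1) < r i) (hi : 1 ≤ i) (hik : i ≤ k) :
    0 ≤ ∑ l ∈ Icc 1 k, coef k r i l 0 0 := by
  rw [← Ioc_pred le_rfl, show (1 : ℕ) - 1 = 0 from rfl, sum_coef_col (by omega) hik 0]
  obtain ⟨C, hC⟩ := bd2_w (r := r) (Nat.zero_le i) hik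
  have hw := absMono_spinW hr (Nat.zero_le i) hik
  rw [hw.deriv_zero hC.1, mul_zero, mul_zero, add_zero]
  linarith [hw.deriv2_nonneg hC.1 hC.2.2.1]

theorem coef_nonpos {i l : ℕ} (hr : ∀ i, 1 ≤ i → i ≤ k → r (i - 1) < r i) (hne : i ≠ l)
    (hik : i ≤ k) (hlk : l ≤ k) {j : ℕ} (hjl : j ≤ l) : ∀ h, coef k r i l j h ≤ 0 := by
  induction hd : l - j generalizing j with
  | zero =>
    intro h
    rw [show j = l by omega, coef_self]
    by_cases h1 : l < i
    · rw [if_pos h1]
      have := mul_nonneg (massK_pos (k := k)).le (spinU_mul_deriv_nonneg hr h1.le hik h)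
      linarith
    · rw [if_neg h1, if_neg hne]
  | succ n ih =>
    intro h
    rw [show coef k r i l j = coef k r i l (j + 1 - 1) by simp, coef_step (by omega) (by omega)]
    by_cases h1 : i < j + 1
    · rw [if_pos h1]
    · rw [if_neg h1]
      have hjk : j + 1 ≤ k := by omega
      have hf : Pot (spinF k r (j + 1)) := pot_spinF hjk
      obtain ⟨C, hC⟩ := bd_coef (k := k) (show j + 1 ≤ l by omega) hlk hik
      obtain ⟨Ci, hwi⟩ := bd2_w (r := r) (show j + 1 ≤ i by omega) hik
      obtain ⟨Cl, hwl⟩ := bd2_w (r := r) (show j + 1 ≤ l by omega) hlk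
      obtain ⟨Cu, hu⟩ := bd2_u (r := r) hjk
      have t1 := tE_mono (m := lev k (j + 1)) (a := r (j + 1) - r (j + 1 - 1)) hf (hC r) (Bd.const 0 0)
        (ih (j := j + 1) (by omega) (by omega)) h
      rw [tE_const hf] at t1
      have t2 := mul_nonneg (mul_nonneg (massK_pos (k := k)).le (levK_nonneg (k := k) (j + 1)))
        (tC_nonneg (m := lev k (j + 1)) (a := r (j + 1) - r (j + 1 - 1)) hf hwi hwl
          (absMono_spinW hr (by omega) hik) (absMono_spinW hr (by omega) hlk) h)
      have t3 := tE_mono (m := lev k (j + 1)) (a := r (j + 1) - r (j + 1 - 1)) hf (Bd.const 0 0)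
        (show Bd 0 _ fun x => spinU k r (j + 1) x * deriv (spinW k r l (j + 1)) x from
          hu.down.down.mul hwl.2.2.down)
        (fun x => spinU_mul_deriv_nonneg hr (by omega) hlk x) h
      rw [tE_const hf] at t3
      have t4 := mul_nonneg (massK_pos (k := k)).le t3
      split_ifs <;> linarith

theorem quad_nonneg (S : Finset ℕ) (M : ℕ → ℕ → ℝ) (d : ℕ → ℝ)
    (hoff : ∀ l ∈ S, ∀ i ∈ S, i ≠ l → M l i ≤ 0) (hrow : ∀ l ∈ S, 0 ≤ ∑ i ∈ S, M l i)
    (hcol : ∀ i ∈ S, 0 ≤ ∑ l ∈ S, M l i) : 0 ≤ ∑ l ∈ S, d l * ∑ i ∈ S, d i * M l i := by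
  have e : 2 * ∑ l ∈ S, d l * ∑ i ∈ S, d i * M l i
      = ∑ l ∈ S, d l ^ 2 * ∑ i ∈ S, M l i + ∑ i ∈ S, d i ^ 2 * ∑ l ∈ S, M l i
        - ∑ l ∈ S, ∑ i ∈ S, M l i * (d l - d i) ^ 2 := by
    simp only [mul_sum]
    rw [sum_comm (f := fun i l => d i ^ 2 * M l i), ← sum_add_distrib, ← sum_sub_distrib]
    refine sum_congr rfl fun l _ => ?_
    rw [← sum_add_distrib, ← sum_sub_distrib]
    exact sum_congr rfl fun i _ => by ring
  have h1 : 0 ≤ ∑ l ∈ S, d l ^ 2 * ∑ i ∈ S, M l i :=
    sum_nonneg fun l hl => mul_nonneg (sq_nonneg _) (hrow l hl)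
  have h2 : 0 ≤ ∑ i ∈ S, d i ^ 2 * ∑ l ∈ S, M l i :=
    sum_nonneg fun i hi => mul_nonneg (sq_nonneg _) (hcol i hi)
  have h3 : ∑ l ∈ S, ∑ i ∈ S, M l i * (d l - d i) ^ 2 ≤ 0 := sum_nonpos fun l hl => sum_nonpos fun i hi => by
    by_cases h : i = l
    · simp [h]
    · exact mul_nonpos_of_nonpos_of_nonneg (hoff l hl i hi h) (sq_nonneg _)
  linarith

variable {r₀ d : ℕ → ℝ}

theorem deriv_spinG {s₀ ε : ℝ} (hP : PosNear k r₀ d s₀ ε) (hd0 : d 0 = 0) :
    HasDerivAt (fun t => spinG k (line r₀ d t))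
      (-(mass k / 2) * ∑ l ∈ Icc 1 k, d l * spinQ k (line r₀ d s₀) l) s₀ := by
  have h1 := (deriv_spinF hP (Nat.zero_le k) s₀ (by simpa using hP.1) 0).fun_sub
    ((((hasDerivAt_id s₀).mul_const (d k)).const_add (r₀ k)).div_const 2)
  refine h1.congr_deriv ?_
  simp only [rateF, hd0, zero_div, neg_zero, zero_mul, add_zero, spinQ, one_mul, id]
  rw [← Ioc_pred le_rfl]
  ring

theorem deriv_qdot {s₀ ε : ℝ} (hP : PosNear k r₀ d s₀ ε) (hd0 : d 0 = 0) :
    HasDerivAt (fun t => ∑ l ∈ Icc 1 k, d l * spinQ k (line r₀ d t) l)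
      (∑ l ∈ Icc 1 k, d l * ∑ i ∈ Icc 1 k, d i * coef k (line r₀ d s₀) i l 0 0) s₀ :=
  HasDerivAt.fun_sum fun l hl => by
    have h := (deriv_spinW hP (mem_Icc.1 hl).1 (Nat.zero_le l) (mem_Icc.1 hl).2 s₀
      (by simpa using hP.1) 0).const_mul (d l)
    refine h.congr_deriv ?_
    simp [rateW, hd0]

theorem continuous_spinN {X : Type} [TopologicalSpace X] [FirstCountableTopology X] {ρ : X → ℕ → ℝ}
    (hρ : ∀ i, Continuous fun x => ρ x i) :
    ∀ d, d ≤ k → Continuous fun p : X × ℝ => spinN k (ρ p.1) d p.2 := by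
  intro d
  induction d with
  | zero =>
    intro _
    simp only [spinN]
    exact (continuous_cosh.comp continuous_snd).log fun p => (cosh_pos p.2).ne'
  | succ d ih =>
    intro hd
    have hc := ih (by omega)
    set j := k - d with hj
    have hj1 : 1 ≤ j := by omega
    have hjk : j ≤ k := by omega
    have hf : ∀ x, Pot (spinN k (ρ x) d) := fun x => by
      have := pot_spinF (r := ρ x) hjk
      rwa [spinF, show k - j = d by omega] at this
    simp only [spinN, hT, ← hj]
    set a : X → ℝ := fun x => ρ x j - ρ x (j - 1) with ha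
    have hac : Continuous a := (hρ j).sub (hρ (j - 1))
    refine (Continuous.log ?_ fun p : X × ℝ => (den_pos (hf p.1) p.2).ne').div_const _
    refine continuous_iff_continuousAt.2 fun p => ?_
    set B := |spinN k (ρ p.1) d 0| + 1 + (|p.2| + 1) with hB
    set A := √(a p.1) + 1 with hA
    have ev : ∀ᶠ q in 𝓝 p, |spinN k (ρ q.1) d 0| < |spinN k (ρ p.1) d 0| + 1 ∧
        |q.2| < |p.2| + 1 ∧ √(a q.1) < √(a p.1) + 1 := by
      have c1 : Continuous fun q : X × ℝ => |spinN k (ρ q.1) d 0| :=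
        (hc.comp (continuous_fst.prodMk continuous_const)).abs
      have c3 : Continuous fun q : X × ℝ => √(a q.1) := (hac.comp continuous_fst).sqrt
      filter_upwards [c1.continuousAt.eventually (Iio_mem_nhds (lt_add_one _)),
        continuous_snd.abs.continuousAt.eventually (Iio_mem_nhds (lt_add_one _)),
        c3.continuousAt.eventually (Iio_mem_nhds (lt_add_one _))] with q a1 a2 a3
      exact ⟨a1, a2, a3⟩
    refine continuousAt_of_dominated
      (bound := fun y => exp (|lev k j| * B) * exp (|lev k j| * A * |y|))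
      (Eventually.of_forall fun q => (int_wt (hf q.1) q.2).aestronglyMeasurable) ?_
      ((int_exp_abs _).const_mul _) (ae_of_all _ fun y => ?_)
    · filter_upwards [ev] with q ⟨a1, a2, a3⟩
      refine ae_of_all _ fun y => ?_
      rw [Real.norm_eq_abs, Real.abs_exp, ← exp_add]
      refine exp_le_exp.2 (((hf q.1).bound (m := lev k j) (a := a q.1) 0 q.2 y).trans ?_)
      rw [sub_zero, mul_assoc _ √_, mul_assoc _ A, ← mul_add, ← mul_add]
      refine mul_le_mul_of_nonneg_left (add_le_add ?_ (mul_le_mul_of_nonneg_right ?_ (abs_nonneg y)))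
        (abs_nonneg _)
      · rw [hB]; linarith
      · rw [hA]; linarith
    · have h1 : Continuous fun q : X × ℝ => (q.1, q.2 + √(a q.1) * y) :=
        continuous_fst.prodMk (continuous_snd.add ((hac.comp continuous_fst).sqrt.mul continuous_const))
      exact ((continuous_const.mul (hc.comp h1)).rexp).continuousAt

theorem continuous_spinG (r₀ d : ℕ → ℝ) : Continuous fun t => spinG k (line r₀ d t) := by
  have h := continuous_spinN (k := k) (ρ := fun t : ℝ => line r₀ d t)
    (fun i => by unfold line; fun_prop) k le_rfl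
  have h2 : Continuous fun t : ℝ => spinN k (line r₀ d t) k 0 :=
    h.comp (continuous_id.prodMk continuous_const)
  simp only [spinG, spinF, Nat.sub_zero, line]
  exact h2.sub (by fun_prop)

/-- The free energy of one spin lies below its tangents: it is concave in the variances. -/
theorem spinG_tangent {r r' : ℕ → ℝ} (h0 : r 0 = r' 0) (hr : ∀ j, 1 ≤ j → j ≤ k → r (j - 1) ≤ r j)
    (hr' : ∀ j, 1 ≤ j → j ≤ k → r' (j - 1) < r' j) :
    spinG k r ≤ spinG k r' - mass k / 2 * ∑ l ∈ Icc 1 k, spinQ k r' l * (r l - r' l) := by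
  set d : ℕ → ℝ := fun i => r i - r' i with hd
  have hd0 : d 0 = 0 := by simp [hd, h0]
  have hpos : ∀ s, 0 ≤ s → s < 1 → ∀ j, 1 ≤ j → j ≤ k → line r' d s (j - 1) < line r' d s j := by
    intro s s0 s1 j h1 h2
    have := mul_nonneg s0 (sub_nonneg.2 (hr j h1 h2))
    have := mul_pos (sub_pos.2 s1) (sub_pos.2 (hr' j h1 h2))
    simp only [line, hd]; linarith
  have hnear : ∀ s, 0 ≤ s → s < 1 → ∃ ε, PosNear k r' d s ε := by
    intro s s0 s1
    have : ∀ᶠ t in 𝓝 s, ∀ j ∈ Icc 1 k, line r' d t (j - 1) < line r' d t j := by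
      refine (eventually_all_finset _).2 fun j hj => ?_
      have hc : ∀ i, ContinuousAt (fun t => line r' d t i) s := fun i => by
        unfold line; fun_prop
      exact (hc (j - 1)).eventually_lt (hc j) (hpos s s0 s1 j (mem_Icc.1 hj).1 (mem_Icc.1 hj).2)
    obtain ⟨ε, hε, h⟩ := Metric.eventually_nhds_iff.1 this
    exact ⟨ε, hε, fun t ht j h1 h2 => h (by simpa [Real.dist_eq] using ht) j (mem_Icc.2 ⟨h1, h2⟩)⟩
  set Q : ℝ → ℝ := fun t => ∑ l ∈ Icc 1 k, d l * spinQ k (line r' d t) l with hQ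
  have hQd : ∀ s, 0 ≤ s → s < 1 → DifferentiableAt ℝ Q s ∧ 0 ≤ deriv Q s := by
    intro s s0 s1
    obtain ⟨ε, hε⟩ := hnear s s0 s1
    have h := deriv_qdot hε hd0
    refine ⟨h.differentiableAt, ?_⟩
    rw [h.deriv]
    have hrs := fun i a b => hpos s s0 s1 i a b
    exact quad_nonneg _ (fun l i => coef k (line r' d s) i l 0 0) d
      (fun l hl i hi hne => coef_nonpos hrs hne (mem_Icc.1 hi).2 (mem_Icc.1 hl).2 (Nat.zero_le l) 0)
      (fun l hl => coef_row hrs (mem_Icc.1 hl).1 (mem_Icc.1 hl).2)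
      (fun i hi => coef_col hrs (mem_Icc.1 hi).1 (mem_Icc.1 hi).2)
  have hmono : MonotoneOn Q (Set.Ico 0 1) := monotoneOn_of_deriv_nonneg (convex_Ico 0 1)
    (fun s hs => (hQd s hs.1 hs.2).1.continuousAt.continuousWithinAt)
    (fun s hs => by
      rw [interior_Ico] at hs
      exact (hQd s hs.1.le hs.2).1.differentiableWithinAt)
    fun s hs => by rw [interior_Ico] at hs; exact (hQd s hs.1.le hs.2).2
  set ψ : ℝ → ℝ := fun t => spinG k (line r' d t) + mass k / 2 * Q 0 * t with hψ
  have hψd : ∀ s ∈ Set.Ioo (0 : ℝ) 1, DifferentiableAt ℝ ψ s ∧ deriv ψ s ≤ 0 := by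
    intro s hs
    obtain ⟨ε, hε⟩ := hnear s hs.1.le hs.2
    have h := (deriv_spinG hε hd0).fun_add ((hasDerivAt_id s).const_mul (mass k / 2 * Q 0))
    refine ⟨h.differentiableAt, ?_⟩
    rw [show deriv ψ s = -(mass k / 2) * Q s + mass k / 2 * Q 0 * 1 from h.deriv]
    have := mul_le_mul_of_nonneg_left (hmono (Set.left_mem_Ico.2 one_pos) ⟨hs.1.le, hs.2⟩ hs.1.le)
      (show 0 ≤ mass k / 2 by have := massK_pos (k := k); positivity)
    linarith
  have hanti : AntitoneOn ψ (Set.Icc 0 1) := antitoneOn_of_deriv_nonpos (convex_Icc 0 1)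
    ((continuous_spinG r' d).add (continuous_const.mul continuous_id)).continuousOn
    (fun s hs => by rw [interior_Icc] at hs; exact (hψd s hs).1.differentiableWithinAt)
    fun s hs => by rw [interior_Icc] at hs; exact (hψd s hs).2
  have h := hanti (Set.left_mem_Icc.2 zero_le_one) (Set.right_mem_Icc.2 zero_le_one) zero_le_one
  have e0 : line r' d 0 = r' := by funext i; simp [line]
  have e1 : line r' d 1 = r := by funext i; simp [line, hd]
  simp only [hψ, e0, e1, mul_zero, add_zero, mul_one] at h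
  have eQ : Q 0 = ∑ l ∈ Icc 1 k, spinQ k r' l * (r l - r' l) := by
    simp only [hQ, e0]
    exact sum_congr rfl fun l _ => by simp only [hd]; ring
  rw [eQ] at h
  linarith

end Vale.Agent.P157.Cube2
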