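import Vale.Agent.P157.Cube2.Intf
import Vale.Agent.P157.Cube2.Concave

/-!
# P157: properties of the one-spin functional
-/

open MeasureTheory ProbabilityTheory Real Filter Topology Finset
open Vale.Agent.P157.Rsb (lev mass tail IsPath)

namespace Vale.Agent.P157.Cube2

variable {k : ℕ} {r : ℕ → ℝ}

theorem integral_exp_mul (t : ℝ) : ∫ y, exp (t * y) ∂γ₁ = exp (t ^ 2 / 2) := by
  have := congrFun (mgf_id_gaussianReal (μ := 0) (v := 1)) t
  simpa [mgf] using this

theorem isVar_le (hr : IsVar k r) {i j : ℕ} (hij : i ≤ j) (hjk : j ≤ k) : r i ≤ r j := by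
  induction j, hij using Nat.le_induction with
  | base => exact le_rfl
  | succ j _ ih => exact (ih (by omega)).trans (hr.2 j (by omega))

theorem isVar_nonneg (hr : IsVar k r) {j : ℕ} (hjk : j ≤ k) : 0 ≤ r j := by
  simpa [hr.1] using isVar_le hr (Nat.zero_le j) hjk

theorem isPath_mem {q : ℕ → ℝ} (hq : IsPath k q) {j : ℕ} (hjk : j ≤ k) : 0 ≤ q j ∧ q j ≤ 1 :=
  ⟨isVar_nonneg ⟨hq.1, hq.2.1⟩ hjk, (isVar_le ⟨hq.1, hq.2.1⟩ hjk le_rfl).trans hq.2.2⟩

theorem sum_incr (d : ℕ → ℝ) (n : ℕ) : ∑ j ∈ Icc 1 n, (d j - d (j - 1)) = d n - d 0 := by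
  induction n with
  | zero => simp
  | succ n ih => rw [sum_Icc_succ_top (by omega), ih, Nat.add_sub_cancel]; ring

theorem sum_parts (x d : ℕ → ℝ) (h0 : d 0 = 0) (n : ℕ) :
    ∑ l ∈ Icc 1 n, x l * d l = ∑ j ∈ Icc 1 n, (d j - d (j - 1)) * ∑ l ∈ Icc j n, x l := by
  induction n with
  | zero => simp
  | succ n ih =>
    have e : ∀ j ∈ Icc 1 n, (d j - d (j - 1)) * ∑ l ∈ Icc j (n + 1), x l
        = (d j - d (j - 1)) * ∑ l ∈ Icc j n, x l + (d j - d (j - 1)) * x (n + 1) := fun j hj => by
      rw [sum_Icc_succ_top (show j ≤ n + 1 from (mem_Icc.1 hj).2.trans (Nat.le_succ n)), mul_add]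
    rw [sum_Icc_succ_top (by omega), ih, sum_Icc_succ_top (b := n) (by omega), sum_congr rfl e]
    simp only [Icc_self, sum_singleton, sum_add_distrib, ← sum_mul, sum_incr, h0, Nat.add_sub_cancel]
    ring

theorem spinU_abs {j : ℕ} (hj : j ≤ k) (h : ℝ) : |spinU k r j h| ≤ 1 := (pot_spinF hj).dle h

theorem spinW_mem {l j : ℕ} (hjl : j ≤ l) (hl : l ≤ k) : ∀ h, 0 ≤ spinW k r l j h ∧ spinW k r l j h ≤ 1 := by
  induction hd : l - j generalizing j with
  | zero =>
    intro h
    rw [show j = l by omega, spinW_self]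
    exact ⟨sq_nonneg _, (sq_le_one_iff_abs_le_one _).2 (spinU_abs hl h)⟩
  | succ d ih =>
    intro h
    obtain ⟨C, hC⟩ := bd2_w (r := r) (show j + 1 ≤ l by omega) hl
    have hi := ih (j := j + 1) (by omega) (by omega)
    have hf : Pot (spinF k r (j + 1)) := pot_spinF (by omega)
    rw [show spinW k r l j = spinW k r l (j + 1 - 1) by simp, spinW_step (by omega) (by omega)]
    constructor
    · exact (tE_const hf 0 h).ge.trans (tE_mono hf (Bd.const 0 0) hC (fun x => (hi x).1) h)
    · exact (tE_mono hf hC (Bd.const 0 1) (fun x => (hi x).2) h).trans (tE_const hf 1 h).le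

theorem spinQ_mem {l : ℕ} (hl : l ≤ k) : 0 ≤ spinQ k r l ∧ spinQ k r l ≤ 1 := spinW_mem (Nat.zero_le l) hl 0

theorem spinU_lip {j : ℕ} (hj : j ≤ k) (x y : ℝ) : |spinU k r j x - spinU k r j y| ≤ |x - y| := by
  obtain ⟨C, hC⟩ := bd2_u (r := r) hj
  have hd : ∀ z, ‖deriv (spinU k r j) z‖ ≤ 1 := fun z => by
    rw [Real.norm_eq_abs, abs_of_nonneg (spinU'_nonneg hj z)]
    have h1 := magn_identity (r := r) hj z
    have h2 : 0 ≤ mass k * ∑ l ∈ Ioc j k, spinW k r l j z :=
      mul_nonneg massK_pos.le (sum_nonneg fun l hl => (spinW_mem (mem_Ioc.1 hl).1.le (mem_Ioc.1 hl).2 z).1)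
    have h3 := mul_nonneg (levK_nonneg (k := k) (j + 1)) (sq_nonneg (spinU k r j z))
    linarith
  simpa using Convex.norm_image_sub_le_of_norm_deriv_le (f := spinU k r j) (s := Set.univ)
    (fun z _ => hC.1 z) (fun z _ => hd z) convex_univ (Set.mem_univ y) (Set.mem_univ x)

/-- The Gaussian mean of `tanh²` around `h`. -/
noncomputable def lowT (R h : ℝ) : ℝ := ∫ z, tanh (h + √R * z) ^ 2 ∂γ₁

theorem int_tanh_sq (f : ℝ → ℝ) (hf : Continuous f) : Integrable (fun z => tanh (f z) ^ 2) γ₁ :=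
  (integrable_const (1 : ℝ)).mono' ((continuous_tanh'.comp hf).pow 2).aestronglyMeasurable
    (ae_of_all _ fun z => by
      rw [Real.norm_eq_abs, abs_of_nonneg (sq_nonneg _)]
      exact (sq_le_one_iff_abs_le_one _).2 (abs_tanh_le _))

theorem gauss_add {a b : ℝ} (ha : 0 ≤ a) (hb : 0 ≤ b) {G : ℝ → ℝ} (hG : Continuous G) {C : ℝ}
    (hC : ∀ x, |G x| ≤ C) : ∫ y, ∫ z, G (√a * y + √b * z) ∂γ₁ ∂γ₁ = ∫ w, G (√(a + b) * w) ∂γ₁ := by
  have h3 : (γ₁.prod γ₁).map (fun w : ℝ × ℝ => √a * w.1 + √b * w.2) = γ₁.map (√(a + b) * ·) := by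
    rw [show (fun w : ℝ × ℝ => √a * w.1 + √b * w.2)
        = (fun w : ℝ × ℝ => w.1 + w.2) ∘ Prod.map (√a * ·) (√b * ·) from rfl,
      ← Measure.map_map (by fun_prop) (by fun_prop),
      ← Measure.map_prod_map _ _ (by fun_prop) (by fun_prop)]
    simp only [gaussianReal_map_const_mul, mul_zero, mul_one]
    rw [show ((gaussianReal 0 _).prod (gaussianReal 0 _)).map (fun w : ℝ × ℝ => w.1 + w.2)
      = Measure.conv _ _ from rfl, gaussianReal_conv_gaussianReal]
    congr 1
    · simp
    · ext; simp [sq_sqrt ha, sq_sqrt hb, sq_sqrt (add_nonneg ha hb)]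
  rw [integral_integral (f := fun y z => G (√a * y + √b * z))
    ((integrable_const C).mono' (Continuous.aestronglyMeasurable (by fun_prop))
      (ae_of_all _ fun p => hC _)),
    ← integral_map (μ := γ₁) (φ := (√(a + b) * ·)) (f := G) (by fun_prop) hG.aestronglyMeasurable, ← h3,
    integral_map (by fun_prop) hG.aestronglyMeasurable]

theorem tE_ge {m a : ℝ} (hm : 0 ≤ m) {f φ : ℝ → ℝ} (hf : Pot f) (hfm : AbsMono f) (hφm : AbsMono φ)
    {C : ℝ} {i : ℕ} (hφ : Bd i C φ) (h : ℝ) : ∫ y, φ (h + √a * y) ∂γ₁ ≤ tE m a f φ h := by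
  have hem : AbsMono fun x => exp (m * f x) := fun x y hxy =>
    exp_le_exp.2 (mul_le_mul_of_nonneg_left (hfm x y hxy) hm)
  have := cheb (μ := γ₁) (ρ := fun _ => 1) (φ := fun y => φ (h + √a * y))
    (ψ := fun y => exp (m * f (h + √a * y))) (fun _ => zero_le_one) (integrable_const 1)
    (by
      simp only [mul_one]
      exact (integrable_const C).mono' (hφ.cont.comp (by fun_prop)).aestronglyMeasurable
        (ae_of_all _ fun y => hφ.abs_le _))
    (by simpa only [mul_one] using int_wt hf h)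
    (by simpa only [mul_one] using int_num hf hφ.cont hφ.abs_le h)
    (fun x y => hφm.comono hem _ _)
  simp only [mul_one, integral_const, probReal_univ, smul_eq_mul] at this
  rw [tE, le_div_iff₀ (den_pos hf h)]
  exact this

theorem lowT_le_spinW (hr : ∀ i, 1 ≤ i → i ≤ k → r (i - 1) < r i) {j : ℕ} (hj : j ≤ k) :
    j ≤ k ∧ r j ≤ r k ∧ ∀ h, lowT (r k - r j) h ≤ spinW k r k j h := by
  refine spinF_induction (P := fun j => j ≤ k ∧ r j ≤ r k ∧ ∀ h, lowT (r k - r j) h ≤ spinW k r k j h)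
    ⟨le_rfl, le_rfl, fun h => by simp [lowT, spinW_self, spinU, spinF_top, deriv_logcosh]⟩ ?_ hj
  rintro j h1 h2 ⟨-, hle, ih⟩
  refine ⟨(Nat.sub_le j 1).trans h2, (hr j h1 h2).le.trans hle, fun h => ?_⟩
  obtain ⟨C, hC⟩ := bd2_w (r := r) h2 le_rfl
  rw [spinW_step h1 h2]
  refine le_trans ?_ (tE_ge (levK_nonneg j) (pot_spinF h2) (absMono_spinF h2) (absMono_spinW hr h2 le_rfl) hC h)
  have e := gauss_add (a := r j - r (j - 1)) (b := r k - r j) (sub_nonneg.2 (hr j h1 h2).le)
    (sub_nonneg.2 hle) (G := fun x => tanh (h + x) ^ 2)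
    ((continuous_tanh'.comp (by fun_prop)).pow 2) (C := 1)
    (fun x => by
      rw [abs_of_nonneg (sq_nonneg _)]
      exact (sq_le_one_iff_abs_le_one _).2 (abs_tanh_le _))
  rw [show r j - r (j - 1) + (r k - r j) = r k - r (j - 1) by ring] at e
  simp only [← add_assoc] at e
  rw [lowT, ← e]
  refine integral_mono_of_nonneg (ae_of_all _ fun y => integral_nonneg fun z => sq_nonneg _)
    ((integrable_const C).mono' (hC.cont.comp (by fun_prop)).aestronglyMeasurable
      (ae_of_all _ fun y => hC.abs_le _)) (ae_of_all _ fun y => ih _)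

/-- The constant in the variance bound of one tilted step. -/
noncomputable def tcC : ℝ := (∫ y, y ^ 2 * exp |y| ∂γ₁) / ∫ y, exp (-|y|) ∂γ₁

theorem int_exp_neg_abs : Integrable (fun y : ℝ => exp (-|y|)) γ₁ := by
  simpa only [neg_one_mul] using int_exp_abs (-1)

theorem int_sq_exp_abs : Integrable (fun y : ℝ => y ^ 2 * exp |y|) γ₁ := by
  refine ((int_exp_abs 2).const_mul 2).mono' (Continuous.aestronglyMeasurable (by fun_prop))
    (ae_of_all _ fun y => ?_)
  have h := quadratic_le_exp_of_nonneg (abs_nonneg y)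
  rw [sq_abs] at h
  rw [Real.norm_eq_abs, abs_of_nonneg (mul_nonneg (sq_nonneg y) (exp_pos _).le),
    show (2 : ℝ) * |y| = |y| + |y| by ring, exp_add, ← mul_assoc]
  exact mul_le_mul_of_nonneg_right (by linarith [abs_nonneg y]) (exp_pos _).le

theorem tcC_nonneg : 0 ≤ tcC :=
  div_nonneg (integral_nonneg fun y => mul_nonneg (sq_nonneg y) (exp_pos _).le)
    (integral_nonneg fun y => (exp_pos _).le)

theorem tC_le {m a : ℝ} (hm0 : 0 ≤ m) (hm1 : m ≤ 1) (ha0 : 0 ≤ a) (ha1 : a ≤ 1) {f φ : ℝ → ℝ} (hf : Pot f)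
    {C : ℝ} (hφ : Bd 0 C φ) (hlip : ∀ x y, |φ x - φ y| ≤ |x - y|) (h : ℝ) :
    tC m a f φ φ h ≤ tcC * a := by
  set c := φ h
  have q2 := hφ.mul hφ
  have hb := hφ.sub (Bd.const 0 c)
  have hb2 := hb.mul hb
  have e : tE m a f (fun x => (φ x - c) * (φ x - c)) h
      = tE m a f (fun x => φ x * φ x) h + (-2 * c) * tE m a f φ h + c * c := by
    rw [show (fun x => (φ x - c) * (φ x - c)) = fun x => (φ x * φ x + (-2 * c) * φ x) + c * c from
      funext fun x => by ring, tE_add hf (q2.add ((Bd.const 0 _).mul hφ)) (Bd.const 0 _),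
      tE_add hf q2 ((Bd.const 0 _).mul hφ), tE_const_mul, tE_const hf]
  have hs : √a ≤ 1 := sqrt_le_one.2 ha1
  have hms : ∀ y : ℝ, |m * f (h + √a * y) - m * f h| ≤ |y| := fun y => by
    rw [← mul_sub, abs_mul, abs_of_nonneg hm0]
    calc m * |f (h + √a * y) - f h| ≤ 1 * |(h + √a * y) - h| :=
          mul_le_mul hm1 (hf.growth _ _) (abs_nonneg _) zero_le_one
      _ ≤ 1 * |y| := by
          rw [add_sub_cancel_left, abs_mul, abs_of_nonneg (sqrt_nonneg a)]
          simpa using mul_le_mul_of_nonneg_right hs (abs_nonneg y)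
      _ = |y| := one_mul _
  have hn : num m a f (fun x => (φ x - c) * (φ x - c)) h
      ≤ a * exp (m * f h) * ∫ y, y ^ 2 * exp |y| ∂γ₁ := by
    rw [num, ← integral_const_mul]
    refine integral_mono (int_num hf hb2.cont hb2.abs_le h) (int_sq_exp_abs.const_mul _) fun y => ?_
    have h1 : (φ (h + √a * y) - c) * (φ (h + √a * y) - c) ≤ a * y ^ 2 := by
      have := hlip (h + √a * y) h
      rw [add_sub_cancel_left] at this
      calc _ = |φ (h + √a * y) - c| ^ 2 := by rw [sq_abs, sq]
        _ ≤ |√a * y| ^ 2 := pow_le_pow_left₀ (abs_nonneg _) this 2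
        _ = _ := by rw [sq_abs, mul_pow, sq_sqrt ha0]
    calc _ ≤ a * y ^ 2 * (exp (m * f h) * exp |y|) := by
          refine mul_le_mul h1 ?_ (exp_pos _).le (by positivity)
          rw [← exp_add, exp_le_exp]; linarith [(abs_le.1 (hms y)).2]
      _ = _ := by ring
  have hd : exp (m * f h) * ∫ y, exp (-|y|) ∂γ₁ ≤ den m a f h := by
    rw [den, ← integral_const_mul]
    refine integral_mono (int_exp_neg_abs.const_mul _) (int_wt hf h) fun y => ?_
    rw [← exp_add, exp_le_exp]; linarith [(abs_le.1 (hms y)).1]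
  have hI : 0 < ∫ y, exp (-|y|) ∂γ₁ := integral_exp_pos int_exp_neg_abs
  have key : tE m a f (fun x => (φ x - c) * (φ x - c)) h ≤ tcC * a := by
    rw [tE]
    refine (div_le_div₀ (by
      have := integral_nonneg (μ := γ₁) (f := fun y : ℝ => y ^ 2 * exp |y|)
        fun y => mul_nonneg (sq_nonneg y) (exp_pos _).le
      positivity) hn (by positivity) hd).trans (le_of_eq ?_)
    rw [tcC]
    field_simp
  have := mul_self_nonneg (tE m a f φ h - c)
  simp only [tC]
  linarith

theorem spinW_top_le (hr : ∀ i, 1 ≤ i → i ≤ k → r (i - 1) ≤ r i) {l : ℕ} (hl : l ≤ k)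
    (h1 : r k - r l ≤ 1) : ∀ h, spinW k r k l h ≤ spinU k r l h ^ 2 + tcC * (r k - r l) := by
  have mono : ∀ {j}, j ≤ k → r j ≤ r k := fun {j} hj =>
    spinF_induction (P := fun j => j ≤ k → r j ≤ r k) (fun _ => le_rfl)
      (fun j a b ih _ => (hr j a b).trans (ih b)) hj hj
  induction hd : k - l generalizing l with
  | zero =>
    intro h
    rw [show l = k by omega, spinW_self]; simp
  | succ d ih =>
    intro h
    have hlk : l + 1 ≤ k := by omega
    have hstep := hr (l + 1) (by omega) hlk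
    rw [Nat.add_sub_cancel] at hstep
    have hmono := mono hlk
    have hi := ih (l := l + 1) hlk (by linarith) (by omega)
    obtain ⟨C, hC⟩ := bd2_w (r := r) hlk le_rfl
    obtain ⟨D, hD⟩ := bd2_u (r := r) hlk
    have hf : Pot (spinF k r (l + 1)) := pot_spinF hlk
    have hD2 : Bd 0 (2 ^ 0 * (D * D)) fun x => spinU k r (l + 1) x * spinU k r (l + 1) x :=
      hD.down.down.mul hD.down.down
    have hu := spinU_step (r := r) (show 1 ≤ l + 1 by omega) hlk
    rw [Nat.add_sub_cancel] at hu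
    rw [show spinW k r k l = spinW k r k (l + 1 - 1) by simp, spinW_step (by omega) hlk,
      Nat.add_sub_cancel, hu]
    set a := r (l + 1) - r l
    calc tE (lev k (l + 1)) a (spinF k r (l + 1)) (spinW k r k (l + 1)) h
        ≤ tE (lev k (l + 1)) a (spinF k r (l + 1))
            (fun x => spinU k r (l + 1) x * spinU k r (l + 1) x + tcC * (r k - r (l + 1))) h :=
          tE_mono hf hC.down.down (hD2.add (Bd.const 0 _)) (fun x => by rw [← sq]; exact hi x) h
      _ = tC (lev k (l + 1)) a (spinF k r (l + 1)) (spinU k r (l + 1)) (spinU k r (l + 1)) h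
            + tE (lev k (l + 1)) a (spinF k r (l + 1)) (spinU k r (l + 1)) h ^ 2
            + tcC * (r k - r (l + 1)) := by
          rw [tE_add hf hD2 (Bd.const 0 _), tE_const hf, tC]; ring
      _ ≤ tcC * a + tE (lev k (l + 1)) a (spinF k r (l + 1)) (spinU k r (l + 1)) h ^ 2
            + tcC * (r k - r (l + 1)) := by
          have := tC_le (levK_nonneg (l + 1)) ((le_abs_self _).trans (levK_abs hlk)) (a := a)
            (by simp only [a]; linarith) (by simp only [a]; linarith) hf hD.down.down (spinU_lip hlk) h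
          linarith
      _ = _ := by simp only [a]; ring

theorem spinQ_top_le (hr : ∀ i, 1 ≤ i → i ≤ k → r (i - 1) ≤ r i) {l : ℕ} (hl : l ≤ k)
    (h1 : r k - r l ≤ 1) : spinQ k r k ≤ spinQ k r l + tcC * (r k - r l) := by
  suffices H : ∀ j, j ≤ l → ∀ h, spinW k r k j h ≤ spinW k r l j h + tcC * (r k - r l) from
    H 0 (Nat.zero_le _) 0
  intro j hjl
  induction hd : l - j generalizing j with
  | zero =>
    intro h
    rw [show j = l by omega, spinW_self (k := k) (r := r) l]
    exact spinW_top_le hr hl h1 h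
  | succ d ih =>
    intro h
    obtain ⟨C, hC⟩ := bd2_w (r := r) (show j + 1 ≤ k by omega) le_rfl
    obtain ⟨D, hD⟩ := bd2_w (r := r) (show j + 1 ≤ l by omega) hl
    have hf : Pot (spinF k r (j + 1)) := pot_spinF (by omega)
    rw [show spinW k r k j = spinW k r k (j + 1 - 1) by simp, spinW_step (by omega) (by omega),
      show spinW k r l j = spinW k r l (j + 1 - 1) by simp, spinW_step (by omega) (by omega)]
    refine (tE_mono hf hC.down.down (hD.down.down.add (Bd.const 0 _)) (ih (j + 1) (by omega) (by omega)) h).trans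
      (le_of_eq ?_)
    rw [tE_add hf hD.down.down (Bd.const 0 _), tE_const hf]

theorem spinF_zero {j : ℕ} (hj : j ≤ k) : spinF k (fun _ => (0 : ℝ)) j = fun h => log (cosh h) := by
  refine spinF_induction (P := fun j => spinF k (fun _ => (0 : ℝ)) j = fun h => log (cosh h)) spinF_top ?_ hj
  intro j h1 h2 ih
  rw [spinF_step h1 h2, ih]
  funext h
  simp [hT, den, log_exp, levK_ne (k := k) h1]

theorem log_cosh_le (h : ℝ) : log (cosh h) ≤ |h| := by
  rw [← log_exp |h|]
  refine log_le_log (cosh_pos h) ?_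
  have h1 := exp_le_exp.2 (le_abs_self h)
  have h2 := exp_le_exp.2 (neg_le_abs h)
  rw [cosh_eq]; linarith

theorem spinF_le (hr : IsVar k r) {j : ℕ} (hj : j ≤ k) :
    ∀ h, spinF k r j h ≤ |h| + ∑ i ∈ Ioc j k, (log 2 / lev k i + lev k i * (r i - r (i - 1)) / 2) := by
  refine spinF_induction (P := fun j => ∀ h, spinF k r j h ≤
    |h| + ∑ i ∈ Ioc j k, (log 2 / lev k i + lev k i * (r i - r (i - 1)) / 2)) ?_ ?_ hj
  · intro h; simpa [spinF_top] using log_cosh_le h
  · intro j h1 h2 ih h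
    set c := ∑ i ∈ Ioc j k, (log 2 / lev k i + lev k i * (r i - r (i - 1)) / 2) with hc
    set m := lev k j with hm
    set a := r j - r (j - 1) with ha
    have hm0 : 0 < m := (levK_nonneg j).lt_of_ne' (levK_ne h1)
    have ha0 : 0 ≤ a := sub_nonneg.2 (isVar_le hr (Nat.sub_le j 1) h2)
    have hs : Ioc (j - 1) k = insert j (Ioc j k) := by
      ext i; simp only [mem_Ioc, mem_insert]; omega
    have hp : ∀ s : ℝ, Integrable (fun y => exp (m * (s * h) + m * (s * √a) * y)) γ₁ := fun s => by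
      simp only [exp_add]; exact (integrable_exp_mul_gaussianReal _).const_mul _
    have hI : ∀ s : ℝ, s ^ 2 = 1 → ∫ y, exp (m * (s * h) + m * (s * √a) * y) ∂γ₁
        ≤ exp (m * |h|) * exp (m ^ 2 * a / 2) := fun s hs => by
      simp only [exp_add, integral_const_mul, integral_exp_mul]
      rw [show (m * (s * √a)) ^ 2 = m ^ 2 * a by rw [mul_pow, mul_pow, hs, sq_sqrt ha0, one_mul]]
      refine mul_le_mul_of_nonneg_right (exp_le_exp.2 (mul_le_mul_of_nonneg_left ?_ hm0.le)) (exp_pos _).le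
      rcases (sq_eq_one_iff.1 hs) with e | e <;> subst e
      · simpa using le_abs_self h
      · simpa using neg_le_abs h
    have hden : den m a (spinF k r j) h ≤ exp (m * c) * (2 * (exp (m * |h|) * exp (m ^ 2 * a / 2))) := by
      refine (integral_mono (int_wt (pot_spinF h2) h) (((hp 1).fun_add (hp (-1))).const_mul (exp (m * c)))
        fun y => ?_).trans ?_
      · calc exp (m * spinF k r j (h + √a * y)) ≤ exp (m * (|h + √a * y| + c)) :=
              exp_le_exp.2 (mul_le_mul_of_nonneg_left (ih _) hm0.le)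
          _ = exp (m * c) * exp (m * |h + √a * y|) := by rw [← exp_add]; ring_nf
          _ ≤ _ := by
              refine mul_le_mul_of_nonneg_left ?_ (exp_pos _).le
              rcases abs_choice (h + √a * y) with e | e <;> rw [e]
              · refine le_trans (le_of_eq ?_) (le_add_of_nonneg_right (exp_pos _).le); ring_nf
              · refine le_trans (le_of_eq ?_) (le_add_of_nonneg_left (exp_pos _).le); ring_nf
      · rw [integral_const_mul, integral_add (hp 1) (hp (-1))]
        exact mul_le_mul_of_nonneg_left (by linarith [hI 1 (by norm_num), hI (-1) (by norm_num)]) (exp_pos _).le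
    rw [hs, sum_insert (by simp), spinF_step h1 h2, hT, div_le_iff₀ hm0]
    refine (log_le_log (den_pos (pot_spinF h2) h) hden).trans (le_of_eq ?_)
    rw [log_mul (exp_pos _).ne' (by positivity), log_mul two_ne_zero (by positivity),
      log_mul (exp_pos _).ne' (exp_pos _).ne', log_exp, log_exp, log_exp, ← hm, ← ha]
    rw [← hc]
    clear_value c
    field_simp
    ring

theorem sum_lev_incr {n : ℕ} (hr0 : r 0 = 0) :
    ∑ i ∈ Icc 1 n, lev k i * (r i - r (i - 1)) = ((n : ℝ) + 1) * mass k * r n - mass k * ∑ l ∈ Icc 1 n, r l := by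
  induction n with
  | zero => simp [hr0]
  | succ n ih =>
    rw [sum_Icc_succ_top (by omega), sum_Icc_succ_top (by omega), ih, Nat.add_sub_cancel]
    simp only [lev, mass]
    push_cast
    ring

theorem spinObj_le {q : ℕ → ℝ} (hq : IsPath k q) (hr : IsVar k r) :
    spinObj k q r ≤ ∑ i ∈ Icc 1 k, log 2 / lev k i := by
  have h := spinF_le hr (Nat.zero_le k) 0
  have h0 : Ioc 0 k = Icc 1 k := by ext i; simp; omega
  rw [h0, abs_zero, zero_add, sum_add_distrib, ← sum_div (f := fun i => lev k i * (r i - r (i - 1))),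
    sum_lev_incr hr.1, show ((k : ℝ) + 1) * mass k = 1 by unfold mass; field_simp] at h
  have h2 : ∑ l ∈ Icc 1 k, q l * r l ≤ ∑ l ∈ Icc 1 k, r l := sum_le_sum fun l hl =>
    mul_le_of_le_one_left (isVar_nonneg hr (mem_Icc.1 hl).2) (isPath_mem hq (mem_Icc.1 hl).2).2
  have h3 := mul_le_mul_of_nonneg_left h2 (massK_pos (k := k)).le
  simp only [spinObj, spinG]
  linarith

theorem absMono_tanh_sq : AbsMono fun x => tanh x ^ 2 := fun x y hxy => by
  have h : ∀ z, tanh z ^ 2 = tanh |z| ^ 2 := fun z => by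
    rcases abs_choice z with e | e <;> rw [e]
    rw [tanh_neg, neg_sq]
  have h0 : 0 ≤ tanh |x| := by simpa using tanh_monotone (abs_nonneg x)
  simp only [h x, h y]
  exact pow_le_pow_left₀ h0 (tanh_monotone hxy) 2

theorem lowT_mono {R R' : ℝ} (h : R ≤ R') : lowT R 0 ≤ lowT R' 0 := by
  refine integral_mono (int_tanh_sq _ (by fun_prop)) (int_tanh_sq _ (by fun_prop)) fun z => ?_
  simp only [zero_add]
  refine absMono_tanh_sq _ _ ?_
  rw [abs_mul, abs_mul, abs_of_nonneg (sqrt_nonneg R), abs_of_nonneg (sqrt_nonneg R')]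
  exact mul_le_mul_of_nonneg_right (sqrt_le_sqrt h) (abs_nonneg z)

theorem exists_lowT {δ : ℝ} (hδ : 0 < δ) : ∃ R, 0 ≤ R ∧ 1 - δ ≤ lowT R 0 := by
  have hb : ∀ x : ℝ, 1 - 4 / (|x| + 1) ≤ tanh x ^ 2 := fun x => by
    have h1 : 1 - tanh x ^ 2 = 1 / cosh x ^ 2 := by
      rw [tanh_eq_sinh_div_cosh, div_pow, one_sub_div (by positivity), cosh_sq x]; ring_nf
    have h2 : (|x| + 1) / 2 ≤ cosh x := by
      have := add_one_le_exp |x|
      rw [← cosh_abs, cosh_eq]; linarith [exp_pos (-|x|)]
    have h3 : (|x| + 1) / 4 ≤ cosh x ^ 2 :=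
      calc (|x| + 1) / 4 ≤ cosh x * 1 := by linarith [abs_nonneg x]
        _ ≤ cosh x * cosh x := mul_le_mul_of_nonneg_left (one_le_cosh x) (cosh_pos x).le
        _ = _ := (sq _).symm
    have h4 : 1 / cosh x ^ 2 ≤ 4 / (|x| + 1) := by
      rw [div_le_div_iff₀ (by positivity) (by positivity)]; linarith
    linarith
  have ht : Tendsto (fun n : ℕ => ∫ z, tanh ((n : ℝ) * z) ^ 2 ∂γ₁) atTop (𝓝 1) := by
    have := tendsto_integral_of_dominated_convergence (μ := γ₁) (fun _ => (1 : ℝ))
      (F := fun (n : ℕ) z => tanh ((n : ℝ) * z) ^ 2) (f := fun _ => 1)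
      (fun n => (int_tanh_sq (fun z => (n : ℝ) * z) (by fun_prop)).aestronglyMeasurable)
      (integrable_const 1)
      (fun n => ae_of_all _ fun z => by
        rw [Real.norm_eq_abs, abs_of_nonneg (sq_nonneg _)]
        exact (sq_le_one_iff_abs_le_one _).2 (abs_tanh_le _))
      (by
        have := nullSingletonClass_gaussianReal (μ := 0) (v := 1) one_ne_zero
        have hz : ∀ᵐ z ∂γ₁, z ≠ 0 := by simp [ae_iff]
        filter_upwards [hz] with z hz
        have h0 : Tendsto (fun n : ℕ => |(n : ℝ) * z| + 1) atTop atTop :=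
          tendsto_atTop_add_const_right _ _ (by
            simp only [abs_mul, Nat.abs_cast]
            exact Tendsto.atTop_mul_const (abs_pos.2 hz) tendsto_natCast_atTop_atTop)
        exact tendsto_of_tendsto_of_tendsto_of_le_of_le
          (by simpa using (h0.const_div_atTop 4).const_sub 1) tendsto_const_nhds (fun n => hb _)
          fun n => (sq_le_one_iff_abs_le_one _).2 (abs_tanh_le _))
    simpa using this
  obtain ⟨n, hn⟩ := (ht.eventually_const_le (show 1 - δ < 1 by linarith)).exists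
  exact ⟨(n : ℝ) ^ 2, sq_nonneg _, by simpa [lowT, sqrt_sq (Nat.cast_nonneg (α := ℝ) n)] using hn⟩

theorem spin : SpinStmt := by
  refine ⟨fun k q r r' e hr hr' hs he => ?_, fun k q hq => ?_, fun d hd hd1 => ?_⟩
  · have hs' : ∀ j, 1 ≤ j → j ≤ k → r' (j - 1) < r' j := fun j a b => by
      simpa [show j - 1 + 1 = j by omega] using hs (j - 1) (by omega)
    have ht := spinG_tangent (k := k) (by rw [hr.1, hr'.1]) (fun j a b => isVar_le hr (Nat.sub_le j 1) b) hs'
    have key : mass k * ∑ l ∈ Icc 1 k, (q l - spinQ k r' l) * (r l - r' l) ≤ e * (r k + r' k) := by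
      rw [sum_parts _ (fun l => r l - r' l) (by simp [hr.1, hr'.1]), mul_sum]
      have hrk : ∑ j ∈ Icc 1 k, ((r j - r (j - 1)) + (r' j - r' (j - 1))) = r k + r' k := by
        rw [sum_add_distrib, sum_incr, sum_incr, hr.1, hr'.1, sub_zero, sub_zero]
      rw [← hrk, mul_sum]
      refine sum_le_sum fun j hj => ?_
      obtain ⟨h1, h2⟩ := mem_Icc.1 hj
      have a1 := isVar_le hr (Nat.sub_le j 1) h2
      have a2 := isVar_le hr' (Nat.sub_le j 1) h2
      rw [show mass k * ((r j - r' j - (r (j - 1) - r' (j - 1))) * ∑ l ∈ Icc j k, (q l - spinQ k r' l))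
          = ((r j - r (j - 1)) - (r' j - r' (j - 1))) * (tail k q j - spinTail k r' j) by
        rw [sum_sub_distrib, tail, spinTail]; ring, mul_comm e]
      refine (le_abs_self _).trans ?_
      rw [abs_mul]
      refine mul_le_mul ?_ (he j hj) (abs_nonneg _) (by linarith)
      rw [abs_le]; constructor <;> linarith
    have e2 : ∑ l ∈ Icc 1 k, (q l - spinQ k r' l) * (r l - r' l)
        = ((∑ l ∈ Icc 1 k, q l * r l) - ∑ l ∈ Icc 1 k, q l * r' l)
          - ∑ l ∈ Icc 1 k, spinQ k r' l * (r l - r' l) := by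
      rw [← sum_sub_distrib, ← sum_sub_distrib]; exact sum_congr rfl fun l _ => by ring
    rw [e2] at key
    simp only [spinObj]
    linarith
  · have h0 : IsVar k fun _ => (0 : ℝ) := ⟨rfl, fun _ _ => le_rfl⟩
    have hb : BddAbove (spinObj k q '' {r | IsVar k r}) :=
      ⟨∑ i ∈ Icc 1 k, log 2 / lev k i, by rintro _ ⟨r, hr, rfl⟩; exact spinObj_le hq hr⟩
    have hm : spinObj k q (fun _ => 0) ∈ spinObj k q '' {r | IsVar k r} :=
      ⟨fun _ => (0 : ℝ), h0, rfl⟩
    refine ⟨⟨_, hm⟩, hb, ?_⟩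
    simpa [spinSup, spinObj, spinG, spinF_zero] using le_csSup hb hm
  · obtain ⟨R₀, hR₀, hlow⟩ := exists_lowT (half_pos hd)
    refine ⟨R₀ + 1, fun k q r hq hr => ?_⟩
    set ε := min 1 (d / (2 * (tcC + 1))) with hε
    have hC := tcC_nonneg
    have hε0 : 0 < ε := lt_min one_pos (by positivity)
    have hε1 : ε ≤ 1 := min_le_left _ _
    have hεd : tcC * ε + ε ≤ d / 2 := by
      have := (le_div_iff₀ (show 0 < 2 * (tcC + 1) by positivity)).1 (show ε ≤ d / (2 * (tcC + 1)) from min_le_right _ _)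
      linarith
    set e : ℕ → ℝ := fun l => ε * l / k with he
    have heb : ∀ l ≤ k, 0 ≤ e l ∧ e l ≤ ε := fun l hl => by
      refine ⟨by simp only [he]; positivity, ?_⟩
      simp only [he, mul_div_assoc]
      exact mul_le_of_le_one_right hε0.le (div_le_one_of_le₀ (by exact_mod_cast hl) (Nat.cast_nonneg k))
    set r' : ℕ → ℝ := fun l => min (r l) R₀ + e l with hr'
    have hs : ∀ j, 1 ≤ j → j ≤ k → r' (j - 1) < r' j := fun j a b => by
      have h1 := min_le_min_right R₀ (isVar_le hr (Nat.sub_le j 1) b)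
      have h2 : e (j - 1) < e j := by
        have hk : (0 : ℝ) < k := by exact_mod_cast (show 0 < k by omega)
        simp only [he]
        refine div_lt_div_of_pos_right (mul_lt_mul_of_pos_left ?_ hε0) hk
        exact_mod_cast (show j - 1 < j by omega)
      simp only [hr']; linarith
    have hv : IsVar k r' := ⟨by simp [hr', he, hr.1, hR₀], fun j hj => (hs (j + 1) (by omega) hj).le⟩
    refine ⟨r', hv, ?_, ?_⟩
    · linarith [min_le_right (r k) R₀, (heb k le_rfl).2, show r' k = min (r k) R₀ + e k from rfl]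
    have hkey : ∀ l ∈ Icc 1 k, (1 - d) * q l * r l - q l * r' l - spinQ k r' l * (r l - r' l) ≤ ε := by
      intro l hl
      obtain ⟨hl1, hlk⟩ := mem_Icc.1 hl
      obtain ⟨q0, q1⟩ := isPath_mem hq hlk
      obtain ⟨Q0, Q1⟩ := spinQ_mem (r := r') hlk
      obtain ⟨e0, e1⟩ := heb l hlk
      have r0 := isVar_nonneg hr hlk
      have rl : r' l = min (r l) R₀ + e l := rfl
      rcases le_or_gt (r l) R₀ with hc | hc
      · rw [min_eq_left hc] at rl
        rw [rl]
        nlinarith [mul_nonneg (mul_nonneg hd.le q0) r0, mul_nonneg q0 e0, mul_le_mul_of_nonneg_right Q1 e0]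
      · rw [min_eq_right hc.le] at rl
        have hrk : r' k = R₀ + e k := by
          rw [show r' k = min (r k) R₀ + e k from rfl, min_eq_right (hc.le.trans (isVar_le hr hlk le_rfl))]
        have ek := (heb k le_rfl).2
        have h1 : r' k - r' l ≤ ε := by linarith
        have h2 := spinQ_top_le (fun j a b => (hs j a b).le) hlk (r := r') (h1.trans hε1)
        have h3 := (lowT_le_spinW (r := r') hs (Nat.zero_le k)).2.2 0
        have h4 : lowT R₀ 0 ≤ lowT (r' k - r' 0) 0 := lowT_mono (by rw [hv.1]; linarith [(heb k le_rfl).1])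
        have h5 : 1 - d ≤ spinQ k r' l := by
          have : tcC * (r' k - r' l) ≤ tcC * ε := mul_le_mul_of_nonneg_left h1 hC
          have : spinW k r' k 0 0 = spinQ k r' k := rfl
          linarith
        have r'0 := isVar_nonneg hv hlk
        rcases le_total (r' l) (r l) with hh | hh
        · nlinarith [mul_nonneg (mul_nonneg hd.le q0) r'0,
            mul_le_mul_of_nonneg_right h5 (sub_nonneg.2 hh),
            mul_nonneg (mul_nonneg (sub_nonneg.2 hd1) (sub_nonneg.2 q1)) (sub_nonneg.2 hh)]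
        · have hre : r' l - r l ≤ ε := by linarith
          nlinarith [mul_nonneg (mul_nonneg hd.le q0) r0, mul_nonneg q0 (sub_nonneg.2 hh),
            mul_le_mul_of_nonneg_right Q1 (sub_nonneg.2 hh)]
    have ht := spinG_tangent (k := k) (by rw [hr.1, hv.1]) (fun j a b => isVar_le hr (Nat.sub_le j 1) b) hs
    have hsum := mul_le_mul_of_nonneg_left (sum_le_sum hkey) (massK_pos (k := k)).le
    rw [sum_sub_distrib, sum_sub_distrib, sum_const, Nat.card_Icc, nsmul_eq_mul] at hsum
    have hm : mass k * (((k + 1 - 1 : ℕ) : ℝ) * ε) ≤ ε := by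
      rw [Nat.add_sub_cancel, ← mul_assoc]
      refine mul_le_of_le_one_left hε0.le ?_
      unfold mass; rw [div_mul_eq_mul_div, one_mul, div_le_one (by positivity)]; linarith
    simp only [spinObj]
    have := mul_nonneg hC hε0.le
    linarith

end Vale.Agent.P157.Cube2
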