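import Vale.Agent.P157.Cube2.Final
import Vale.Agent.P157.Cube2.SpinFacts
import Vale.Agent.P157.Rsb.Refine

/-!
# P157: refining the grid on the cube

The entropy of a path does not grow when the path is read on a finer grid: averaging a path of
variances over the blocks of the old grid can only raise the objective, because the free energy of
one spin is concave.  Hence the limit of the grid values is the infimum over all step paths.
-/

open MeasureTheory ProbabilityTheory Real Finset Filter Topology
open Vale.Agent.P157.Rsb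

namespace Vale.Agent.P157.Cube2

variable {k k' r : ℕ} {q s : ℕ → ℝ}

theorem hT_zero {m : ℝ} (hm : m ≠ 0) (f : ℝ → ℝ) : hT m 0 f = f := by
  funext h
  simp [hT, den, log_exp, hm]

/-- Refining a block-constant path of variances does not change the recursion. -/
theorem spinN_refine (hk : k' + 1 = (r + 1) * (k + 1)) (ρ : ℕ → ℝ) :
    ∀ d ≤ k', spinN k' (refinePath r ρ) d = spinN k ρ (k - (k' - d) / (r + 1)) := by
  intro d
  induction d with
  | zero => intro _; simp [spinN, top_div hk]
  | succ d ih =>
    intro hd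
    obtain ⟨j, hj⟩ : ∃ j, k' - d = j + 1 := ⟨k' - d - 1, by omega⟩
    have hj' : k' - (d + 1) = j := by omega
    simp only [spinN, ih (by omega), hj, hj', Nat.add_sub_cancel]
    by_cases h : (r + 1) ∣ (j + 1)
    · have hi : (j + 1) / (r + 1) = j / (r + 1) + 1 := by simp [Nat.succ_div, h]
      have hik : j / (r + 1) + 1 ≤ k := by
        rw [← hi]; exact (Nat.div_le_div_right (by omega)).trans (top_div hk).le
      have hl : lev k' (j + 1) = lev k (j / (r + 1) + 1) := by
        rw [← hi, ← lev_refine hk, Nat.mul_div_cancel' h]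
      rw [hi, hl, show k - j / (r + 1) = (k - (j / (r + 1) + 1)) + 1 by omega, spinN,
        Nat.sub_sub_self hik, Nat.add_sub_cancel]
      simp only [refinePath, hi]
    · have hi : (j + 1) / (r + 1) = j / (r + 1) := by simp [Nat.succ_div, h]
      rw [refine_step r ρ h, sub_self, hT_zero (levK_ne (by omega)), hi]

theorem spinG_refine (hk : k' + 1 = (r + 1) * (k + 1)) (ρ : ℕ → ℝ) :
    spinG k' (refinePath r ρ) = spinG k ρ := by
  simp [spinG, spinF, spinN_refine hk ρ k' le_rfl, refinePath, top_div hk]

/-- Neighbouring overlaps differ by at most a multiple of the increment of the variance. -/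
theorem spinQ_succ {ρ : ℕ → ℝ} {l : ℕ} (hl : l + 1 ≤ k) (h0 : ρ l ≤ ρ (l + 1))
    (h1 : ρ (l + 1) - ρ l ≤ 1) :
    spinQ k ρ l ≤ spinQ k ρ (l + 1) ∧
      spinQ k ρ (l + 1) ≤ spinQ k ρ l + tcC * (ρ (l + 1) - ρ l) := by
  set a := ρ (l + 1) - ρ l with ha
  suffices H : ∀ j, j ≤ l → ∀ h, spinW k ρ l j h ≤ spinW k ρ (l + 1) j h ∧
      spinW k ρ (l + 1) j h ≤ spinW k ρ l j h + tcC * a from H 0 (Nat.zero_le _) 0
  intro j hjl
  induction hd : l - j generalizing j with
  | zero =>
    intro h
    obtain rfl : j = l := by omega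
    obtain ⟨D, hD⟩ := bd2_u (r := ρ) hl
    have hf : Pot (spinF k ρ (j + 1)) := pot_spinF hl
    have hu := spinU_step (r := ρ) (show 1 ≤ j + 1 by omega) hl
    have hw := spinW_step (k := k) (r := ρ) (show 1 ≤ j + 1 by omega) (le_refl (j + 1))
    simp only [Nat.add_sub_cancel, ← ha] at hu hw
    rw [spinW_self (k := k) (r := ρ) j, hw, spinW_self, hu]
    have e : tE (lev k (j + 1)) a (spinF k ρ (j + 1)) (fun x => spinU k ρ (j + 1) x ^ 2) h
        = tC (lev k (j + 1)) a (spinF k ρ (j + 1)) (spinU k ρ (j + 1)) (spinU k ρ (j + 1)) h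
          + tE (lev k (j + 1)) a (spinF k ρ (j + 1)) (spinU k ρ (j + 1)) h ^ 2 := by
      simp only [tC, pow_two]; ring
    have c0 := tC_self_nonneg (m := lev k (j + 1)) (a := a) hf hD h
    have c1 := tC_le (levK_nonneg (j + 1)) ((le_abs_self _).trans (levK_abs hl)) (a := a)
      (by linarith) h1 hf hD.down.down (spinU_lip hl) h
    simp only [e]
    constructor <;> linarith
  | succ d ih =>
    intro h
    obtain ⟨C, hC⟩ := bd2_w (r := ρ) (show j + 1 ≤ l + 1 by omega) hl
    obtain ⟨D, hD⟩ := bd2_w (r := ρ) (show j + 1 ≤ l by omega) (show l ≤ k by omega)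
    have hf : Pot (spinF k ρ (j + 1)) := pot_spinF (by omega)
    have hW := spinW_step (k := k) (r := ρ) (show 1 ≤ j + 1 by omega) (show j + 1 ≤ l by omega)
    have hW' := spinW_step (k := k) (r := ρ) (show 1 ≤ j + 1 by omega) (show j + 1 ≤ l + 1 by omega)
    simp only [Nat.add_sub_cancel] at hW hW'
    rw [hW, hW']
    refine ⟨tE_mono hf hD.down.down hC.down.down (fun x => (ih (j + 1) (by omega) (by omega) x).1) h,
      (tE_mono hf hC.down.down (hD.down.down.add (Bd.const 0 _))
        (fun x => (ih (j + 1) (by omega) (by omega) x).2) h).trans (le_of_eq ?_)⟩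
    rw [tE_add hf hD.down.down (Bd.const 0 _), tE_const hf]

/-- A sum over the fine grid, block by block. -/
theorem sum_blocks (r : ℕ) (g : ℕ → ℝ) (n : ℕ) :
    ∑ l ∈ range ((r + 1) * n), g l = ∑ p ∈ range n, ∑ i ∈ range (r + 1), g ((r + 1) * p + i) := by
  induction n with
  | zero => simp
  | succ n ih => rw [Nat.mul_succ, sum_range_add, ih, sum_range_succ _ n]

theorem sum_Icc_one {n : ℕ} {g : ℕ → ℝ} (hg : g 0 = 0) :
    ∑ l ∈ Icc 1 n, g l = ∑ l ∈ range (n + 1), g l := by
  refine sum_subset (fun l hl => ?_) fun l hl hn => ?_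
  · rw [mem_range]; have := (mem_Icc.1 hl).2; omega
  · obtain rfl : l = 0 := by
      by_contra h; exact hn (mem_Icc.2 ⟨by omega, by have := mem_range.1 hl; omega⟩)
    exact hg

/-- The means of a fine path over the blocks of the coarse grid. -/
noncomputable def blockMean (r : ℕ) (s : ℕ → ℝ) (p : ℕ) : ℝ :=
  if p = 0 then 0 else (∑ i ∈ range (r + 1), s ((r + 1) * p + i)) / ((r : ℝ) + 1)

theorem block_top (hk : k' + 1 = (r + 1) * (k + 1)) {p i : ℕ} (hp : p < k + 1) (hi : i < r + 1) :
    (r + 1) * p + i ≤ k' := by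
  have h := Nat.mul_le_mul_left (r + 1) (show p + 1 ≤ k + 1 by omega)
  rw [Nat.mul_add (r + 1) p 1, Nat.mul_one] at h
  omega

theorem isVar_blockMean (hk : k' + 1 = (r + 1) * (k + 1)) (hs : IsVar k' s) :
    IsVar k (blockMean r s) := by
  refine ⟨by simp [blockMean], fun p hp => ?_⟩
  have hnn : 0 ≤ blockMean r s (p + 1) := by
    rw [blockMean, if_neg (by omega)]
    exact div_nonneg (sum_nonneg fun i hi =>
      isVar_nonneg hs (block_top hk (by omega) (mem_range.1 hi))) (by positivity)
  by_cases h : p = 0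
  · subst h; simpa [blockMean] using hnn
  · rw [blockMean, blockMean, if_neg h, if_neg (by omega)]
    refine div_le_div_of_nonneg_right (sum_le_sum fun i hi => ?_) (by positivity)
    exact isVar_le hs (Nat.add_le_add_right (Nat.mul_le_mul_left _ (Nat.le_succ p)) i)
      (block_top hk (by omega) (mem_range.1 hi))

/-- The free energy of one spin grows under averaging over blocks. -/
theorem spinG_le_blockMean (hk : k' + 1 = (r + 1) * (k + 1)) (hs : IsVar k' s) :
    spinG k' s ≤ spinG k (blockMean r s) := by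
  set m := blockMean r s with hm
  set S := refinePath r m with hS
  set D : ℕ → ℝ := fun l => (l : ℝ) with hD
  have hmV : IsVar k m := isVar_blockMean hk hs
  set w : ℕ → ℕ → ℝ := fun p i => s ((r + 1) * p + i) - m p with hw
  set C := mass k' / 2 * (∑ p ∈ range (k + 1), ∑ i ∈ range (r + 1), tcC * r * |w p i|
    + ∑ l ∈ Icc 1 k', D l) with hC
  have hS0 : S 0 = 0 := by simp [hS, refinePath, hmV.1]
  have hSm : ∀ l, 1 ≤ l → l ≤ k' → S (l - 1) ≤ S l := fun l a b => by
    simp only [hS, refinePath]
    exact isVar_le hmV (Nat.div_le_div_right (Nat.sub_le l 1))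
      ((Nat.div_le_div_right b).trans (top_div hk).le)
  have hblk : ∀ p i, i < r + 1 → S ((r + 1) * p + i) = m p := fun p i hi => by
    simp [hS, refinePath, Nat.mul_add_div, Nat.div_eq_of_lt hi]
  have key : ∀ t : ℝ, 0 < t → t ≤ 1 → spinG k' s ≤ spinG k' (line S D t) + C * t := by
    intro t t0 t1
    set R := line S D t with hR
    have hRs : ∀ l, 1 ≤ l → l ≤ k' → R (l - 1) < R l := fun l a b => by
      have := hSm l a b
      have : ((l - 1 : ℕ) : ℝ) < l := by exact_mod_cast (show l - 1 < l by omega)
      have := mul_lt_mul_of_pos_left this t0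
      simp only [hR, line, hD]; linarith
    have ht := spinG_tangent (k := k') (r := s) (r' := R) (by simp [hR, line, hD, hS0, hs.1])
      (fun l _ b => isVar_le hs (Nat.sub_le l 1) b) hRs
    have hQ : ∀ p, p < k + 1 → ∀ i, i < r + 1 →
        |spinQ k' R ((r + 1) * p + i) - spinQ k' R ((r + 1) * p)| ≤ tcC * t * i := by
      intro p hp i
      induction i with
      | zero => intro _; simp
      | succ i ih =>
        intro hi
        have hinc : R ((r + 1) * p + i + 1) - R ((r + 1) * p + i) = t := by
          simp only [hR, line, hD]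
          rw [show (r + 1) * p + i + 1 = (r + 1) * p + (i + 1) by ring, hblk p _ hi,
            hblk p i (by omega)]
          push_cast; ring
        obtain ⟨h1, h2⟩ := spinQ_succ (k := k') (ρ := R) (l := (r + 1) * p + i)
          (block_top hk hp hi) (by linarith) (by linarith)
        rw [hinc, show (r + 1) * p + i + 1 = (r + 1) * p + (i + 1) by ring] at h2
        rw [show (r + 1) * p + i + 1 = (r + 1) * p + (i + 1) by ring] at h1
        have := abs_le.1 (ih (by omega))
        have := mul_nonneg tcC_nonneg t0.le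
        rw [abs_le]; push_cast
        constructor <;> linarith
    have hsplit : ∑ l ∈ Icc 1 k', spinQ k' R l * (s l - R l)
        = (∑ p ∈ range (k + 1), ∑ i ∈ range (r + 1), spinQ k' R ((r + 1) * p + i) * w p i)
          - t * ∑ l ∈ Icc 1 k', spinQ k' R l * D l := by
      rw [mul_sum, show (∑ p ∈ range (k + 1), ∑ i ∈ range (r + 1),
          spinQ k' R ((r + 1) * p + i) * w p i) = ∑ l ∈ Icc 1 k', spinQ k' R l * (s l - S l) by
        rw [sum_Icc_one (by simp [hs.1, hS0]), hk, sum_blocks]
        exact sum_congr rfl fun p _ => sum_congr rfl fun i hi => by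
          rw [hblk p i (mem_range.1 hi)],
        ← sum_sub_distrib]
      exact sum_congr rfl fun l _ => by simp only [hR, line]; ring
    have hlow : ∀ p ∈ range (k + 1), -(∑ i ∈ range (r + 1), tcC * r * |w p i|) * t
        ≤ ∑ i ∈ range (r + 1), spinQ k' R ((r + 1) * p + i) * w p i := by
      intro p hp
      have hp' := mem_range.1 hp
      have hQ0 := (spinQ_mem (r := R) (block_top hk hp' (Nat.succ_pos r))).1
      simp only [add_zero] at hQ0
      have hW : 0 ≤ spinQ k' R ((r + 1) * p) * ∑ i ∈ range (r + 1), w p i := by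
        refine mul_nonneg hQ0 ?_
        by_cases h : p = 0
        · refine sum_nonneg fun i hi => ?_
          simp only [hw, h, hm, blockMean, if_pos, sub_zero]
          exact isVar_nonneg hs (block_top hk (by omega) (mem_range.1 hi))
        · refine le_of_eq ?_
          simp only [hw, hm, blockMean, if_neg h, sum_sub_distrib, sum_const, card_range, nsmul_eq_mul]
          push_cast
          field_simp
          ring
      rw [mul_sum] at hW
      rw [← sum_neg_distrib, sum_mul]
      refine le_trans ?_ (sub_le_self _ hW)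
      rw [← sum_sub_distrib]
      refine sum_le_sum fun i hi => ?_
      rw [← sub_mul]
      refine le_trans ?_ (neg_abs_le _)
      rw [abs_mul]
      have hi' : (i : ℝ) ≤ r := by exact_mod_cast Nat.le_of_lt_succ (mem_range.1 hi)
      have h3 := (hQ p hp' i (mem_range.1 hi)).trans
        (mul_le_mul_of_nonneg_left hi' (mul_nonneg tcC_nonneg t0.le))
      linarith [mul_le_mul_of_nonneg_right h3 (abs_nonneg (w p i))]
    have hup : ∑ l ∈ Icc 1 k', spinQ k' R l * D l ≤ ∑ l ∈ Icc 1 k', D l := sum_le_sum fun l hl =>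
      mul_le_of_le_one_left (Nat.cast_nonneg l) (spinQ_mem (mem_Icc.1 hl).2).2
    have hs1 := sum_le_sum hlow
    rw [← sum_mul, sum_neg_distrib] at hs1
    rw [hsplit] at ht
    refine ht.trans ?_
    have hm0 : 0 ≤ mass k' / 2 := by have := massK_pos (k := k'); positivity
    have := mul_le_mul_of_nonneg_left hs1 hm0
    have := mul_le_mul_of_nonneg_left (mul_le_mul_of_nonneg_left hup t0.le) hm0
    simp only [hC]
    linarith
  have hlim : Tendsto (fun t => spinG k' (line S D t) + C * t) (𝓝[>] 0) (𝓝 (spinG k m)) := by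
    have hc : Continuous fun t => spinG k' (line S D t) + C * t :=
      (continuous_spinG (k := k') S D).add (continuous_const.mul continuous_id)
    have h := hc.tendsto (0 : ℝ)
    have e : line S D 0 = S := by funext i; simp [line]
    rw [e, mul_zero, add_zero] at h
    rw [hS, spinG_refine hk] at h
    exact tendsto_nhdsWithin_of_tendsto_nhds h
  refine ge_of_tendsto hlim ?_
  filter_upwards [Ioc_mem_nhdsGT zero_lt_one] with t ht
  exact key t ht.1 ht.2

/-- The pairing with a refined path is the pairing with the block means. -/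
theorem pairing_refine (hk : k' + 1 = (r + 1) * (k + 1)) (hq0 : q 0 = 0) (s : ℕ → ℝ) :
    mass k' * ∑ l ∈ Icc 1 k', refinePath r q l * s l
      = mass k * ∑ p ∈ Icc 1 k, q p * blockMean r s p := by
  rw [sum_Icc_one (by simp [refinePath, hq0]), sum_Icc_one (by simp [hq0]), hk, sum_blocks, mul_sum,
    mul_sum]
  refine sum_congr rfl fun p _ => ?_
  by_cases h : p = 0
  · subst h
    rw [sum_eq_zero fun i hi => by
      simp [refinePath, Nat.div_eq_of_lt (mem_range.1 hi), hq0]]
    simp [hq0]
  · rw [sum_congr rfl fun i hi => show refinePath r q ((r + 1) * p + i) * s ((r + 1) * p + i)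
        = q p * s ((r + 1) * p + i) by
      simp [refinePath, Nat.mul_add_div, Nat.div_eq_of_lt (mem_range.1 hi)], ← mul_sum,
      blockMean, if_neg h]
    have : ((k' : ℝ) + 1) = ((r : ℝ) + 1) * ((k : ℝ) + 1) := by exact_mod_cast hk
    simp only [mass, this]
    field_simp

/-- The entropy does not grow under refinement. -/
theorem spinSup_refine_le (hS : SpinStmt) (hk : k' + 1 = (r + 1) * (k + 1)) (hq : IsPath k q) :
    spinSup k' (refinePath r q) ≤ spinSup k q := by
  refine csSup_le (hS.2.1 k' _ (isPath_refine hk hq)).1 ?_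
  rintro _ ⟨s, hs, rfl⟩
  refine le_trans ?_ (le_csSup (hS.2.1 k q hq).2.1 ⟨_, isVar_blockMean hk hs, rfl⟩)
  have h1 := spinG_le_blockMean hk hs
  have h2 := pairing_refine hk hq.1 s
  simp only [spinObj]
  linarith

/-- The values of the functional at all step paths on all grids. -/
def stepValues (f : ℝ → ℝ) (α : ℝ) : Set ℝ :=
  {x | ∃ (k : ℕ) (q : ℕ → ℝ), IsPath k q ∧ x = spinSup k q + α * phiK k f q}

/-- If the grid values converge to `l`, then `l` is the infimum over all step paths. -/
theorem isGLB_stepValues (hS : SpinStmt) (hP : PhiStmt) {f : ℝ → ℝ} (hf : Measurable f) {L : ℝ}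
    (hL : ∀ u, |f u| ≤ L) {α l : ℝ} (hα : 0 ≤ α)
    (hl : Tendsto (fun k => cubeVal k f α) atTop (𝓝 l)) : IsGLB (stepValues f α) l := by
  constructor
  · rintro x ⟨k, q, hq, rfl⟩
    have hk : ∀ r, ((r + 1) * (k + 1) - 1) + 1 = (r + 1) * (k + 1) := fun r =>
      Nat.sub_add_cancel (Nat.mul_pos (Nat.succ_pos r) (Nat.succ_pos k))
    have hinf : Tendsto (fun r : ℕ => (r + 1) * (k + 1) - 1) atTop atTop :=
      tendsto_atTop_mono (fun r => by
        have := Nat.le_mul_of_pos_right (r + 1) (show 0 < k + 1 by omega); simp only [id]; omega) tendsto_id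
    refine le_of_tendsto (hl.comp hinf) (Eventually.of_forall fun r => ?_)
    simp only [Function.comp_apply]
    refine (csInf_le (valSet_ok hS hP hf hL hα _).2 ⟨_, isPath_refine (hk r) hq, rfl⟩).trans ?_
    simp only [phiK_refine (hk r)]
    linarith [spinSup_refine_le hS (hk r) hq]
  · intro x hx
    refine ge_of_tendsto hl (Eventually.of_forall fun k => ?_)
    refine le_csInf (valSet_ok hS hP hf hL hα k).1 ?_
    rintro _ ⟨q, hq, rfl⟩
    exact hx ⟨k, q, hq, rfl⟩

/-- The pressure converges to the infimum of the functional over all step paths. -/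
theorem cube_parisi (hS : SpinStmt) (hP : PhiStmt) (hX : ApproxStmt) (hLip : CubeLipStmt)
    (hU : CubeUpperStmt) (hLo : CubeLowerStmt) {f : ℝ → ℝ} (hf : Measurable f) {L : ℝ}
    (hL : ∀ u, |f u| ≤ L) {α : ℝ} (hα : 0 < α) :
    ∃ l, Tendsto (fun N => pressureCube f α N) atTop (𝓝 l) ∧
      IsGLB (stepValues f α) l ∧ Tendsto (fun k => cubeVal k f α) atTop (𝓝 l) := by
  obtain ⟨l, h1, h2⟩ := cube_formula hS hP hX hLip hU hLo hf hL hα
  exact ⟨l, h1, isGLB_stepValues hS hP hf hL hα.le h2, h2⟩

end Vale.Agent.P157.Cube2
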