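import Vale.Agent.P157.Cube2.Fold

/-!
# P157: the recursion of one spin along a path of variances

`r` lists the cumulative variances; only the increments `r j - r (j - 1)` enter the recursion.
-/

open MeasureTheory ProbabilityTheory Real Filter Topology Finset
open Vale.Agent.P157.Rsb (lev mass)

namespace Vale.Agent.P157.Cube2

variable {k : ℕ} {r : ℕ → ℝ}

/-- The value after `d` integrated levels. -/
noncomputable def spinN (k : ℕ) (r : ℕ → ℝ) : ℕ → ℝ → ℝ
  | 0 => fun h => log (cosh h)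
  | d + 1 => hT (lev k (k - d)) (r (k - d) - r (k - d - 1)) (spinN k r d)

/-- The value at level `j` as a function of the local field. -/
noncomputable def spinF (k : ℕ) (r : ℕ → ℝ) (j : ℕ) : ℝ → ℝ := spinN k r (k - j)

/-- The magnetisation at level `j`. -/
noncomputable def spinU (k : ℕ) (r : ℕ → ℝ) (j : ℕ) : ℝ → ℝ := deriv (spinF k r j)

/-- The tilted average from level `l` after `d` steps. -/
noncomputable def avgN (k : ℕ) (r : ℕ → ℝ) (l : ℕ) (ψ : ℝ → ℝ) : ℕ → ℝ → ℝ
  | 0 => ψ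
  | d + 1 => tE (lev k (l - d)) (r (l - d) - r (l - d - 1)) (spinF k r (l - d)) (avgN k r l ψ d)

/-- The conditional expectation of the squared magnetisation of level `l`, at level `j ≤ l`. -/
noncomputable def spinW (k : ℕ) (r : ℕ → ℝ) (l j : ℕ) : ℝ → ℝ :=
  avgN k r l (fun h => spinU k r l h ^ 2) (l - j)

/-- The overlap of level `l`. -/
noncomputable def spinQ (k : ℕ) (r : ℕ → ℝ) (l : ℕ) : ℝ := spinW k r l 0 0

/-- The free energy of one spin. -/
noncomputable def spinG (k : ℕ) (r : ℕ → ℝ) : ℝ := spinF k r 0 0 - r k / 2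

theorem spinF_top : spinF k r k = fun h => log (cosh h) := by simp [spinF, spinN]

theorem spinF_step {j : ℕ} (hj : 1 ≤ j) (hjk : j ≤ k) :
    spinF k r (j - 1) = hT (lev k j) (r j - r (j - 1)) (spinF k r j) := by
  simp only [spinF, show k - (j - 1) = (k - j) + 1 by omega, spinN, show k - (k - j) = j by omega]

theorem spinW_self (l : ℕ) : spinW k r l l = fun h => spinU k r l h ^ 2 := by simp [spinW, avgN]

theorem spinW_step {l j : ℕ} (hj : 1 ≤ j) (hjl : j ≤ l) :
    spinW k r l (j - 1) = tE (lev k j) (r j - r (j - 1)) (spinF k r j) (spinW k r l j) := by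
  simp only [spinW, show l - (j - 1) = (l - j) + 1 by omega, avgN, show l - (l - j) = j by omega]

theorem spinF_induction {P : ℕ → Prop} (top : P k) (step : ∀ j, 1 ≤ j → j ≤ k → P j → P (j - 1))
    {j : ℕ} (hj : j ≤ k) : P j := by
  induction hd : k - j generalizing j with
  | zero => exact (show j = k by omega) ▸ top
  | succ d ih =>
    have := step (j + 1) (by omega) (by omega) (ih (j := j + 1) (by omega) (by omega))
    simpa using this

theorem levK_ne {j : ℕ} (hj : 1 ≤ j) : lev k j ≠ 0 := by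
  have : (0 : ℝ) < j := by exact_mod_cast hj
  unfold lev; positivity

theorem levK_abs {j : ℕ} (hjk : j ≤ k) : |lev k j| ≤ 1 := by
  have h0 : (0 : ℝ) ≤ lev k j := by unfold lev; positivity
  rw [abs_of_nonneg h0, lev, div_le_one (by positivity)]
  exact_mod_cast hjk.trans (Nat.le_succ k)

theorem levK_nonneg (j : ℕ) : 0 ≤ lev k j := by unfold lev; positivity

theorem massK_pos : 0 < mass k := by unfold mass; positivity

theorem levK_succ (j : ℕ) : lev k (j + 1) = lev k j + mass k := by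
  unfold lev mass; push_cast; ring

theorem levK_top : lev k (k + 1) = 1 := by
  unfold lev; push_cast; exact div_self (by positivity)

theorem deriv_logcosh : deriv (fun h => log (cosh h)) = tanh := funext fun h => by
  rw [((Real.hasDerivAt_cosh h).log (cosh_pos h).ne').deriv, tanh_eq_sinh_div_cosh]

theorem continuous_tanh' : Continuous tanh :=
  continuous_iff_continuousAt.2 fun x => (hasDerivAt_tanh' x).continuousAt

theorem pot_logcosh : Pot fun h => log (cosh h) :=
  ⟨fun h => ((Real.hasDerivAt_cosh h).log (cosh_pos h).ne').differentiableAt,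
    by rw [deriv_logcosh]; exact continuous_tanh', fun h => by rw [deriv_logcosh]; exact abs_tanh_le h⟩

theorem bd_tanh : ∀ n, ∃ C, Bd n C tanh := by
  intro n
  induction n with
  | zero => exact ⟨1, continuous_tanh', abs_tanh_le⟩
  | succ n ih =>
    obtain ⟨C, hC⟩ := ih
    refine ⟨max C (max 1 (1 + 2 ^ n * (2 ^ n * (C * C)))), fun x => (hasDerivAt_tanh' x).differentiableAt,
      fun x => (abs_tanh_le x).trans ((le_max_left _ _).trans (le_max_right _ _)), ?_⟩
    rw [show deriv tanh = fun x => 1 - tanh x * tanh x from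
      funext fun x => by rw [(hasDerivAt_tanh' x).deriv, sq]]
    exact (((Bd.const n 1).sub (hC.mul hC))).mono (by rw [abs_one]; exact (le_max_right _ _).trans (le_max_right _ _))

theorem pot_spinF {j : ℕ} (hj : j ≤ k) : Pot (spinF k r j) := by
  refine spinF_induction (P := fun j => Pot (spinF k r j)) (by rw [spinF_top]; exact pot_logcosh) ?_ hj
  intro j h1 h2 hf
  rw [spinF_step h1 h2]
  exact ⟨fun h => (hasDerivAt_hT hf (levK_ne h1) h).differentiableAt,
    by rw [deriv_hT hf (levK_ne h1)]; exact continuous_tE hf hf.dcont hf.dle,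
    fun h => by rw [deriv_hT hf (levK_ne h1)]; exact abs_tE_le hf hf.dcont hf.dle h⟩

theorem spinU_step {j : ℕ} (hj : 1 ≤ j) (hjk : j ≤ k) :
    spinU k r (j - 1) = tE (lev k j) (r j - r (j - 1)) (spinF k r j) (spinU k r j) := by
  unfold spinU
  rw [spinF_step hj hjk, deriv_hT (pot_spinF hjk) (levK_ne hj)]

theorem bd_spinU (n : ℕ) {j : ℕ} (hj : j ≤ k) : ∃ C, ∀ r, Bd n C (spinU k r j) := by
  refine spinF_induction (P := fun j => ∃ C, ∀ r, Bd n C (spinU k r j)) ?_ ?_ hj
  · obtain ⟨C, hC⟩ := bd_tanh n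
    exact ⟨C, fun r => by rw [spinU, spinF_top, deriv_logcosh]; exact hC⟩
  · rintro j h1 h2 ⟨C, hC⟩
    obtain ⟨D, hD⟩ := bd_tE n C
    exact ⟨D, fun r => by
      rw [spinU_step h1 h2]; exact hD _ _ _ _ (levK_abs h2) (pot_spinF h2) (hC r) (hC r)⟩

theorem bd_spinW (n : ℕ) {l j : ℕ} (hjl : j ≤ l) (hl : l ≤ k) : ∃ C, ∀ r, Bd n C (spinW k r l j) := by
  induction hd : l - j generalizing j with
  | zero =>
    obtain ⟨C, hC⟩ := bd_spinU (k := k) n hl
    refine ⟨2 ^ n * (C * C), fun r => ?_⟩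
    rw [show j = l by omega, spinW_self]
    simpa only [sq] using (hC r).mul (hC r)
  | succ d ih =>
    obtain ⟨C, hC⟩ := ih (j := j + 1) (by omega) (by omega)
    obtain ⟨C', hC'⟩ := bd_spinU (k := k) n (show j + 1 ≤ k by omega)
    obtain ⟨D, hD⟩ := bd_tE n (max C C')
    refine ⟨D, fun r => ?_⟩
    rw [show spinW k r l j = spinW k r l (j + 1 - 1) by simp, spinW_step (by omega) (by omega)]
    exact hD _ _ _ _ (levK_abs (by omega)) (pot_spinF (by omega))
      ((hC' r).mono (le_max_right _ _)) ((hC r).mono (le_max_left _ _))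

theorem bd2_u {j : ℕ} (hj : j ≤ k) : ∃ C, Bd 2 C (spinU k r j) :=
  let ⟨C, hC⟩ := bd_spinU 2 hj
  ⟨C, hC r⟩

theorem bd2_w {l j : ℕ} (hjl : j ≤ l) (hl : l ≤ k) : ∃ C, Bd 2 C (spinW k r l j) :=
  let ⟨C, hC⟩ := bd_spinW 2 hjl hl
  ⟨C, hC r⟩

theorem tC_comm {m a : ℝ} {f φ ψ : ℝ → ℝ} (h : ℝ) : tC m a f φ ψ h = tC m a f ψ φ h := by
  simp only [tC, mul_comm]

theorem tC_self_nonneg {m a : ℝ} {f φ : ℝ → ℝ} (hf : Pot f) {C : ℝ} {i : ℕ} (hφ : Bd i C φ) (h : ℝ) :
    0 ≤ tC m a f φ φ h := by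
  have hb : ∀ x, |φ x * φ x| ≤ C * C := fun x => by
    rw [abs_mul]; exact mul_le_mul (hφ.abs_le x) (hφ.abs_le x) (abs_nonneg _) hφ.nonneg
  have := cheb (μ := γ₁) (φ := fun y => φ (h + √a * y)) (ψ := fun y => φ (h + √a * y))
    (ρ := fun y => exp (m * f (h + √a * y))) (fun _ => (exp_pos _).le) (int_wt hf h)
    (int_num hf hφ.cont hφ.abs_le h) (int_num hf hφ.cont hφ.abs_le h)
    (int_num hf (hφ.cont.mul hφ.cont) hb h) (fun x y => mul_self_nonneg _)
  simp only [tC, tE, num, den] at this ⊢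
  have hd : 0 < ∫ y, exp (m * f (h + √a * y)) ∂γ₁ := den_pos hf h
  rw [div_mul_div_comm, sub_nonneg, div_le_div_iff₀ (mul_pos hd hd) hd]
  nlinarith

theorem spinU_deriv_step {j : ℕ} (hj : 1 ≤ j) (hjk : j ≤ k) (h : ℝ) :
    deriv (spinU k r (j - 1)) h = tE (lev k j) (r j - r (j - 1)) (spinF k r j) (deriv (spinU k r j)) h
      + lev k j * tC (lev k j) (r j - r (j - 1)) (spinF k r j) (spinU k r j) (spinU k r j) h := by
  obtain ⟨C, hC⟩ := bd2_u (r := r) hjk
  rw [spinU_step hj hjk]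
  exact (hasDerivAt_tE (pot_spinF hjk) hC.down h).deriv

theorem spinU'_nonneg {j : ℕ} (hj : j ≤ k) : ∀ h, 0 ≤ deriv (spinU k r j) h := by
  refine spinF_induction (P := fun j => ∀ h, 0 ≤ deriv (spinU k r j) h) ?_ ?_ hj
  · intro h
    rw [spinU, spinF_top, deriv_logcosh, (hasDerivAt_tanh' h).deriv, sub_nonneg]
    exact (sq_le_one_iff_abs_le_one _).2 (abs_tanh_le h)
  · intro j h1 h2 ih h
    obtain ⟨C, hC⟩ := bd2_u (r := r) h2
    rw [spinU_deriv_step h1 h2]
    refine add_nonneg ?_ (mul_nonneg (levK_nonneg _) (tC_self_nonneg (pot_spinF h2) hC h))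
    have := tE_mono (m := lev k j) (a := r j - r (j - 1)) (pot_spinF (r := r) h2) (Bd.const 0 0) hC.2.2 ih h
    rwa [tE_const (pot_spinF h2)] at this

theorem spinF_neg {j : ℕ} (hj : j ≤ k) : ∀ h, spinF k r j (-h) = spinF k r j h := by
  refine spinF_induction (P := fun j => ∀ h, spinF k r j (-h) = spinF k r j h) ?_ ?_ hj
  · intro h; simp [spinF_top]
  · intro j h1 h2 ih h
    rw [spinF_step h1 h2]; exact hT_neg ih h

theorem spinU_zero {j : ℕ} (hj : j ≤ k) : spinU k r j 0 = 0 := by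
  have := deriv_neg_of_even (pot_spinF (r := r) hj).diff (spinF_neg hj) 0
  rw [neg_zero] at this
  simp only [spinU]; linarith

theorem spinU_odd {j : ℕ} (hj : j ≤ k) (h : ℝ) : spinU k r j (-h) = -spinU k r j h :=
  deriv_neg_of_even (pot_spinF hj).diff (spinF_neg hj) h

theorem spinU_nonneg {j : ℕ} (hj : j ≤ k) {h : ℝ} (hh : 0 ≤ h) : 0 ≤ spinU k r j h := by
  obtain ⟨C, hC⟩ := bd2_u (r := r) hj
  have hm : Monotone (spinU k r j) := monotone_of_deriv_nonneg hC.1 (spinU'_nonneg hj)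
  have := hm hh
  rwa [spinU_zero hj] at this

theorem absMono_spinF {j : ℕ} (hj : j ≤ k) : AbsMono (spinF k r j) :=
  absMono_of_deriv (pot_spinF hj).diff (spinF_neg hj) fun _ hx => spinU_nonneg hj hx

theorem absMono_spinW {l j : ℕ} (hr : ∀ i, 1 ≤ i → i ≤ k → r (i - 1) < r i) (hjl : j ≤ l) (hl : l ≤ k) :
    AbsMono (spinW k r l j) := by
  induction hd : l - j generalizing j with
  | zero =>
    rw [show j = l by omega, spinW_self]
    obtain ⟨C, hC⟩ := bd2_u (r := r) hl
    refine absMono_of_deriv (hC.1.pow 2) (fun x => by rw [spinU_odd hl, neg_sq]) fun x hx => ?_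
    rw [deriv_fun_pow (hC.1 x)]
    have := mul_nonneg (spinU_nonneg (r := r) hl hx) (spinU'_nonneg (r := r) hl x)
    norm_num; linarith
  | succ d ih =>
    have hW := ih (j := j + 1) (by omega) (by omega)
    obtain ⟨C, hC⟩ := bd2_w (r := r) (show j + 1 ≤ l by omega) hl
    rw [show spinW k r l j = spinW k r l (j + 1 - 1) by simp, spinW_step (by omega) (by omega)]
    refine absMono_tE (pot_spinF (by omega)) (spinF_neg (by omega)) ?_ hC.down hW
    have := hr (j + 1) (by omega) (by omega)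
    linarith

theorem spinU_mul_deriv_nonneg {l j : ℕ} (hr : ∀ i, 1 ≤ i → i ≤ k → r (i - 1) < r i) (hjl : j ≤ l)
    (hl : l ≤ k) (h : ℝ) : 0 ≤ spinU k r j h * deriv (spinW k r l j) h := by
  have hW := absMono_spinW hr hjl hl
  obtain ⟨C, hC⟩ := bd2_w (r := r) hjl hl
  have hjk : j ≤ k := hjl.trans hl
  rcases le_total 0 h with hh | hh
  · exact mul_nonneg (spinU_nonneg hjk hh) (hW.deriv_nonneg hC.1 hh)
  · have h1 := spinU_nonneg (r := r) hjk (neg_nonneg.2 hh)
    have h2 := hW.deriv_nonneg hC.1 (neg_nonneg.2 hh)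
    rw [spinU_odd hjk] at h1
    rw [deriv_neg_of_even hC.1 hW.neg_eq] at h2
    exact mul_nonneg_of_nonpos_of_nonpos (by linarith) (by linarith)

end Vale.Agent.P157.Cube2
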