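import Vale.Agent.P157.Cube
import Vale.Agent.P157.Rsb.Intf
import Vale.Agent.P157.Cube2.Spin

/-!
# P157: interfaces for the Ising cube

Each `...Stmt` is a proposition proved in a module of its own; the assembly takes them as arguments.
-/

open MeasureTheory ProbabilityTheory Real Filter Finset
open Vale.Agent.P157.Rsb

namespace Vale.Agent.P157.Cube2

/-- The cube of dimension `N + 1`, scaled to unit length; the auxiliary coordinate is the last spin. -/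
noncomputable def cubeLeaf (N : ℕ) : Leaf (N + 1) where
  X := Fin (N + 1) → Bool
  μ := cubeLaw (N + 1)
  prob := cubeLaw_isProb (N + 1)
  pat := cubeField (N + 1)
  fld := cubeField (N + 1)
  aux x := if x (Fin.last N) then 1 else -1
  det _ := 0
  pat_meas := measurable_cubeField _
  fld_meas := measurable_cubeField _
  aux_meas := measurable_of_countable _
  det_meas := measurable_const
  bdd := ⟨1, fun x => by
    have h : ∀ i, |cubeField (N + 1) x i| ≤ 1 := fun i => by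
      rw [cubeField, abs_div, abs_of_nonneg (sqrt_nonneg _),
        div_le_one (sqrt_pos.2 (by positivity))]
      calc |if x i then (1 : ℝ) else -1| = 1 := by split_ifs <;> simp
        _ ≤ √((N + 1 : ℕ) : ℝ) := by rw [one_le_sqrt]; exact_mod_cast Nat.le_add_left 1 N
    exact ⟨h, h, by split_ifs <;> simp, by simp⟩⟩

/-- The perturbed pressure on the cube of dimension `N + 1`. -/
noncomputable def cubeFree (f : ℝ → ℝ) (N M k : ℕ) (σ : ℕ → ℝ) : ℝ :=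
  free (cubeLeaf N) f M k (N + 1) σ fun _ => 0

/-- The overlap path of the cube system. -/
noncomputable def cubeQ (f : ℝ → ℝ) (N M k : ℕ) (σ : ℕ → ℝ) : ℕ → ℝ :=
  qOf (cubeLeaf N) f M k (N + 1) σ fun _ => 0

/-- The mean distance of an overlap to `q j` at branch level `j`. -/
noncomputable def cubeErr (f : ℝ → ℝ) (N M k : ℕ) (σ q : ℕ → ℝ) (j : ℕ) : ℝ :=
  gibPair (k := k) (cubeLeaf N) f M (N + 1) σ (fun _ => 0) j
    fun _ x y => |sdot ((cubeLeaf N).fld x) ((cubeLeaf N).fld y) - q j|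

/-- The weighted sum of `cubeErr` at the path of the system. -/
noncomputable def cubeTotErr (f : ℝ → ℝ) (N M k : ℕ) (σ : ℕ → ℝ) : ℝ :=
  mass k * ∑ j ∈ Icc 0 k, cubeErr f N M k σ (cubeQ f N M k σ) j

/-- Cumulative variances. -/
def cum (σ : ℕ → ℝ) (j : ℕ) : ℝ := ∑ i ∈ Icc 1 j, σ i ^ 2

/-- A path of cumulative variances. -/
def IsVar (k : ℕ) (r : ℕ → ℝ) : Prop := r 0 = 0 ∧ ∀ j < k, r j ≤ r (j + 1)

/-- The weighted tail of the overlaps of one spin. -/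
noncomputable def spinTail (k : ℕ) (r : ℕ → ℝ) (j : ℕ) : ℝ :=
  mass k * ∑ l ∈ Icc j k, spinQ k r l

/-- The dual objective of one spin. -/
noncomputable def spinObj (k : ℕ) (q r : ℕ → ℝ) : ℝ :=
  spinG k r + mass k / 2 * ∑ l ∈ Icc 1 k, q l * r l

/-- The entropy of a path on the cube. -/
noncomputable def spinSup (k : ℕ) (q : ℕ → ℝ) : ℝ := sSup (spinObj k q '' {r | IsVar k r})

/-- The variational value on the grid with `k` levels. -/
noncomputable def cubeVal (k : ℕ) (f : ℝ → ℝ) (α : ℝ) : ℝ :=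
  sInf ((fun q => spinSup k q + α * phiK k f q) '' {q | IsPath k q})

/-- Raise the cumulative variances by `s` from level `j` on. -/
def bump (ρ : ℕ → ℝ) (j : ℕ) (s : ℝ) (l : ℕ) : ℝ := ρ l + if j ≤ l then s else 0

/-- The amplitude of one auxiliary level. -/
noncomputable def auxAmp (j : ℕ) (s : ℝ) (l : ℕ) : ℝ := if l = j then √s else 0

/-- The gain of one spin, with an extra field of variance `s` at level `j` on the new spin. -/
noncomputable def cubeGain (f : ℝ → ℝ) (N M k : ℕ) (σ : ℕ → ℝ) (j : ℕ) (s : ℝ) : ℝ :=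
  (N + 2) * free (cubeLeaf (N + 1)) f M k (N + 2) σ (auxAmp j s)
    - (N + 1) * cubeFree f N M k σ - s / 2

/-- The systems without patterns are products of single spins. -/
def CubeProductStmt : Prop :=
  (∀ (f : ℝ → ℝ) (N k : ℕ) (σ : ℕ → ℝ), cubeFree f N 0 k σ = spinG k (cum σ)) ∧
  (∀ (f : ℝ → ℝ) (k : ℕ) (σ : ℕ → ℝ), ∀ l ∈ Icc 1 k, cubeQ f 0 0 k σ l = spinQ k (cum σ) l) ∧
  ∀ (f : ℝ → ℝ) (k j : ℕ) (σ : ℕ → ℝ) (s : ℝ), 0 ≤ s → 1 ≤ j → j ≤ k →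
    free (cubeLeaf 0) f 0 k 1 σ (auxAmp j s) - s / 2 = spinG k (bump (cum σ) j s)

/-- Properties of the one-spin functional. -/
def SpinStmt : Prop :=
  (∀ (k : ℕ) (q r r' : ℕ → ℝ) (e : ℝ), IsVar k r → IsVar k r' → (∀ j < k, r' j < r' (j + 1)) →
    (∀ j ∈ Icc 1 k, |tail k q j - spinTail k r' j| ≤ e) →
      spinObj k q r ≤ spinObj k q r' + e / 2 * (r k + r' k)) ∧
  (∀ (k : ℕ) (q : ℕ → ℝ), IsPath k q →
    (spinObj k q '' {r | IsVar k r}).Nonempty ∧ BddAbove (spinObj k q '' {r | IsVar k r}) ∧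
      0 ≤ spinSup k q) ∧
  ∀ d : ℝ, 0 < d → d ≤ 1 → ∃ R : ℝ, ∀ (k : ℕ) (q r : ℕ → ℝ), IsPath k q → IsVar k r →
    ∃ r' : ℕ → ℝ, IsVar k r' ∧ r' k ≤ R ∧
      spinObj k (fun l => (1 - d) * q l) r ≤ spinObj k q r' + d

/-- The cube path is a path. -/
def CubePathStmt : Prop :=
  ∀ (f : ℝ → ℝ) (L : ℝ), Measurable f → (∀ u, |f u| ≤ L) →
    ∀ (N M k : ℕ) (σ : ℕ → ℝ), IsPath k (cubeQ f N M k σ)

/-- A supporting line in one amplitude. -/
def CubeTangentStmt : Prop :=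
  ∀ (f : ℝ → ℝ) (L : ℝ), Measurable f → (∀ u, |f u| ≤ L) →
    ∀ (N M k j : ℕ) (σ : ℕ → ℝ) (s : ℝ), 1 ≤ j → j ≤ k →
      cubeFree f N M k σ + (s - σ j) * (-σ j * tail k (cubeQ f N M k σ) j) - (s - σ j) ^ 2 / 2
        ≤ cubeFree f N M k (Function.update σ j s)

/-- Measurability on boxes of amplitudes. -/
def CubeRegStmt : Prop :=
  ∀ (f : ℝ → ℝ) (L : ℝ), Measurable f → (∀ u, |f u| ≤ L) →
    ∀ (N M k : ℕ), Measurable (fun y : Fin k → ℝ => cubeTotErr f N M k (lift y)) ∧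
      (∀ j, Measurable fun y : Fin k → ℝ => cubeQ f N M k (lift y) j) ∧
      ∀ σ, |cubeTotErr f N M k σ| ≤ 2

/-- Overlaps given the branch level are deterministic, on average over a box of amplitudes. -/
def CubeSyncStmt : Prop :=
  ∃ C : ℝ, 0 ≤ C ∧ ∀ (f : ℝ → ℝ) (L : ℝ), Measurable f → (∀ u, |f u| ≤ L) →
    ∀ (k : ℕ) (η B δ T ε : ℝ), 0 < η → 0 < δ → 0 < ε → ∃ N₀ : ℕ, ∀ N : ℕ, N₀ ≤ N →
      ∀ M : ℕ, (M : ℝ) ≤ T * N → ∀ a : Fin k → ℝ, (∀ i, η ≤ a i ∧ a i ≤ B) →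
        boxAvg k a δ (fun σ => cubeTotErr f N M k σ) ≤ C / √(k + 1) + ε

/-- The one-spin increment at a fixed number of patterns, with an auxiliary field. -/
def CubeCavityStmt : Prop :=
  ∀ (f : ℝ → ℝ) (T B : ℝ), Good f → ∃ C : ℝ, ∀ (k : ℕ) (ε : ℝ), 0 < ε →
    ∃ N₀ : ℕ, ∀ N : ℕ, N₀ ≤ N → ∀ M : ℕ, (M : ℝ) ≤ T * N →
      ∀ σ : ℕ → ℝ, (∀ l, 0 ≤ σ l) → ∑ i ∈ Icc 1 k, σ i ^ 2 ≤ B →
        ∀ (j : ℕ) (s : ℝ), 1 ≤ j → j ≤ k → 0 ≤ s → s ≤ 1 →
          let q := cubeQ f N M k σ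
          let ρ := rhoOf k f ((M : ℝ) / (N + 1)) σ q
          |cubeGain f N M k σ j s
              - (spinG k (bump ρ j s) + mass k / 2 * ∑ l ∈ Icc 1 k, (ρ l - cum σ l) * q l)|
            ≤ C * √(cubeTotErr f N M k σ + mass k) + ε

/-- The second-order expansion in the variance of the auxiliary field on one spin. -/
def CubeAuxStmt : Prop :=
  ∃ C : ℝ, 0 ≤ C ∧ ∀ (f : ℝ → ℝ) (L : ℝ), Measurable f → (∀ u, |f u| ≤ L) →
    ∀ (N M k j : ℕ) (σ : ℕ → ℝ) (s : ℝ), 1 ≤ j → j ≤ k → 0 ≤ s → s ≤ 1 →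
      |((N : ℝ) + 1) * (free (cubeLeaf N) f M k (N + 1) σ (auxAmp j s) - cubeFree f N M k σ)
          - s / 2 * (1 - tail k (cubeQ f N M k σ) j)| ≤ C * (s * √s)

/-- Consistency: the tails of one more spin are those of the one-spin functional. -/
def CubeConsistStmt : Prop :=
  ∀ (f : ℝ → ℝ) (T B : ℝ), Good f → ∃ C : ℝ, ∀ (k : ℕ) (ε s : ℝ), 0 < ε → 0 < s → s ≤ 1 →
    ∃ N₀ : ℕ, ∀ N : ℕ, N₀ ≤ N → ∀ M : ℕ, (M : ℝ) ≤ T * N →
      ∀ σ : ℕ → ℝ, (∀ l, 0 ≤ σ l) → ∑ i ∈ Icc 1 k, σ i ^ 2 ≤ B →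
        ∀ j ∈ Icc 1 k,
          |tail k (cubeQ f (N + 1) M k σ) j
              - spinTail k (rhoOf k f ((M : ℝ) / (N + 1)) σ (cubeQ f N M k σ)) j|
            ≤ C * ((√(cubeTotErr f N M k σ + mass k) + ε) / s + √s)

/-- One more spin does not move the tails, on average over a box of amplitudes. -/
def CubeShiftStmt : Prop :=
  ∀ (f : ℝ → ℝ), Good f → ∀ (k : ℕ) (η B δ T ε : ℝ), 0 < η → 0 < δ → 0 < ε →
    ∃ N₀ : ℕ, ∀ N : ℕ, N₀ ≤ N → ∀ M : ℕ, (M : ℝ) ≤ T * N →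
      ∀ a : Fin k → ℝ, (∀ i, η ≤ a i ∧ a i ≤ B) → ∀ j ∈ Icc 1 k,
        boxAvg k a δ (fun σ =>
          |tail k (cubeQ f (N + 1) M k σ) j - tail k (cubeQ f N M k σ) j|) ≤ ε

/-- The upper bound on fine grids. -/
def CubeUpperStmt : Prop :=
  ∀ (f : ℝ → ℝ) (α : ℝ), Good f → 0 < α → ∀ ε : ℝ, 0 < ε → ∃ K : ℕ, ∀ k, K ≤ k →
    ∀ᶠ N in atTop, pressureCube f α N ≤ cubeVal k f α + ε

/-- The lower bound on fine grids. -/
def CubeLowerStmt : Prop :=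
  ∀ (f : ℝ → ℝ) (α : ℝ), Good f → 0 < α → ∀ ε : ℝ, 0 < ε → ∃ K : ℕ, ∀ k, K ≤ k →
    ∀ᶠ N in atTop, cubeVal k f α - ε ≤ pressureCube f α N

/-- The pressure on the cube is Lipschitz in the potential. -/
def CubeLipStmt : Prop :=
  ∀ (f h : ℝ → ℝ) (L : ℝ), Measurable f → Measurable h → (∀ u, |f u| ≤ L) → (∀ u, |h u| ≤ L) →
    ∀ (α : ℝ) (N : ℕ), 0 ≤ α →
      |pressureCube f α N - pressureCube h α N| ≤ α * exp (8 * L) * ∫ u, |f u - h u| ∂gaussianReal 0 1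

end Vale.Agent.P157.Cube2
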