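import Vale.Agent.P157.Cube2.Intf
import Vale.Agent.P157.Cube2.Concave
import Vale.Agent.P157.Rsb.Calc
import Vale.Agent.P157.Rsb.CavSystem

/-!
# P157: cube systems without patterns are products of single spins
-/

open MeasureTheory ProbabilityTheory Real Finset
open Vale.Agent.P157.Rsb

namespace Vale.Agent.P157.Cube2

/-- A spin. -/
noncomputable def sgn (b : Bool) : ℝ := if b then 1 else -1

theorem integral_coin (u : Bool → ℝ) : ∫ b, u b ∂coin = (u true + u false) / 2 := by
  rw [integral_fintype Integrable.of_finite, Fintype.sum_bool]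
  simp [coin, measureReal_def, ENNReal.toReal_inv]
  ring

theorem integral_exp_sgn (h : ℝ) : ∫ b, exp (sgn b * h) ∂coin = cosh h := by
  simp only [integral_coin, sgn, if_true, Bool.false_eq_true, if_false, cosh_eq, one_mul, neg_one_mul]

theorem integral_sgn_exp_sgn (h : ℝ) : ∫ b, sgn b * exp (sgn b * h) ∂coin = tanh h * cosh h := by
  rw [tanh_eq_sinh_div_cosh, div_mul_cancel₀ _ (cosh_pos h).ne']
  simp only [integral_coin, sgn, if_true, Bool.false_eq_true, if_false, sinh_eq, one_mul, neg_one_mul]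
  ring

theorem measurable_spinN (k : ℕ) (r : ℕ → ℝ) {j : ℕ} (hj : j ≤ k) : Measurable (spinF k r j) :=
  (pot_spinF hj).diff.continuous.measurable

section

variable {k n : ℕ} {ι : Type} [Fintype ι] {ψ : ℕ → (ι → ℝ) → Fin n → ℝ} {a r : ℕ → ℝ} {C : ℝ}

/-- The Hamiltonian of independent spins in nested fields. -/
noncomputable def spinsH (ψ : ℕ → (ι → ℝ) → Fin n → ℝ) (C : ℝ) (z : Fin k → ι → ℝ)
    (x : Fin n → Bool) : ℝ :=
  ∑ i, sgn (x i) * (∑ l : Fin k, ψ (l + 1) (z l) i) + C

/-- The field accumulated up to level `j`. -/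
noncomputable def accV (ψ : ℕ → (ι → ℝ) → Fin n → ℝ) (j : ℕ) (z : Fin k → ι → ℝ) (i : Fin n) : ℝ :=
  ∑ l : Fin k, if (l : ℕ) < j then ψ (l + 1) (z l) i else 0

theorem accV_put (z : Fin k → ι → ℝ) {j : ℕ} (hj : 1 ≤ j) (hjk : j ≤ k) (y : ι → ℝ) (i : Fin n) :
    accV ψ j (put z (j - 1) y) i = accV ψ (j - 1) z i + ψ j y i := by
  have h : ∀ l : Fin k, (if (l : ℕ) < j then ψ (l + 1) (put z (j - 1) y l) i else 0)
      = (if (l : ℕ) < j - 1 then ψ (l + 1) (z l) i else 0)
        + if l = (⟨j - 1, by omega⟩ : Fin k) then ψ j y i else 0 := fun l => by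
    by_cases h1 : (l : ℕ) = j - 1
    · rw [if_pos (show (l : ℕ) < j by omega), if_neg (by omega), if_pos (Fin.ext h1), zero_add]
      simp only [put, h1, if_true, show j - 1 + 1 = j by omega]
    · rw [if_neg (fun e => h1 (congrArg Fin.val e)), add_zero]
      simp only [put, h1, if_false]
      by_cases h2 : (l : ℕ) < j
      · rw [if_pos h2, if_pos (by omega)]
      · rw [if_neg h2, if_neg (by omega)]
  simp only [accV, h, sum_add_distrib, sum_ite_eq', mem_univ, if_true]

/-- The law of the field increments at every level. -/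
def SpinLaw (k : ℕ) (ψ : ℕ → (ι → ℝ) → Fin n → ℝ) (a r : ℕ → ℝ) : Prop :=
  ∀ l, 1 ≤ l → l ≤ k → r l - r (l - 1) = a l ^ 2 ∧
    ∀ F : (Fin n → ℝ) → ℝ, Measurable F →
      ∫ y, F (ψ l y) ∂stdG ι = ∫ w, F (fun i => a l * w i) ∂stdG (Fin n)

theorem den_scale {j : ℕ} {m b : ℝ} (φ f : ℝ → ℝ) (A : ℝ) :
    ∫ w, φ (A + b * w) * exp (m * f (A + b * w)) ∂γ₁ = num m (b ^ 2) f φ A := by
  rw [num, sqrt_sq_eq_abs]
  rcases abs_choice b with e | e <;> rw [e]
  conv_rhs => rw [← integral_neg_γ]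
  exact integral_congr_ae (ae_of_all _ fun w => by simp)

theorem spins_step (hL : SpinLaw k ψ a r) {j : ℕ} (hj : 1 ≤ j) (hjk : j ≤ k) (A : Fin n → ℝ) :
    (∫ y, exp (lev k j * (∑ i, spinF k r j (A i + ψ j y i) + C)) ∂stdG ι
      = exp (lev k j * C) * ∏ i, den (lev k j) (r j - r (j - 1)) (spinF k r j) (A i)) ∧
    ∀ (φ : ℝ → ℝ), Measurable φ → ∀ a₀ : Fin n,
      (∫ y, φ (A a₀ + ψ j y a₀) * exp (lev k j * (∑ i, spinF k r j (A i + ψ j y i) + C)) ∂stdG ι) /
          ∫ y, exp (lev k j * (∑ i, spinF k r j (A i + ψ j y i) + C)) ∂stdG ι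
        = tE (lev k j) (r j - r (j - 1)) (spinF k r j) φ (A a₀) := by
  classical
  obtain ⟨hd, hF⟩ := hL j hj hjk
  have hm := measurable_spinN k r hjk
  set f := spinF k r j
  set m := lev k j
  have key : ∀ φ : Fin n → ℝ → ℝ, (∀ i, Measurable (φ i)) →
      ∫ y, (∏ i, φ i (A i + ψ j y i)) * exp (m * (∑ i, f (A i + ψ j y i) + C)) ∂stdG ι
        = exp (m * C) * ∏ i, num m (r j - r (j - 1)) f (φ i) (A i) := by
    intro φ hφ
    rw [hF (fun w => (∏ i, φ i (A i + w i)) * exp (m * (∑ i, f (A i + w i) + C))) (by fun_prop)]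
    have e : ∀ w : Fin n → ℝ, (∏ i, φ i (A i + a j * w i)) * exp (m * (∑ i, f (A i + a j * w i) + C))
        = exp (m * C) * ∏ i, φ i (A i + a j * w i) * exp (m * f (A i + a j * w i)) := fun w => by
      rw [prod_mul_distrib, mul_add, exp_add, mul_sum, exp_sum]; ring
    simp only [e, integral_const_mul, stdG]
    rw [integral_fintype_prod_eq_prod (μ := fun _ => gaussianReal 0 1)
      (f := fun i w => φ i (A i + a j * w) * exp (m * f (A i + a j * w)))]
    simp only [den_scale (j := j), hd]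
  have k1 := key (fun _ _ => 1) fun _ => measurable_const
  simp only [prod_const_one, one_mul, num_one] at k1
  refine ⟨k1, fun φ hφ a₀ => ?_⟩
  have k2 := key (Function.update (fun _ _ => 1) a₀ φ) fun i => by
    rcases eq_or_ne i a₀ with h | h
    · subst h; simpa using hφ
    · simp [h]
  have e : ∀ y, ∏ i, Function.update (fun _ _ => (1 : ℝ)) a₀ φ i (A i + ψ j y i)
      = φ (A a₀ + ψ j y a₀) := fun y => by
    rw [← mul_prod_erase _ _ (mem_univ a₀), prod_eq_one fun i hi => ?_]
    · simp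
    · rw [Function.update_of_ne (ne_of_mem_erase hi)]
  simp only [e] at k2
  have hpos : ∀ i, 0 < den m (r j - r (j - 1)) f (A i) := fun i => den_pos (pot_spinF hjk) _
  rw [k2, k1, ← mul_prod_erase univ _ (mem_univ a₀), ← mul_prod_erase univ
    (fun i => den m (r j - r (j - 1)) f (A i)) (mem_univ a₀), Function.update_self]
  rw [prod_congr rfl fun i hi => by
    rw [Function.update_of_ne (ne_of_mem_erase hi), num_one]]
  have h1 : 0 < ∏ i ∈ univ.erase a₀, den m (r j - r (j - 1)) f (A i) := prod_pos fun i _ => hpos i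
  rw [tE]
  field_simp [(hpos a₀).ne', h1.ne']

theorem spins_val (hL : SpinLaw k ψ a r) {j : ℕ} (hj : j ≤ k) (z : Fin k → ι → ℝ) :
    val (stdG ι) (cubeLaw n) (spinsH (k := k) ψ C) j z = ∑ i, spinF k r j (accV ψ j z i) + C ∧
    ∀ i₀, cnd (stdG ι) (cubeLaw n) (spinsH (k := k) ψ C) (fun _ x => sgn (x i₀)) j z
      = spinU k r j (accV ψ j z i₀) := by
  classical
  refine spinF_induction (P := fun j => ∀ z : Fin k → ι → ℝ,
    val (stdG ι) (cubeLaw n) (spinsH (k := k) ψ C) j z = ∑ i, spinF k r j (accV ψ j z i) + C ∧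
    ∀ i₀, cnd (stdG ι) (cubeLaw n) (spinsH (k := k) ψ C) (fun _ x => sgn (x i₀)) j z
      = spinU k r j (accV ψ j z i₀)) ?_ ?_ hj z
  · intro z
    have hacc : ∀ i, accV ψ k z i = ∑ l : Fin k, ψ (l + 1) (z l) i := fun i =>
      sum_congr rfl fun l _ => if_pos l.2
    have e : ∀ x, exp (spinsH ψ C z x) = exp C * ∏ i, exp (sgn (x i) * accV ψ k z i) := fun x => by
      rw [spinsH, ← exp_sum, ← exp_add, add_comm]; simp only [hacc]
    have hI : ∫ x, exp (spinsH ψ C z x) ∂cubeLaw n = exp C * ∏ i, cosh (accV ψ k z i) := by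
      simp only [e, integral_const_mul, cubeLaw]
      rw [integral_fintype_prod_eq_prod (μ := fun _ => coin)
        (f := fun i b => exp (sgn b * accV ψ k z i))]
      simp only [integral_exp_sgn]
    have hp : (0 : ℝ) < ∏ i, cosh (accV ψ k z i) := prod_pos fun i _ => cosh_pos _
    refine ⟨?_, fun i₀ => ?_⟩
    · rw [val_top, hI, log_mul (exp_pos _).ne' hp.ne', log_exp, log_prod fun i _ => (cosh_pos _).ne']
      simp only [spinF_top]
      ring
    · rw [cnd_top, hI]
      have e2 : ∀ x, sgn (x i₀) * exp (spinsH ψ C z x) = exp C *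
          ∏ i, (if i = i₀ then sgn (x i) else 1) * exp (sgn (x i) * accV ψ k z i) := fun x => by
        rw [e, prod_mul_distrib, prod_ite_eq' univ i₀ fun i => sgn (x i), if_pos (mem_univ _)]; ring
      simp only [e2, integral_const_mul, cubeLaw]
      rw [integral_fintype_prod_eq_prod (μ := fun _ => coin)
        (f := fun i b => (if i = i₀ then sgn b else 1) * exp (sgn b * accV ψ k z i))]
      have e3 : ∀ i, ∫ b, (if i = i₀ then sgn b else 1) * exp (sgn b * accV ψ k z i) ∂coin
          = (if i = i₀ then tanh (accV ψ k z i) else 1) * cosh (accV ψ k z i) := fun i => by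
        split_ifs
        · exact integral_sgn_exp_sgn _
        · simp only [one_mul, integral_exp_sgn]
      simp only [e3, prod_mul_distrib, prod_ite_eq', mem_univ, if_true, spinU, spinF_top, deriv_logcosh]
      field_simp
  · intro j hj1 hjk ih z
    have hv : ∀ y, val (stdG ι) (cubeLaw n) (spinsH (k := k) ψ C) j (put z (j - 1) y)
        = ∑ i, spinF k r j (accV ψ (j - 1) z i + ψ j y i) + C := fun y => by
      rw [(ih (put z (j - 1) y)).1]; simp only [accV_put z hj1 hjk]
    obtain ⟨h1, h2⟩ := spins_step (C := C) hL hj1 hjk (fun i => accV ψ (j - 1) z i)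
    refine ⟨?_, fun i₀ => ?_⟩
    · rw [val_step hj1 hjk]
      simp only [hv, h1]
      have hp := fun i => den_pos (m := lev k j) (a := r j - r (j - 1)) (pot_spinF (r := r) hjk)
        (accV ψ (j - 1) z i)
      rw [log_mul (exp_pos _).ne' (prod_pos fun i _ => hp i).ne', log_exp,
        log_prod fun i _ => (hp i).ne', add_div, mul_div_cancel_left₀ _ (levK_ne hj1), sum_div,
        spinF_step hj1 hjk, add_comm]
      rfl
    · rw [cnd_step hj1 hjk]
      have hc : ∀ y, cnd (stdG ι) (cubeLaw n) (spinsH (k := k) ψ C) (fun _ x => sgn (x i₀)) j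
          (put z (j - 1) y) = spinU k r j (accV ψ (j - 1) z i₀ + ψ j y i₀) := fun y => by
        rw [(ih (put z (j - 1) y)).2 i₀]; simp only [accV_put z hj1 hjk]
      simp only [hv, hc]
      rw [spinU_step hj1 hjk]
      exact h2 (spinU k r j) (pot_spinF hjk).dcont.measurable i₀

theorem spins_sq (hL : SpinLaw k ψ a r) {w : Size (stdG ι)} (hw : LinB w (spinsH (k := k) ψ C))
    {l j : ℕ} (hjl : j ≤ l) (hl : l ≤ k) (z : Fin k → ι → ℝ) (i₀ : Fin n) :
    cnd (stdG ι) (cubeLaw n) (spinsH (k := k) ψ C) (fun z _ => spinU k r l (accV ψ l z i₀) ^ 2) j z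
      = spinW k r l j (accV ψ j z i₀) := by
  induction hd : l - j generalizing j z with
  | zero =>
    rw [show j = l by omega, spinW_self]
    refine cnd_const_fun hw (c := fun z => spinU k r l (accV ψ l z i₀) ^ 2) (fun u v huv => ?_) z
    have : accV ψ l u i₀ = accV ψ l v i₀ := sum_congr rfl fun b _ => by
      by_cases hb : (b : ℕ) < l
      · rw [if_pos hb, if_pos hb, huv b hb]
      · rw [if_neg hb, if_neg hb]
    simp only [this]
  | succ d ih =>
    have hj1 : 1 ≤ j + 1 := by omega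
    have hjk : j + 1 ≤ k := by omega
    rw [show cnd (stdG ι) (cubeLaw n) (spinsH (k := k) ψ C) (fun z _ => spinU k r l (accV ψ l z i₀) ^ 2) j z
      = cnd (stdG ι) (cubeLaw n) (spinsH (k := k) ψ C) (fun z _ => spinU k r l (accV ψ l z i₀) ^ 2)
          (j + 1 - 1) z by simp, cnd_step hj1 hjk]
    have hv : ∀ y, val (stdG ι) (cubeLaw n) (spinsH (k := k) ψ C) (j + 1) (put z (j + 1 - 1) y)
        = ∑ i, spinF k r (j + 1) (accV ψ (j + 1 - 1) z i + ψ (j + 1) y i) + C := fun y => by
      rw [(spins_val hL hjk _).1]; simp only [accV_put z hj1 hjk]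
    have hc : ∀ y, cnd (stdG ι) (cubeLaw n) (spinsH (k := k) ψ C)
        (fun z _ => spinU k r l (accV ψ l z i₀) ^ 2) (j + 1) (put z (j + 1 - 1) y)
          = spinW k r l (j + 1) (accV ψ (j + 1 - 1) z i₀ + ψ (j + 1) y i₀) := fun y => by
      rw [ih (j := j + 1) (by omega) (put z (j + 1 - 1) y) (by omega), accV_put z hj1 hjk]
    simp only [hv, hc]
    obtain ⟨D, hD⟩ := bd2_w (r := r) (show j + 1 ≤ l by omega) hl
    rw [(spins_step (C := C) hL hj1 hjk _).2 _ hD.cont.measurable i₀,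
      show spinW k r l j = spinW k r l (j + 1 - 1) by simp, spinW_step hj1 (by omega)]
    simp

end

theorem cum_step (σ : ℕ → ℝ) {l : ℕ} (hl : 1 ≤ l) : cum σ l - cum σ (l - 1) = σ l ^ 2 := by
  obtain ⟨i, rfl⟩ : ∃ i, l = i + 1 := ⟨l - 1, by omega⟩
  rw [Nat.add_sub_cancel, cum, cum, sum_Icc_succ_top (by omega)]
  ring

theorem sum_fin_sq (σ : ℕ → ℝ) (k : ℕ) : ∑ l : Fin k, σ (l + 1) ^ 2 = cum σ k := by
  induction k with
  | zero => simp [cum]
  | succ k ih =>
    rw [Fin.sum_univ_castSucc, cum, sum_Icc_succ_top (by omega)]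
    simp only [Fin.val_castSucc, Fin.val_last, ih]
    rfl

theorem spinG_shift (k : ℕ) (r : ℕ → ℝ) : spinF k r 0 0 = spinG k r + r k / 2 := by
  rw [spinG]; ring

theorem accV_zero {k n : ℕ} {ι : Type} (ψ : ℕ → (ι → ℝ) → Fin n → ℝ) (z : Fin k → ι → ℝ) (i : Fin n) :
    accV ψ 0 z i = 0 := by simp [accV]

theorem law_inl {k N : ℕ} (σ : ℕ → ℝ) :
    SpinLaw (n := N + 1) k (fun l (y : FieldIdx (N + 1) → ℝ) i => σ l * y (.inl i)) σ (cum σ) := by
  intro l hl _
  refine ⟨cum_step σ hl, fun F hF => ?_⟩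
  have h1 := measurePreserving_sumPiEquivProdPi
    (fun _ : FieldIdx (N + 1) => gaussianReal 0 1)
  have h2 : MeasurePreserving (fun y : FieldIdx (N + 1) → ℝ => fun i => y (.inl i))
      (stdG (FieldIdx (N + 1))) (stdG (Fin (N + 1))) :=
    (measurePreserving_fst (μ := Measure.pi fun _ : Fin (N + 1) => gaussianReal 0 1)
      (ν := Measure.pi fun _ : Unit => gaussianReal 0 1)).comp h1
  have hm : Measurable fun w : Fin (N + 1) → ℝ => F fun i => σ l * w i := hF.comp (by fun_prop)
  rw [← h2.map_eq, integral_map h2.measurable.aemeasurable hm.aestronglyMeasurable]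

theorem law_aux {k : ℕ} (σ β : ℕ → ℝ) :
    SpinLaw (n := 1) k (fun l (y : FieldIdx 1 → ℝ) _ => σ l * y (.inl 0) + β l * y (.inr ()))
      (fun l => √(σ l ^ 2 + β l ^ 2)) (cum fun l => √(σ l ^ 2 + β l ^ 2)) := by
  intro l hl _
  refine ⟨cum_step _ hl, fun F hF => ?_⟩
  set a := σ l
  set b := β l
  set c := √(a ^ 2 + b ^ 2) with hc
  have h1 := measurePreserving_sumPiEquivProdPi (fun _ : FieldIdx 1 => gaussianReal 0 1)
  have h2 : MeasurePreserving (fun y : FieldIdx 1 → ℝ => (y (.inl 0), y (.inr ())))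
      (stdG (FieldIdx 1)) ((gaussianReal 0 1).prod (gaussianReal 0 1)) :=
    ((measurePreserving_eval (fun _ : Fin 1 => gaussianReal 0 1) 0).prod
      (measurePreserving_eval (fun _ : Unit => gaussianReal 0 1) ())).comp h1
  have h3 : ((gaussianReal 0 1).prod (gaussianReal 0 1)).map (fun w : ℝ × ℝ => a * w.1 + b * w.2)
      = (gaussianReal 0 1).map (c * ·) := by
    rw [show (fun w : ℝ × ℝ => a * w.1 + b * w.2)
        = (fun w : ℝ × ℝ => w.1 + w.2) ∘ Prod.map (a * ·) (b * ·) from rfl,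
      ← Measure.map_map (by fun_prop) (by fun_prop),
      ← Measure.map_prod_map _ _ (by fun_prop) (by fun_prop)]
    simp only [gaussianReal_map_const_mul, mul_zero, mul_one]
    rw [show ((gaussianReal 0 _).prod (gaussianReal 0 _)).map (fun w : ℝ × ℝ => w.1 + w.2)
      = Measure.conv _ _ from rfl, gaussianReal_conv_gaussianReal]
    congr 1
    · simp
    · ext; simp [hc, Real.sq_sqrt (show 0 ≤ a ^ 2 + b ^ 2 by positivity)]
  have hmF : Measurable fun u : ℝ => F fun _ => u := hF.comp (by fun_prop)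
  have hm2 : Measurable fun w : ℝ × ℝ => F fun _ => a * w.1 + b * w.2 := hF.comp (by fun_prop)
  have hm1 : Measurable fun u : ℝ => F fun _ => c * u := hF.comp (by fun_prop)
  have h4 : ∫ y, F (fun _ => a * y (.inl 0) + b * y (.inr ())) ∂stdG (FieldIdx 1)
      = ∫ u, F (fun _ => c * u) ∂gaussianReal 0 1 := by
    rw [← integral_map (μ := gaussianReal 0 1) (φ := (c * ·)) (f := fun u => F fun _ => u)
      (by fun_prop) hmF.aestronglyMeasurable, ← h3,
      integral_map (by fun_prop) hmF.aestronglyMeasurable, ← h2.map_eq,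
      integral_map h2.measurable.aemeasurable hm2.aestronglyMeasurable]
  have h5 := measurePreserving_eval (fun _ : Fin 1 => gaussianReal 0 1) (0 : Fin 1)
  rw [h4, ← h5.map_eq, integral_map h5.measurable.aemeasurable hm1.aestronglyMeasurable]
  simp only [stdG, Function.eval, Fin.eq_zero]
  rfl

theorem spinsH_cube {N k : ℕ} (f : ℝ → ℝ) (σ : ℕ → ℝ) (g : Fin 0 → Fin (N + 1) → ℝ) :
    ham (k := k) (cubeLeaf N) f (N + 1) σ (fun _ => 0) g
      = spinsH (fun l (y : FieldIdx (N + 1) → ℝ) i => σ l * y (.inl i))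
          (-(((N : ℝ) + 1) / 2 * cum σ k)) := by
  funext z x
  have hn : (0 : ℝ) < ((N + 1 : ℕ) : ℝ) := by positivity
  have hu : sdot (cubeField (N + 1) x) (cubeField (N + 1) x) = 1 := by
    rw [sdot, ← cubeField_unit (Nat.le_add_left 1 N) x]
    exact sum_congr rfl fun i _ => by ring
  have e : ∀ l : Fin k, σ (l + 1) * √((N : ℝ) + 1) * sdot (fun i => z l (.inl i)) (cubeField (N + 1) x)
      = ∑ i, sgn (x i) * (σ (l + 1) * z l (.inl i)) := fun l => by
    rw [sdot, mul_sum]
    refine sum_congr rfl fun i _ => ?_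
    simp only [cubeField, sgn, Nat.cast_add, Nat.cast_one]
    field_simp
  show (∑ a, f _) + ∑ l : Fin k, (σ (l + 1) * √((N : ℝ) + 1)
    * sdot (fun i => z l (.inl i)) (cubeField (N + 1) x) + _ * _ * _) - _ * sdot _ _ + _ = _
  simp only [univ_eq_empty, sum_empty, zero_add, zero_mul, add_zero, e, sum_fin_sq, spinsH]
  show _ - _ * sdot (cubeField (N + 1) x) (cubeField (N + 1) x) + (0 : ℝ) = _
  rw [hu, sum_comm]
  simp only [← mul_sum]
  ring

theorem spinsH_aux {k : ℕ} (f : ℝ → ℝ) (σ β : ℕ → ℝ) (g : Fin 0 → Fin 1 → ℝ) :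
    ham (k := k) (cubeLeaf 0) f 1 σ β g
      = spinsH (fun l (y : FieldIdx 1 → ℝ) _ => σ l * y (.inl 0) + β l * y (.inr ()))
          (-(cum σ k / 2)) := by
  funext z x
  have hx : cubeField 1 x = fun _ => sgn (x 0) := funext fun i => by
    rw [Fin.eq_zero i]; simp [cubeField, sgn]
  have e : ∀ l : Fin k, σ (l + 1) * √1 * sdot (fun i => z l (.inl i)) (cubeField 1 x)
      + β (l + 1) * z l (.inr ()) * sgn (x 0)
      = sgn (x 0) * (σ (l + 1) * z l (.inl 0) + β (l + 1) * z l (.inr ())) := fun l => by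
    simp [sdot, hx]; ring
  have hu : sdot (cubeField 1 x) (cubeField 1 x) = 1 := by
    rw [sdot, ← cubeField_unit le_rfl x]
    exact sum_congr rfl fun i _ => by ring
  show (∑ a, f _) + ∑ l : Fin k, (σ (l + 1) * √1 * sdot (fun i => z l (.inl i)) (cubeField 1 x)
    + β (l + 1) * z l (.inr ()) * sgn (x (Fin.last 0))) - 1 / 2 * _ * sdot (cubeField 1 x) (cubeField 1 x)
      + (0 : ℝ) = _
  simp only [univ_eq_empty, sum_empty, zero_add, Fin.last_zero, e, hu, sum_fin_sq, spinsH,
    Nat.reduceAdd, Fin.sum_univ_one, mul_sum]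
  ring

theorem cubeProduct : CubeProductStmt := by
  refine ⟨fun f N k σ => ?_, fun f k σ l hl => ?_, fun f k j σ s hs hj hjk => ?_⟩
  · have hv : ∀ g : Fin 0 → Fin (N + 1) → ℝ,
        val (stdG (FieldIdx (N + 1))) (cubeLeaf N).μ
          (ham (k := k) (cubeLeaf N) f (N + 1) σ (fun _ => 0) g) 0 (fun _ _ => 0)
          = ((N : ℝ) + 1) * spinG k (cum σ) := fun g => by
      rw [spinsH_cube]
      refine ((spins_val (law_inl σ) (Nat.zero_le k) _).1).trans ?_
      simp only [accV_zero, spinG_shift, sum_const, card_univ, Fintype.card_fin, nsmul_eq_mul]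
      push_cast; ring
    have : IsProbabilityMeasure (patterns 0 (N + 1)) := by unfold patterns; infer_instance
    simp only [cubeFree, free, hv, integral_const, probReal_univ, smul_eq_mul, one_mul]
    exact mul_div_cancel_left₀ _ (by positivity)
  · obtain ⟨h1, h2⟩ := mem_Icc.1 hl
    have hrw : ∀ g : Fin 0 → Fin 1 → ℝ,
        cnd (stdG (FieldIdx 1)) (cubeLeaf 0).μ (ham (k := k) (cubeLeaf 0) f (((0 : ℕ) : ℝ) + 1) σ (fun _ => 0) g)
          (fun z _ => pairCnd (stdG (FieldIdx 1)) (cubeLeaf 0).μ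
            (ham (k := k) (cubeLeaf 0) f (((0 : ℕ) : ℝ) + 1) σ (fun _ => 0) g)
            (fun _ x _ y => sdot ((cubeLeaf 0).fld x) ((cubeLeaf 0).fld y)) l z) 0 (fun _ _ => 0)
          = spinQ k (cum σ) l := fun g => by
      have hH0 : ham (k := k) (cubeLeaf 0) (fun _ => 0) (((0 : ℕ) : ℝ) + 1) σ (fun _ => 0) g
          = ham (k := k) (cubeLeaf 0) f (((0 : ℕ) : ℝ) + 1) σ (fun _ => 0) g := by
        funext z x; simp [ham]
      have hw := linB_ham (k := k) (cubeLeaf 0) (f := fun _ => (0 : ℝ)) measurable_const (L := 0)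
        (fun _ => by simp) (((0 : ℕ) : ℝ) + 1) σ (fun _ => 0) g
      rw [hH0, spinsH_cube] at hw
      rw [spinsH_cube]
      have hp : ∀ z, pairCnd (stdG (FieldIdx 1)) (cubeLaw 1)
          (spinsH (k := k) (fun l (y : FieldIdx 1 → ℝ) i => σ l * y (.inl i))
            (-((((0 : ℕ) : ℝ) + 1) / 2 * cum σ k)))
          (fun _ x _ y => sdot (cubeField 1 x) (cubeField 1 y)) l z
          = spinU k (cum σ) l (accV (fun l (y : FieldIdx 1 → ℝ) i => σ l * y (.inl i)) l z 0) ^ 2 := by
        intro z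
        have e : (fun (_ : Fin k → FieldIdx 1 → ℝ) (x : Fin 1 → Bool) (_ : Fin k → FieldIdx 1 → ℝ)
            (y : Fin 1 → Bool) => sdot (cubeField 1 x) (cubeField 1 y))
            = fun _ x _ y => sgn (x 0) * sgn (y 0) := by
          funext _ x _ y; simp [sdot, cubeField, sgn]
        rw [e, ← cnd_mul_cnd, (spins_val (law_inl σ) h2 z).2 0, pow_two]
      show cnd (stdG (FieldIdx 1)) (cubeLaw 1) _ (fun z _ => pairCnd (stdG (FieldIdx 1)) (cubeLaw 1) _
        (fun _ x _ y => sdot (cubeField 1 x) (cubeField 1 y)) l z) 0 _ = _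
      simp only [hp]
      rw [spins_sq (law_inl σ) hw (Nat.zero_le l) h2]
      simp only [accV_zero, spinQ]
    have : IsProbabilityMeasure (patterns 0 1) := by unfold patterns; infer_instance
    rw [cubeQ, qOf, if_neg (by omega), gibPair, gib]
    refine (integral_congr_ae (ae_of_all _ fun g => hrw g)).trans ?_
    simp
  · have hv : ∀ g : Fin 0 → Fin 1 → ℝ,
        val (stdG (FieldIdx 1)) (cubeLeaf 0).μ (ham (k := k) (cubeLeaf 0) f 1 σ (auxAmp j s) g) 0 (fun _ _ => 0)
          = spinF k (cum fun l => √(σ l ^ 2 + auxAmp j s l ^ 2)) 0 0 - cum σ k / 2 := fun g => by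
      rw [spinsH_aux]
      refine ((spins_val (law_aux σ (auxAmp j s)) (Nat.zero_le k) _).1).trans ?_
      simp only [accV_zero, Fin.sum_univ_one]
      ring
    have hb : cum (fun l => √(σ l ^ 2 + auxAmp j s l ^ 2)) = bump (cum σ) j s := funext fun l => by
      simp only [cum, bump]
      rw [sum_congr rfl fun i _ => Real.sq_sqrt (by positivity), sum_add_distrib]
      congr 1
      rw [sum_congr rfl fun i _ => show auxAmp j s i ^ 2 = if i = j then s else 0 by
        rw [auxAmp]; split_ifs <;> simp [sq_sqrt hs], sum_ite_eq']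
      by_cases h : j ≤ l <;> simp [h, hj]
    have : IsProbabilityMeasure (patterns 0 1) := by unfold patterns; infer_instance
    simp only [free, Nat.reduceAdd, hv, integral_const, probReal_univ, smul_eq_mul, one_mul, div_one, hb,
      spinG_shift]
    simp only [bump, if_pos hjk]
    ring

end Vale.Agent.P157.Cube2
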