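import Vale.Agent.P157.Cube2.Intf
import Vale.Agent.P157.Rsb.CavSystem
import Vale.Agent.P157.Rsb.CavPatBasic
import Vale.Agent.P157.Rsb.LeafBasic
import Vale.Agent.P157.Rsb.Upd

/-!
# P157: the expansion in the amplitude of an auxiliary field on one spin

At amplitude `b` the derivative of the pressure is `b (1 - T b)` by integration by parts, with `T` the tail
of the squared means of the spin; `T` is Lipschitz, and at `b = 0` its mean is the tail of the overlap
path, the coordinates being exchangeable.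
-/

open MeasureTheory ProbabilityTheory Real Finset
open Vale.Agent.P157.Rsb

namespace Vale.Agent.P157.Cube2.AuxF

section General

variable {k : ℕ} {Z X : Type} [MeasurableSpace Z] [MeasurableSpace X]
  {γ : Measure Z} {μ : Measure X} {w : Size γ}
  [IsProbabilityMeasure γ] [IsFiniteMeasure μ] [NeZero μ]

theorem abs_cnd_le {H φ a : (Fin k → Z) → X → ℝ} (hH : LinB w H) (hφ : Tame w φ) (ha : Tame w a)
    (h : ∀ z x, |φ z x| ≤ a z x) (j : ℕ) (z : Fin k → Z) : |cnd γ μ H φ j z| ≤ cnd γ μ H a j z := by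
  rw [abs_le]
  refine ⟨?_, cnd_mono hH hφ ha (fun z x => (le_abs_self _).trans (h z x)) j z⟩
  have h1 := cnd_mono (γ := γ) (μ := μ) hH (ha.const_mul (-1)) hφ
    (fun z x => by linarith [(abs_le.1 (h z x)).1]) j z
  rw [cnd_const_mul] at h1
  linarith

/-- The derivative formula under a dominated direction and an observable bounded by one. -/
theorem abs_cndDer_le_dom {H φ dH dφ a e : (Fin k → Z) → X → ℝ} (hH : LinB w H) (hφ : Tame w φ)
    (hdH : Tame w dH) (hdφ : Tame w dφ) (ha : Tame w a) (he : Tame w e) (b1 : ∀ z x, |φ z x| ≤ 1)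
    (b2 : ∀ z x, |dH z x| ≤ a z x) (b3 : ∀ z x, |dφ z x| ≤ e z x) {j : ℕ} (hj : j ≤ k)
    (z : Fin k → Z) :
    |cndDer γ μ H φ dH dφ j z| ≤ cnd γ μ H e j z + 2 * cnd γ μ H a j z := by
  set A := cnd γ μ H a j z
  have c1 : ∀ l z, |cnd γ μ H φ l z| ≤ 1 := fun l z => cnd_abs_le hH hφ.meas b1 l z
  have c2 : ∀ l z, |cnd γ μ H dH l z| ≤ cnd γ μ H a l z := fun l z => abs_cnd_le hH hdH ha b2 l z
  have c12 : ∀ l z, |cnd γ μ H φ l z * cnd γ μ H dH l z| ≤ cnd γ μ H a l z := fun l z => by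
    rw [abs_mul]
    exact (mul_le_of_le_one_left (abs_nonneg _) (c1 l z)).trans (c2 l z)
  have t1 : |cnd γ μ H (fun z x => dφ z x + φ z x * dH z x) j z| ≤ cnd γ μ H e j z + A := by
    rw [← cnd_add hH he ha]
    refine abs_cnd_le hH (hdφ.add (hφ.mul hdH)) (he.add ha) (fun z x => ?_) j z
    refine (abs_add_le _ _).trans (add_le_add (b3 z x) ?_)
    rw [abs_mul]
    exact (mul_le_of_le_one_left (abs_nonneg _) (b1 z x)).trans (b2 z x)
  have t2 : |mass k * ∑ l ∈ Icc (j + 1) k,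
      cnd γ μ H (fun z _ => cnd γ μ H φ l z * cnd γ μ H dH l z) j z| ≤ (1 - lev k (j + 1)) * A := by
    rw [abs_mul, abs_of_pos mass_pos]
    refine (mul_le_mul_of_nonneg_left ((abs_sum_le_sum_abs _ _).trans (sum_le_sum (g := fun _ => A)
      fun l hl => ?_)) mass_pos.le).trans (le_of_eq ?_)
    · refine (abs_cnd_le hH ((cnd_tame hH hφ l).mul (cnd_tame hH hdH l)) (cnd_tame hH ha l)
        (fun z _ => c12 l z) j z).trans (le_of_eq ?_)
      exact cnd_tower hH (by have := (mem_Icc.1 hl).1; omega) z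
    · rw [sum_const, nsmul_eq_mul, Nat.card_Icc, Nat.cast_sub (by omega)]
      unfold mass lev; push_cast; field_simp
  have t3 : |lev k (j + 1) * (cnd γ μ H φ j z * cnd γ μ H dH j z)| ≤ lev k (j + 1) * A := by
    rw [abs_mul, abs_of_nonneg (lev_nonneg _)]
    exact mul_le_mul_of_nonneg_left (c12 j z) (lev_nonneg _)
  refine ((abs_sub _ _).trans (add_le_add ((abs_sub _ _).trans (add_le_add t1 t2)) t3)).trans (le_of_eq ?_)
  ring

end General

variable {N M k : ℕ} {f : ℝ → ℝ} {L : ℝ}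

/-- The auxiliary amplitudes. -/
def amp (a : Fin k) (b : ℝ) (l : ℕ) : ℝ := if l = (a : ℕ) + 1 then b else 0

theorem amp_zero (a : Fin k) : amp a 0 = fun _ => 0 := funext fun l => by simp [amp]

/-- One level of fields. -/
noncomputable abbrev γN (N : ℕ) : Measure (FieldIdx (N + 1) → ℝ) := stdG (FieldIdx (N + 1))

/-- The spin carrying the auxiliary field. -/
noncomputable def eps (N : ℕ) (x : Fin (N + 1) → Bool) : ℝ := if x (Fin.last N) then 1 else -1

theorem abs_eps (N : ℕ) (x : Fin (N + 1) → Bool) : |eps N x| = 1 := by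
  unfold eps; split_ifs <;> simp

theorem eps_mul_self (N : ℕ) (x : Fin (N + 1) → Bool) : eps N x * eps N x = 1 := by
  unfold eps; split_ifs <;> simp

/-- The Hamiltonian at auxiliary amplitude `b`. -/
noncomputable def HA (f : ℝ → ℝ) (N : ℕ) (σ : ℕ → ℝ) (g : Fin M → Fin (N + 1) → ℝ) (a : Fin k) (b : ℝ) :
    (Fin k → FieldIdx (N + 1) → ℝ) → (Fin (N + 1) → Bool) → ℝ :=
  ham (cubeLeaf N) f ((N : ℝ) + 1) σ (amp a b) g

/-- The derivative of the Hamiltonian in the amplitude. -/
noncomputable def dA (N : ℕ) (a : Fin k) (z : Fin k → FieldIdx (N + 1) → ℝ) (x : Fin (N + 1) → Bool) : ℝ :=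
  z a (.inr ()) * eps N x

theorem HA_eq (σ : ℕ → ℝ) (g : Fin M → Fin (N + 1) → ℝ) (a : Fin k) (b : ℝ)
    (z : Fin k → FieldIdx (N + 1) → ℝ) (x : Fin (N + 1) → Bool) :
    HA f N σ g a b z x = HA f N σ g a 0 z x + b * dA N a z x := by
  have h : ∀ b, ∑ l : Fin k, amp a b (l + 1) * z l (.inr ()) * eps N x = b * dA N a z x := fun b => by
    rw [sum_eq_single a (fun l _ hl => by
      simp [amp, show (l : ℕ) ≠ (a : ℕ) from fun e => hl (Fin.ext e)]) (by simp)]
    simp [amp, dA]; ring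
  show (_ + ∑ l : Fin k, (_ + amp a b (l + 1) * z l (.inr ()) * eps N x) - _ + _)
    = (_ + ∑ l : Fin k, (_ + amp a 0 (l + 1) * z l (.inr ()) * eps N x) - _ + _) + _
  simp only [sum_add_distrib, h]
  ring

theorem linB_HA (hm : Measurable f) (hL : ∀ u, |f u| ≤ L) (σ : ℕ → ℝ) (g : Fin M → Fin (N + 1) → ℝ)
    (a : Fin k) (b : ℝ) : LinB (gaussSize (FieldIdx (N + 1))) (HA f N σ g a b) :=
  Lf.ham_linB (cubeLeaf N) hm hL _ σ _ g

theorem tame_eps : Tame (gaussSize (FieldIdx (N + 1)))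
    fun (_ : Fin k → FieldIdx (N + 1) → ℝ) x => eps N x :=
  Tame.of_bdd ((measurable_of_countable (eps N)).comp measurable_snd) fun _ x => (abs_eps N x).le

theorem tame_z (a : Fin k) : Tame (gaussSize (FieldIdx (N + 1)))
    fun (z : Fin k → FieldIdx (N + 1) → ℝ) (_ : Fin (N + 1) → Bool) => z a (.inr ()) :=
  Lf.tame_z (cubeLeaf N) a (.inr ())

theorem tame_abs_z (a : Fin k) : Tame (gaussSize (FieldIdx (N + 1)))
    fun (z : Fin k → FieldIdx (N + 1) → ℝ) (_ : Fin (N + 1) → Bool) => |z a (.inr ())| := by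
  obtain ⟨hm, A, hA, h⟩ := tame_z (N := N) a
  exact ⟨continuous_abs.measurable.comp hm, A, hA, fun z x => by rw [abs_abs]; exact h z x⟩

theorem tame_dA (a : Fin k) : Tame (gaussSize (FieldIdx (N + 1))) (dA N a) := (tame_z a).mul tame_eps

theorem abs_dA (a : Fin k) (z : Fin k → FieldIdx (N + 1) → ℝ) (x : Fin (N + 1) → Bool) :
    |dA N a z x| = |z a (.inr ())| := by
  rw [dA, abs_mul, abs_eps, mul_one]

/-- The field coefficients at amplitude `b`. -/
noncomputable def vA (N : ℕ) (σ : ℕ → ℝ) (a : Fin k) (b : ℝ) :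
    Fin k → FieldIdx (N + 1) → (Fin (N + 1) → Bool) → ℝ :=
  vCoef (cubeLeaf N) ((N : ℝ) + 1) σ (amp a b)

theorem vA_aux (σ : ℕ → ℝ) (a : Fin k) (b : ℝ) (x : Fin (N + 1) → Bool) :
    vA N σ a b a (.inr ()) x = b * eps N x := by
  show amp a b ((a : ℕ) + 1) * eps N x = _
  simp [amp]

theorem bcoef_vA (σ : ℕ → ℝ) (a : Fin k) (b : ℝ) : BCoef (vA N σ a b) :=
  bcoef_vCoef (cubeLeaf N) _ σ _

/-- The part of the Hamiltonian without fields. -/
noncomputable def H0A (k : ℕ) (f : ℝ → ℝ) (N : ℕ) (σ : ℕ → ℝ) (g : Fin M → Fin (N + 1) → ℝ) :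
    (Fin (N + 1) → Bool) → ℝ :=
  h0Of (cubeLeaf N) k f ((N : ℝ) + 1) σ g

theorem HA_lin (σ : ℕ → ℝ) (g : Fin M → Fin (N + 1) → ℝ) (a : Fin k) (b : ℝ) :
    HA f N σ g a b = fun z x => linZ (vA N σ a b) z x + H0A k f N σ g x :=
  funext₂ fun z x => ham_eq (cubeLeaf N) f _ σ _ g z x

theorem measurable_HA (hm : Measurable f) (σ : ℕ → ℝ) (a : Fin k) (b : ℝ) :
    Measurable fun p : ((Fin M → Fin (N + 1) → ℝ) × (Fin k → FieldIdx (N + 1) → ℝ)) ×
      (Fin (N + 1) → Bool) => HA f N σ p.1.1 a b p.1.2 p.2 :=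
  Lf.ham_meas (cubeLeaf N) hm _ σ _

/-- The Hamiltonian without auxiliary field. -/
noncomputable def HZ (f : ℝ → ℝ) (N : ℕ) (σ : ℕ → ℝ) (g : Fin M → Fin (N + 1) → ℝ) :
    (Fin k → FieldIdx (N + 1) → ℝ) → (Fin (N + 1) → Bool) → ℝ :=
  ham (cubeLeaf N) f ((N : ℝ) + 1) σ (fun _ => 0) g

theorem linB_HZ (hm : Measurable f) (hL : ∀ u, |f u| ≤ L) (σ : ℕ → ℝ) (g : Fin M → Fin (N + 1) → ℝ) :
    LinB (gaussSize (FieldIdx (N + 1))) (HZ (k := k) f N σ g) :=
  Lf.ham_linB (cubeLeaf N) hm hL _ σ _ g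

theorem measurable_HZ (hm : Measurable f) (σ : ℕ → ℝ) :
    Measurable fun p : ((Fin M → Fin (N + 1) → ℝ) × (Fin k → FieldIdx (N + 1) → ℝ)) ×
      (Fin (N + 1) → Bool) => HZ f N σ p.1.1 p.1.2 p.2 :=
  Lf.ham_meas (cubeLeaf N) hm _ σ _

/-- The conditional mean of a coordinate. -/
noncomputable def coord (f : ℝ → ℝ) (N : ℕ) (σ : ℕ → ℝ) (g : Fin M → Fin (N + 1) → ℝ) (l : ℕ)
    (i : Fin (N + 1)) (z : Fin k → FieldIdx (N + 1) → ℝ) : ℝ :=
  cnd (γN N) (cubeLaw (N + 1)) (HZ f N σ g) (fun _ x => cubeField (N + 1) x i) l z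

theorem abs_cubeField_le (x : Fin (N + 1) → Bool) (i : Fin (N + 1)) : |cubeField (N + 1) x i| ≤ 1 :=
  Lf.fld_le_one (cubeLeaf N) (fun x => by
    have h := cubeField_unit (Nat.le_add_left 1 N) x
    simpa [sdot, cubeLeaf, ← pow_two] using h) x i

theorem tame_coord (i : Fin (N + 1)) : Tame (gaussSize (FieldIdx (N + 1)))
    fun (_ : Fin k → FieldIdx (N + 1) → ℝ) (x : Fin (N + 1) → Bool) => cubeField (N + 1) x i :=
  Tame.of_bdd ((measurable_of_countable fun x : Fin (N + 1) → Bool => cubeField (N + 1) x i).comp measurable_snd)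
    fun _ x => abs_cubeField_le x i

/-- The mean square of a coordinate at level `l`, given the patterns. -/
noncomputable def coordSq (f : ℝ → ℝ) (N : ℕ) (σ : ℕ → ℝ) (k l : ℕ) (i : Fin (N + 1))
    (g : Fin M → Fin (N + 1) → ℝ) : ℝ :=
  cnd (γN N) (cubeLaw (N + 1)) (HZ f N σ g) (fun z _ => coord f N σ g l i z ^ 2) 0
    (fun (_ : Fin k) _ => 0)

/-- The universal bound on the mean size of the auxiliary field. -/
noncomputable def KA : ℝ := 2 * exp (1 / 2 + 2)

variable (hm : Measurable f) (hL : ∀ u, |f u| ≤ L)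
include hm hL

/-- The mean size of the auxiliary field stays bounded. -/
theorem mean_abs_z (σ : ℕ → ℝ) (g : Fin M → Fin (N + 1) → ℝ) (a : Fin k) {b : ℝ} (hb : |b| ≤ 1)
    (z : Fin k → FieldIdx (N + 1) → ℝ) :
    cnd (γN N) (cubeLaw (N + 1)) (HA f N σ g a b) (fun z _ => |z a (.inr ())|) 0 z ≤ KA := by
  obtain ⟨h0m, B0, hB0'⟩ := h0Of_bdd (M := M) (cubeLeaf N) hm hL k ((N : ℝ) + 1) σ
  have hB0 : ∀ x, |H0A k f N σ g x| ≤ B0 := fun x => hB0' g x
  set v := vA N σ a b with hvdef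
  have eH : HA f N σ g a b = fun z x => linZ v z x + H0A k f N σ g x := HA_lin σ g a b
  have hH := linB_HA hm hL σ g a b
  set d : ℝ → Fin k → FieldIdx (N + 1) → (Fin (N + 1) → Bool) → ℝ :=
    fun c a' i _ => if a' = a ∧ i = Sum.inr () then c else 0 with hd
  have hlin : ∀ c z' x, linZ (d c) z' x = c * z' a (.inr ()) := fun c z' x => by
    simp only [linZ, hd]
    rw [sum_eq_single a (fun a' _ ha => sum_eq_zero fun i _ => by simp [ha]) (by simp),
      sum_eq_single (Sum.inr ()) (fun i _ hi => by simp [hi]) (by simp)]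
    simp; ring
  have hv : ∀ x, v a (.inr ()) x = b * eps N x := vA_aux σ a b
  have hdv : ∀ c (a' : Fin k) x y, ∑ i, d c a' i x * v a' i y = if a' = a then c * (b * eps N y) else 0 :=
    fun c a' x y => by
      by_cases ha : a' = a
      · subst ha
        rw [if_pos rfl, sum_eq_single (Sum.inr ()) (fun i _ hi => by simp [hd, hi]) (by simp)]
        simp [hd, hv]
      · simp [hd, ha]
  have hsz : ∀ c : ℝ, |c| = 1 → ∀ y, |c * (b * eps N y)| ≤ 1 := fun c hc y => by
    rw [abs_mul, abs_mul, hc, abs_eps, mul_one, one_mul]; exact hb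
  have hK : ∀ c : ℝ, |c| = 1 → KerBd (d c) v 1 1 := fun c hc => by
    refine ⟨fun x => le_of_eq ?_, fun x => ?_, fun l x y => ?_⟩
    · rw [sum_eq_single a (fun a' _ ha => sum_eq_zero fun i _ => by simp [hd, ha]) (by simp),
        sum_eq_single (Sum.inr ()) (fun i _ hi => by simp [hd, hi]) (by simp)]
      simp [hd, ← sq_abs c, hc]
    · simp only [hdv, sum_ite_eq', mem_univ, if_true]; exact hsz c hc x
    · simp only [lowKer, hdv]
      rw [sum_eq_single a (fun a' _ ha => by simp [ha]) (by simp)]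
      split_ifs
      all_goals first
        | exact hsz c hc y
        | simp
  have hbc : ∀ c, BCoef (d c) := fun c => ⟨|c|, abs_nonneg c, fun a' i => ⟨measurable_const, fun x => by
    simp only [hd]; split_ifs <;> simp [abs_nonneg]⟩⟩
  have hexp : ∀ c : ℝ, |c| = 1 → cnd (γN N) (cubeLaw (N + 1)) (HA f N σ g a b)
      (fun z _ => exp (c * z a (.inr ()))) 0 z ≤ exp (1 / 2 + 2) := fun c hc => by
    have h := cnd_exp_linZ_le (μ := cubeLaw (N + 1)) (bcoef_vA σ a b) (hbc c)
      (h0m g) hB0 (hK c hc) zero_le_one z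
    simp only [hlin, one_mul] at h
    rw [eH]
    exact h.trans (le_of_eq (by norm_num))
  have te : ∀ c : ℝ, Tame (gaussSize (FieldIdx (N + 1)))
      fun (z : Fin k → FieldIdx (N + 1) → ℝ) (_ : Fin (N + 1) → Bool) => exp (c * z a (.inr ())) := fun c =>
    (tame_mul_exp (hbc c) 1 (g := fun _ => 1) measurable_const (B := 1) (fun _ => by simp)).congr
      fun z x => by simp [hlin]
  refine (cnd_mono hH (tame_abs_z a) ((te 1).add (te (-1))) (fun z x => ?_) 0 z).trans ?_
  · rcases abs_choice (z a (.inr ())) with e | e <;> rw [e]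
    · linarith [add_one_le_exp (1 * z a (.inr ())), exp_pos (-1 * z a (.inr ()))]
    · linarith [add_one_le_exp (-1 * z a (.inr ())), exp_pos (1 * z a (.inr ()))]
  · rw [cnd_add hH (te 1) (te (-1)), KA]
    linarith [hexp 1 abs_one, hexp (-1) (by simp)]

/-- The conditional mean of the marked spin. -/
noncomputable def mean (f : ℝ → ℝ) (N : ℕ) (σ : ℕ → ℝ) (g : Fin M → Fin (N + 1) → ℝ) (a : Fin k)
    (b : ℝ) (l : ℕ) (z : Fin k → FieldIdx (N + 1) → ℝ) : ℝ :=
  cnd (γN N) (cubeLaw (N + 1)) (HA f N σ g a b) (fun _ x => eps N x) l z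

/-- The tail of the squared means. -/
noncomputable def T (f : ℝ → ℝ) (N : ℕ) (σ : ℕ → ℝ) (g : Fin M → Fin (N + 1) → ℝ) (a : Fin k) (b : ℝ)
    (z : Fin k → FieldIdx (N + 1) → ℝ) : ℝ :=
  mass k * ∑ l ∈ Icc ((a : ℕ) + 1) k,
    cnd (γN N) (cubeLaw (N + 1)) (HA f N σ g a b) (fun z _ => mean f N σ g a b l z ^ 2) 0 z

theorem family_eps (σ : ℕ → ℝ) (g : Fin M → Fin (N + 1) → ℝ) (a : Fin k) (b₀ : ℝ) :
    Family (gaussSize (FieldIdx (N + 1))) (HA f N σ g a) (fun _ _ x => eps N x) (fun _ => dA N a)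
      (fun _ _ _ => 0) b₀ 1 := by
  obtain ⟨-, A₁, hA₁, h₁⟩ := tame_dA (N := N) a
  obtain ⟨-, A₀, hA₀, h₀⟩ := linB_HA hm hL σ g a 0
  refine ⟨one_pos, fun b => (linB_HA hm hL σ g a b).meas, fun _ => (tame_dA a).meas,
    fun _ => tame_eps.meas, fun _ => measurable_const, ⟨A₀ + (|b₀| + 1) + A₁ + 1, by positivity,
      fun b hb z x => ?_⟩, fun b _ z x => ?_, fun b _ z x => hasDerivAt_const _ _⟩
  · set A := A₀ + (|b₀| + 1) + A₁ + 1
    have hA1 : 1 ≤ A := by simp only [A]; linarith [abs_nonneg b₀]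
    have ht := (gaussSize (FieldIdx (N + 1))).tot_nonneg z
    set t := (gaussSize (FieldIdx (N + 1))).tot z
    have hz : |dA N a z x| ≤ t := by rw [abs_dA]; exact Lf.z_le_tot z a _
    have hb' : |b| ≤ |b₀| + 1 := by linarith [abs_sub_abs_le_abs_sub b b₀]
    have he : 1 ≤ A * exp (A * t) := one_le_mul_of_one_le_of_one_le hA1 (one_le_exp (by positivity))
    refine ⟨?_, (h₁ z x).trans ?_, (abs_eps N x).le.trans he, ?_⟩
    · rw [HA_eq σ g a b z x]
      refine (abs_add_le _ _).trans ?_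
      rw [abs_mul]
      calc _ ≤ A₀ * (1 + t) + (|b₀| + 1) * (1 + t) :=
            add_le_add (h₀ z x) (mul_le_mul hb' (by linarith) (abs_nonneg _) (by positivity))
        _ ≤ _ := by rw [← add_mul]; exact mul_le_mul_of_nonneg_right (by simp only [A]; linarith) (by linarith)
    · have hle : A₁ ≤ A := by simp only [A]; linarith [abs_nonneg b₀]
      exact mul_le_mul hle (exp_le_exp.2 (mul_le_mul_of_nonneg_right hle ht)) (exp_pos _).le (by linarith)
    · simp only [abs_zero]; positivity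
  · rw [show (fun t => HA f N σ g a t z x) = fun t => HA f N σ g a 0 z x + t * dA N a z x from
      funext fun t => HA_eq σ g a t z x]
    exact (((hasDerivAt_id b).mul_const (dA N a z x)).const_add (HA f N σ g a 0 z x)).congr_deriv (one_mul _)

theorem abs_mean_le (σ : ℕ → ℝ) (g : Fin M → Fin (N + 1) → ℝ) (a : Fin k) (b : ℝ) (l : ℕ)
    (z : Fin k → FieldIdx (N + 1) → ℝ) : |mean f N σ g a b l z| ≤ 1 :=
  cnd_abs_le (linB_HA hm hL σ g a b) tame_eps.meas (fun _ x => (abs_eps N x).le) l z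

theorem tame_sq_mean (σ : ℕ → ℝ) (g : Fin M → Fin (N + 1) → ℝ) (a : Fin k) (b : ℝ) (l : ℕ) :
    Tame (gaussSize (FieldIdx (N + 1)))
      fun z (_ : Fin (N + 1) → Bool) => mean f N σ g a b l z ^ 2 :=
  Tame.of_bdd (((cnd_regular (linB_HA hm hL σ g a b) tame_eps l).1.comp measurable_fst).pow_const 2)
    (B := 1) fun z _ => by rw [abs_pow]; exact pow_le_one₀ (abs_nonneg _) (abs_mean_le hm hL σ g a b l z)

theorem hasDerivAt_mean (σ : ℕ → ℝ) (g : Fin M → Fin (N + 1) → ℝ) (a : Fin k) (b : ℝ) {l : ℕ}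
    (hl : l ≤ k) (z : Fin k → FieldIdx (N + 1) → ℝ) :
    ∃ D, HasDerivAt (fun t => mean f N σ g a t l z) D b ∧
      D = cndDer (γN N) (cubeLaw (N + 1)) (HA f N σ g a b) (fun _ x => eps N x) (dA N a)
        (fun _ _ => 0) l z ∧
      |D| ≤ 2 * cnd (γN N) (cubeLaw (N + 1)) (HA f N σ g a b) (fun z _ => |z a (.inr ())|) l z := by
  refine ⟨_, hasDerivAt_cnd (family_eps hm hL σ g a b) hl z, rfl, ?_⟩
  have hH := linB_HA hm hL σ g a b
  have t0 : Tame (gaussSize (FieldIdx (N + 1)))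
      fun (_ : Fin k → FieldIdx (N + 1) → ℝ) (_ : Fin (N + 1) → Bool) => (0 : ℝ) :=
    Tame.of_bdd measurable_const (B := 0) fun _ _ => by simp
  have h := abs_cndDer_le_dom (μ := cubeLaw (N + 1)) hH tame_eps (tame_dA a) t0 (tame_abs_z a) t0
    (fun _ x => (abs_eps N x).le) (fun z x => (abs_dA a z x).le) (fun _ _ => by simp) hl z
  rwa [cnd_const hH, zero_add] at h

theorem lip_T (σ : ℕ → ℝ) (g : Fin M → Fin (N + 1) → ℝ) (a : Fin k) {b : ℝ} (hb0 : 0 ≤ b) (hb1 : b ≤ 1)
    (z : Fin k → FieldIdx (N + 1) → ℝ) :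
    |T f N σ g a b z - T f N σ g a 0 z| ≤ 6 * KA * b := by
  set H := HA f N σ g a
  have hdT : ∀ t ∈ Set.Icc 0 b, ∃ D, HasDerivAt (fun t => T f N σ g a t z) D t ∧ |D| ≤ 6 * KA := by
    intro t ht
    have htb : |t| ≤ 1 := abs_le.2 ⟨by linarith [ht.1], ht.2.trans hb1⟩
    have hH := linB_HA hm hL σ g a t
    have hA := mean_abs_z hm hL σ g a htb z
    have F1 := family_eps hm hL σ g a t
    have hl : ∀ l ∈ Icc ((a : ℕ) + 1) k, ∃ D, HasDerivAt
        (fun t => cnd (γN N) (cubeLaw (N + 1)) (H t) (fun z _ => mean f N σ g a t l z ^ 2) 0 z) D t ∧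
          |D| ≤ 6 * KA := by
      intro l hl
      have hlk := (mem_Icc.1 hl).2
      set dM : ℝ → (Fin k → FieldIdx (N + 1) → ℝ) → ℝ := fun t z =>
        cndDer (γN N) (cubeLaw (N + 1)) (H t) (fun _ x => eps N x) (dA N a) (fun _ _ => 0) l z
      set dφ : ℝ → (Fin k → FieldIdx (N + 1) → ℝ) → (Fin (N + 1) → Bool) → ℝ :=
        fun t z _ => 2 * mean f N σ g a t l z * dM t z
      have hdM : ∀ t z, HasDerivAt (fun t => mean f N σ g a t l z) (dM t z) t ∧
          |dM t z| ≤ 2 * cnd (γN N) (cubeLaw (N + 1)) (H t) (fun z _ => |z a (.inr ())|) l z := fun t z => by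
        obtain ⟨D, h1, h2, h3⟩ := hasDerivAt_mean hm hL σ g a t hlk z
        subst h2; exact ⟨h1, h3⟩
      have t0 : Tame (gaussSize (FieldIdx (N + 1)))
          fun (_ : Fin k → FieldIdx (N + 1) → ℝ) (_ : Fin (N + 1) → Bool) => (0 : ℝ) :=
        Tame.of_bdd measurable_const (B := 0) fun _ _ => by simp
      have mdM : ∀ t, Measurable (dM t) := fun t =>
        cndDer_measurable (linB_HA hm hL σ g a t) tame_eps (tame_dA a) t0 l
      have mdφ : ∀ t, Measurable (Function.uncurry (dφ t)) := fun t =>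
        (((cnd_regular (linB_HA hm hL σ g a t) tame_eps l).1.const_mul 2).mul (mdM t)).comp measurable_fst
      obtain ⟨B, hB, hb⟩ := F1.der_bound (μ := cubeLaw (N + 1))
      obtain ⟨A, hA', hFb⟩ := F1.bound
      have F2 : Family (gaussSize (FieldIdx (N + 1))) H
          (fun t z _ => mean f N σ g a t l z ^ 2) (fun _ => dA N a) dφ t 1 := by
        refine ⟨one_pos, fun t => (linB_HA hm hL σ g a t).meas, fun _ => (tame_dA a).meas,
          fun t => (tame_sq_mean hm hL σ g a t l).meas, mdφ,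
          ⟨A + 2 * B + 1, by positivity, fun s hs z x => ?_⟩, F1.derivH, fun s _ z x => ?_⟩
        · obtain ⟨p1, p2, -, -⟩ := hFb s hs z x
          obtain ⟨-, -, -, p4⟩ := hb s hs l hlk z
          have ht' := (gaussSize (FieldIdx (N + 1))).tot_nonneg z
          set tt := (gaussSize (FieldIdx (N + 1))).tot z
          set A' := A + 2 * B + 1
          have mono : ∀ {c : ℝ}, 0 ≤ c → c ≤ A' → c * exp (c * tt) ≤ A' * exp (A' * tt) := fun hc hcA =>
            mul_le_mul hcA (exp_le_exp.2 (mul_le_mul_of_nonneg_right hcA ht')) (exp_pos _).le (hc.trans hcA)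
          have hm1 := abs_mean_le hm hL σ g a s l z
          refine ⟨p1.trans (mul_le_mul_of_nonneg_right (by simp only [A']; linarith) (by linarith)),
            p2.trans (mono hA' (by simp only [A']; linarith)), ?_, ?_⟩
          · rw [abs_pow]
            exact (pow_le_one₀ (abs_nonneg _) hm1).trans
              (one_le_mul_of_one_le_of_one_le (by simp only [A']; linarith) (one_le_exp (by positivity)))
          · rw [show dφ s z x = 2 * mean f N σ g a s l z * dM s z from rfl, abs_mul, abs_mul, abs_two]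
            calc 2 * |mean f N σ g a s l z| * |dM s z| ≤ 2 * (B * exp (B * tt)) :=
                  mul_le_mul (mul_le_of_le_one_right two_pos.le hm1) p4 (abs_nonneg _) two_pos.le
              _ ≤ 2 * B * exp (2 * B * tt) := by
                  rw [← mul_assoc]; gcongr; linarith
              _ ≤ _ := mono (by positivity) (by simp only [A']; linarith)
        · exact ((hdM s z).1.fun_pow 2).congr_deriv (by simp [dφ])
      refine ⟨_, hasDerivAt_cnd F2 (Nat.zero_le k) z, ?_⟩
      have tz := cnd_tame (μ := cubeLaw (N + 1)) hH (tame_abs_z (N := N) a) l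
      have tdφ : Tame (gaussSize (FieldIdx (N + 1))) (dφ t) := (F2.tames (by simp)).2.2
      have h := abs_cndDer_le_dom (μ := cubeLaw (N + 1)) hH (tame_sq_mean hm hL σ g a t l) (tame_dA a)
        tdφ (tame_abs_z a) (tz.const_mul 4)
        (fun z _ => by rw [abs_pow]; exact pow_le_one₀ (abs_nonneg _) (abs_mean_le hm hL σ g a t l z))
        (fun z x => (abs_dA a z x).le)
        (fun z x => by
          rw [show dφ t z x = 2 * mean f N σ g a t l z * dM t z from rfl, abs_mul, abs_mul, abs_two]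
          calc 2 * |mean f N σ g a t l z| * |dM t z|
              ≤ 2 * (2 * cnd (γN N) (cubeLaw (N + 1)) (H t) (fun z _ => |z a (.inr ())|) l z) :=
                mul_le_mul (mul_le_of_le_one_right two_pos.le (abs_mean_le hm hL σ g a t l z)) (hdM t z).2
                  (abs_nonneg _) two_pos.le
            _ = _ := by ring) (Nat.zero_le k) z
      rw [cnd_const_mul, cnd_tower hH (Nat.zero_le l)] at h
      refine h.trans ?_
      linarith
    choose! D hD using hl
    refine ⟨mass k * ∑ l ∈ Icc ((a : ℕ) + 1) k, D l, (HasDerivAt.fun_sum fun l hl => (hD l hl).1).const_mul _, ?_⟩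
    have hK : 0 ≤ 6 * KA := by unfold KA; positivity
    rw [abs_mul, abs_of_pos mass_pos]
    exact (mul_le_mul_of_nonneg_left (abs_sum_le_sum_abs _ _) mass_pos.le).trans
      (mass_sum_le (fun l hl => mem_Icc.2 ⟨Nat.zero_le _, (mem_Icc.1 hl).2⟩) hK fun l hl => (hD l hl).2)
  choose! D hD using hdT
  have h := Convex.norm_image_sub_le_of_norm_hasDerivWithin_le (f := fun t => T f N σ g a t z) (f' := D)
    (fun t ht => (hD t ht).1.hasDerivWithinAt) (fun t ht => (hD t ht).2) (convex_Icc 0 b)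
    (Set.left_mem_Icc.2 hb0) (Set.right_mem_Icc.2 hb0)
  simpa [abs_of_nonneg hb0] using h

theorem hasDerivAt_val_aux (σ : ℕ → ℝ) (g : Fin M → Fin (N + 1) → ℝ) (a : Fin k) (b : ℝ)
    (z : Fin k → FieldIdx (N + 1) → ℝ) :
    HasDerivAt (fun t => val (γN N) (cubeLaw (N + 1)) (HA f N σ g a t) 0 z)
      (b * (1 - T f N σ g a b z)) b := by
  refine (hasDerivAt_val (family_eps hm hL σ g a b) 0 z).congr_deriv ?_
  obtain ⟨h0m, B0, hB0'⟩ := h0Of_bdd (M := M) (cubeLeaf N) hm hL k ((N : ℝ) + 1) σ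
  have hB0 : ∀ x, |H0A k f N σ g x| ≤ B0 := fun x => hB0' g x
  set v := vA N σ a b with hvdef
  have eH : HA f N σ g a b = fun z x => linZ v z x + H0A k f N σ g x := HA_lin σ g a b
  have hH := linB_HA hm hL σ g a b
  set d : Fin k → FieldIdx (N + 1) → (Fin (N + 1) → Bool) → ℝ :=
    fun a' i x => if a' = a ∧ i = Sum.inr () then eps N x else 0 with hd
  have hbc : BCoef d := ⟨1, zero_le_one, fun a' i => ⟨measurable_of_countable _, fun x => by
    simp only [hd]; split_ifs <;> simp [abs_eps]⟩⟩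
  have hlin : linZ d = dA N a := funext₂ fun z' x => by
    simp only [linZ, hd]
    rw [sum_eq_single a (fun a' _ ha => sum_eq_zero fun i _ => by simp [ha]) (by simp),
      sum_eq_single (Sum.inr ()) (fun i _ hi => by simp [hi]) (by simp)]
    simp [dA]
  have hdv : ∀ (a' : Fin k) x y, ∑ i, d a' i x * v a' i y = if a' = a then b * (eps N x * eps N y) else 0 :=
    fun a' x y => by
      by_cases ha : a' = a
      · subst ha
        rw [if_pos rfl, sum_eq_single (Sum.inr ()) (fun i _ hi => by simp [hd, hi]) (by simp)]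
        simp only [hd, and_self, if_true, hvdef, vA_aux]
        ring
      · simp [hd, ha]
  have h := cnd_linZ_zero (μ := cubeLaw (N + 1)) (bcoef_vA σ a b) hbc (H0 := H0A k f N σ g) (h0m g)
    hB0 z
  rw [hlin] at h
  simp only [← hvdef, hdv, eps_mul_self, sum_ite_eq', mem_univ, if_true, mul_one] at h
  rw [← eH] at h
  refine h.trans ?_
  rw [cnd_const hH b 0 z, T, mul_sub, mul_one, mul_left_comm b]
  congr 2
  have hI : Icc ((a : ℕ) + 1) k = (Icc 1 k).filter fun l => (a : ℕ) < l := by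
    ext l; simp only [mem_Icc, mem_filter]; omega
  rw [hI, sum_filter, mul_sum]
  refine sum_congr rfl fun l _ => ?_
  have hlow : ∀ x y, lowKer d v l x y = (if (a : ℕ) < l then b else 0) * (eps N x * eps N y) := fun x y => by
    simp only [lowKer, hdv]
    rw [sum_eq_single a (fun a' _ ha => by simp [ha]) (by simp)]
    by_cases hal : (a : ℕ) < l <;> simp [hal]
  have hp : ∀ z', pairCnd (γN N) (cubeLaw (N + 1)) (HA f N σ g a b) (fun _ x _ y => lowKer d v l x y) l z'
      = (if (a : ℕ) < l then b else 0) * mean f N σ g a b l z' ^ 2 := fun z' => by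
    simp only [hlow, ← mul_assoc]
    rw [← cnd_mul_cnd (f := fun x => (if (a : ℕ) < l then b else 0) * eps N x), pow_two, mean,
      cnd_const_mul (φ := fun _ x => eps N x), mul_assoc]
  simp only [hp]
  rw [cnd_const_mul (φ := fun z' _ => mean f N σ g a b l z' ^ 2)]
  split_ifs
  · rfl
  · simp

theorem expand (σ : ℕ → ℝ) (g : Fin M → Fin (N + 1) → ℝ) (a : Fin k) {b : ℝ} (hb0 : 0 ≤ b) (hb1 : b ≤ 1)
    (z : Fin k → FieldIdx (N + 1) → ℝ) :
    |val (γN N) (cubeLaw (N + 1)) (HA f N σ g a b) 0 z - val (γN N) (cubeLaw (N + 1)) (HA f N σ g a 0) 0 z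
        - b ^ 2 / 2 * (1 - T f N σ g a 0 z)| ≤ 6 * KA * b ^ 3 := by
  set c := 1 - T f N σ g a 0 z
  set ψ := fun t => val (γN N) (cubeLaw (N + 1)) (HA f N σ g a t) 0 z - t ^ 2 / 2 * c
  have hd : ∀ t, HasDerivAt ψ (t * (T f N σ g a 0 z - T f N σ g a t z)) t := fun t =>
    ((hasDerivAt_val_aux hm hL σ g a t z).sub ((((hasDerivAt_id t).fun_pow 2).div_const 2).mul_const c)).congr_deriv
      (by simp [c]; ring)
  have hK : 0 ≤ KA := by unfold KA; positivity
  have h := Convex.norm_image_sub_le_of_norm_hasDerivWithin_le (f := ψ) (C := 6 * KA * b ^ 2)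
    (fun t _ => (hd t).hasDerivWithinAt) (fun t ht => by
      rw [Real.norm_eq_abs, abs_mul, abs_of_nonneg ht.1, abs_sub_comm]
      calc t * |T f N σ g a t z - T f N σ g a 0 z| ≤ b * (6 * KA * b) :=
            mul_le_mul ht.2 ((lip_T hm hL σ g a ht.1 (ht.2.trans hb1) z).trans
              (mul_le_mul_of_nonneg_left ht.2 (by positivity))) (abs_nonneg _) hb0
        _ = _ := by ring) (convex_Icc 0 b) (Set.left_mem_Icc.2 hb0) (Set.right_mem_Icc.2 hb0)
  simp only [ψ, sub_zero, Real.norm_eq_abs, abs_of_nonneg hb0] at h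
  rw [show (0 : ℝ) ^ 2 / 2 * c = 0 by ring, sub_zero] at h
  rw [show 6 * KA * b ^ 3 = 6 * KA * b ^ 2 * b by ring, sub_right_comm]
  exact h

theorem integrable_val (σ : ℕ → ℝ) (a : Fin k) (b : ℝ) :
    Integrable (fun g : Fin M → Fin (N + 1) → ℝ => val (γN N) (cubeLaw (N + 1)) (HA f N σ g a b) 0 fun _ _ => 0)
      (patterns M (N + 1)) := by
  have : IsProbabilityMeasure (patterns M (N + 1)) := by unfold patterns; infer_instance
  obtain ⟨A, hA, h⟩ := Lf.ham_bound (M := M) (k := k) (cubeLeaf N) hL ((N : ℝ) + 1) (amp a b)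
    (∑ l : Fin k, |σ ((l : ℕ) + 1)|)
  obtain ⟨A', -, hA'⟩ := val_bound_unif (k := k) (μ := cubeLaw (N + 1)) (gaussSize (FieldIdx (N + 1))) hA
  exact Integrable.of_bound
    (val_measurable_param_at (measurable_HA hm σ a b) 0 _).aestronglyMeasurable
    (A' * (1 + (gaussSize (FieldIdx (N + 1))).tot (fun (_ : Fin k) _ => 0)))
    (ae_of_all _ fun g => (Real.norm_eq_abs _).trans_le (hA' _ (linB_HA hm hL σ g a b).meas
      (fun z x => h σ (fun l => single_le_sum (f := fun l : Fin k => |σ ((l : ℕ) + 1)|)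
        (fun _ _ => abs_nonneg _) (mem_univ l)) g z x) 0 _))

omit hm hL in
theorem mp_perm {ι α : Type} [Fintype ι] [MeasurableSpace α] (μ : Measure α) [SigmaFinite μ]
    (e : Equiv.Perm ι) :
    MeasurePreserving (fun (x : ι → α) i => x (e i)) (Measure.pi fun _ => μ) (Measure.pi fun _ => μ) := by
  have h := measurePreserving_piCongrLeft (α := fun _ : ι => α) (fun _ => μ) e.symm
  have e' : (fun (x : ι → α) i => x (e i)) = MeasurableEquiv.piCongrLeft (fun _ : ι => α) e.symm := by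
    funext x i
    conv_rhs => rw [← e.symm_apply_apply i]
    rw [MeasurableEquiv.coe_piCongrLeft, Equiv.piCongrLeft_apply_apply]
  rw [e']; exact h

omit hm hL in
theorem cube_ham_perm (σ : ℕ → ℝ) (p : Equiv.Perm (Fin (N + 1))) (g : Fin M → Fin (N + 1) → ℝ)
    (z : Fin k → FieldIdx (N + 1) → ℝ) (x : Fin (N + 1) → Bool) :
    ham (cubeLeaf N) f ((N : ℝ) + 1) σ (fun _ => 0) (fun a i => g a (p i))
        (fun l i => z l (Equiv.sumCongr p (Equiv.refl Unit) i)) (fun i => x (p i))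
      = ham (cubeLeaf N) f ((N : ℝ) + 1) σ (fun _ => 0) g z x := by
  have hs : ∀ u v : Fin (N + 1) → ℝ, sdot (fun i => u (p i)) (fun i => v (p i)) = sdot u v := fun u v =>
    Equiv.sum_comp p fun i => u i * v i
  show (∑ a, f (sdot (fun i => g a (p i)) fun i => cubeField (N + 1) x (p i)))
    + ∑ l : Fin k, (_ * sdot (fun i => z l (.inl (p i))) (fun i => cubeField (N + 1) x (p i)) + 0 * _ * _)
    - _ * sdot (fun i => cubeField (N + 1) x (p i)) (fun i => cubeField (N + 1) x (p i)) + (0 : ℝ) = _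
  simp only [fun l : Fin k => hs (fun i => z l (.inl i)) (cubeField (N + 1) x),
    fun a => hs (g a) (cubeField (N + 1) x), hs]
  simp [ham, cubeLeaf]

theorem abs_coord_le (σ : ℕ → ℝ) (g : Fin M → Fin (N + 1) → ℝ) (l : ℕ) (i : Fin (N + 1))
    (z : Fin k → FieldIdx (N + 1) → ℝ) : |coord f N σ g l i z| ≤ 1 :=
  cnd_abs_le (linB_HZ hm hL σ g) (tame_coord i).meas (fun _ x => abs_cubeField_le x i) l z

theorem tame_coord_sq (σ : ℕ → ℝ) (g : Fin M → Fin (N + 1) → ℝ) (l : ℕ) (i : Fin (N + 1)) :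
    Tame (k := k) (gaussSize (FieldIdx (N + 1)))
      fun z (_ : Fin (N + 1) → Bool) => coord f N σ g l i z ^ 2 :=
  Tame.of_bdd (((cnd_regular (linB_HZ hm hL σ g) (tame_coord i) l).1.comp measurable_fst).pow_const 2)
    (B := 1) fun z _ => by rw [abs_pow]; exact pow_le_one₀ (abs_nonneg _) (abs_coord_le hm hL σ g l i z)

theorem coordSq_facts (σ : ℕ → ℝ) (l : ℕ) (i : Fin (N + 1)) :
    Measurable (coordSq (M := M) f N σ k l i) ∧
      Integrable (coordSq (M := M) f N σ k l i) (patterns M (N + 1)) := by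
  have : IsProbabilityMeasure (patterns M (N + 1)) := by unfold patterns; infer_instance
  have hmR : Measurable (coordSq (M := M) f N σ k l i) :=
    cnd_measurable_param_at (φ := fun g z _ => coord (k := k) f N σ g l i z ^ 2) (measurable_HZ hm σ)
      (((cnd_measurable_param (φ := fun (_ : Fin M → Fin (N + 1) → ℝ) _ x => cubeField (N + 1) x i)
        (measurable_HZ hm σ) ((measurable_of_countable fun x : Fin (N + 1) → Bool =>
          cubeField (N + 1) x i).comp measurable_snd) l).pow_const 2).comp measurable_fst) 0 _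
  exact ⟨hmR, Integrable.of_bound hmR.aestronglyMeasurable 1 (ae_of_all _ fun g =>
    cnd_abs_le (linB_HZ hm hL σ g) (tame_coord_sq hm hL σ g l i).meas (fun z _ => by
      rw [abs_pow]; exact pow_le_one₀ (abs_nonneg _) (abs_coord_le hm hL σ g l i z)) 0 _)⟩

theorem mean_exchange (σ : ℕ → ℝ) (l : ℕ) (i : Fin (N + 1)) :
    ∫ g, coordSq f N σ k l i g ∂patterns M (N + 1)
      = ∫ g, coordSq f N σ k l (Fin.last N) g ∂patterns M (N + 1) := by
  set p := Equiv.swap i (Fin.last N)
  set Fz := fun (y : FieldIdx (N + 1) → ℝ) q => y (Equiv.sumCongr p (Equiv.refl Unit) q)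
  set G := fun (x : Fin (N + 1) → Bool) q => x (p q)
  set P := fun (g : Fin M → Fin (N + 1) → ℝ) a q => g a (p q)
  have hF : MeasurePreserving Fz (γN N) (γN N) := mp_perm _ _
  have hG : MeasurePreserving G (cubeLaw (N + 1)) (cubeLaw (N + 1)) := mp_perm _ _
  have hP : MeasurePreserving P (patterns M (N + 1)) (patterns M (N + 1)) :=
    measurePreserving_pi _ _ fun _ => mp_perm _ _
  have hR : ∀ g, coordSq f N σ k l i (P g) = coordSq f N σ k l (Fin.last N) g := fun g => by
    have hH := linB_HZ (k := k) hm hL σ (P g)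
    have eH : (fun z x => HZ (k := k) f N σ (P g) (fun b => Fz (z b)) (G x)) = HZ f N σ g :=
      funext₂ fun z x => cube_ham_perm σ p g z x
    have h1 : ∀ z : Fin k → FieldIdx (N + 1) → ℝ,
        coord f N σ (P g) l i (fun b => Fz (z b)) = coord f N σ g l (Fin.last N) z := fun z => by
      have e := (val_map hF hG hH l z).2 _ (tame_coord i)
      rw [eH] at e
      refine e.symm.trans ?_
      unfold coord
      congr 1
      funext _ x
      simp [cubeField, G, p]
    have e := (val_map hF hG hH 0 (fun _ _ => 0)).2 _ (tame_coord_sq hm hL σ (P g) l i)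
    rw [eH] at e
    simp only [h1] at e
    exact e.symm
  simp only [← hR]
  rw [← integral_map hP.measurable.aemeasurable (coordSq_facts hm hL σ l i).1.aestronglyMeasurable, hP.map_eq]

theorem mean_T (σ : ℕ → ℝ) (a : Fin k) :
    Integrable (fun g : Fin M → Fin (N + 1) → ℝ => T f N σ g a 0 fun _ _ => 0) (patterns M (N + 1)) ∧
    ∫ g, T f N σ g a 0 (fun _ _ => 0) ∂patterns M (N + 1)
      = tail k (cubeQ f N M k σ) ((a : ℕ) + 1) := by
  have : IsProbabilityMeasure (patterns M (N + 1)) := by unfold patterns; infer_instance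
  have hmH := fun b => measurable_HA (M := M) (N := N) hm σ a b
  have hint : ∀ l, Integrable (fun g : Fin M → Fin (N + 1) → ℝ =>
      cnd (γN N) (cubeLaw (N + 1)) (HA f N σ g a 0) (fun z _ => mean f N σ g a 0 l z ^ 2) 0 fun _ _ => 0)
      (patterns M (N + 1)) := fun l => by
    refine Integrable.of_bound (cnd_measurable_param_at (hmH 0)
      (((cnd_measurable_param (φ := fun (_ : Fin M → Fin (N + 1) → ℝ) _ x => eps N x) (hmH 0)
        ((measurable_of_countable (eps N)).comp measurable_snd) l).pow_const 2).comp measurable_fst) 0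
          _).aestronglyMeasurable 1 (ae_of_all _ fun g => ?_)
    exact cnd_abs_le (linB_HA hm hL σ g a 0) (tame_sq_mean hm hL σ g a 0 l).meas (fun z _ => by
      rw [abs_pow]; exact pow_le_one₀ (abs_nonneg _) (abs_mean_le hm hL σ g a 0 l z)) 0 _
  refine ⟨(integrable_finsetSum _ fun l _ => hint l).const_mul _, ?_⟩
  unfold T
  rw [integral_const_mul, integral_finsetSum _ fun l _ => hint l, tail]
  congr 1
  refine sum_congr rfl fun l hl => ?_
  have hl0 : l ≠ 0 := by have := (mem_Icc.1 hl).1; omega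
  rw [cubeQ, Lf.qOf_eq (cubeLeaf N) hm hL _ σ _ hl0]
  have hc : ∀ (g : Fin M → Fin (N + 1) → ℝ) (z : Fin k → FieldIdx (N + 1) → ℝ),
      mean f N σ g a 0 l z ^ 2 = ((N : ℝ) + 1) * coord f N σ g l (Fin.last N) z ^ 2 := by
    intro g z
    have e : (fun (_ : Fin k → FieldIdx (N + 1) → ℝ) x => cubeField (N + 1) x (Fin.last N))
        = fun _ x => (√((N : ℝ) + 1))⁻¹ * eps N x := by
      funext _ x
      simp [cubeField, eps, div_eq_inv_mul]
    rw [coord, e, cnd_const_mul (φ := fun _ x => eps N x), mean, HA, amp_zero, HZ, mul_pow, inv_pow,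
      sq_sqrt (by positivity)]
    field_simp
  have hsum : ∀ g : Fin M → Fin (N + 1) → ℝ, cnd (k := k) (γN N) (cubeLaw (N + 1)) (HZ f N σ g)
      (fun z _ => ∑ i, coord f N σ g l i z ^ 2) 0 (fun _ _ => 0)
      = ∑ i, coordSq f N σ k l i g := fun g =>
    cnd_finsum (linB_HZ hm hL σ g) univ (fun i _ => tame_coord_sq hm hL σ g l i) 0 fun _ _ => 0
  show _ = ∫ g, cnd (k := k) (γN N) (cubeLaw (N + 1)) (HZ f N σ g)
    (fun z _ => ∑ i, coord f N σ g l i z ^ 2) 0 (fun _ _ => 0) ∂_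
  simp only [hsum]
  rw [integral_finsetSum _ fun i _ => (coordSq_facts hm hL σ l i).2,
    sum_congr rfl fun i _ => mean_exchange hm hL σ l i,
    sum_const, card_univ, Fintype.card_fin, nsmul_eq_mul, Nat.cast_add, Nat.cast_one, ← integral_const_mul]
  refine integral_congr_ae (ae_of_all _ fun g => ?_)
  simp only [hc, HA, amp_zero]
  exact cnd_const_mul (φ := fun z _ => coord f N σ g l (Fin.last N) z ^ 2) _ _ _

omit hm hL in
/-- The second-order expansion in the variance of the auxiliary field. -/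
theorem cubeAux : CubeAuxStmt := by
  refine ⟨6 * KA, by unfold KA; positivity, fun f L hm hL N M k j σ s hj hjk hs0 hs1 => ?_⟩
  have : IsProbabilityMeasure (patterns M (N + 1)) := by unfold patterns; infer_instance
  obtain ⟨a, rfl⟩ : ∃ a : Fin k, (a : ℕ) + 1 = j := ⟨⟨j - 1, by omega⟩, by simp; omega⟩
  have hb : auxAmp ((a : ℕ) + 1) s = amp a √s := rfl
  have hne : ((N : ℝ) + 1) ≠ 0 := by positivity
  obtain ⟨hTi, hT⟩ := mean_T (N := N) (M := M) hm hL σ a
  have i1 := integrable_val (N := N) (M := M) hm hL σ a (√s)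
  have i0 := integrable_val (N := N) (M := M) hm hL σ a (0 : ℝ)
  simp only [cubeFree, free, hb]
  rw [mul_sub, mul_div_cancel₀ _ hne, mul_div_cancel₀ _ hne, ← amp_zero a]
  show |(∫ g, val (γN N) (cubeLaw (N + 1)) (HA f N σ g a (√s)) 0 _ ∂_)
    - (∫ g, val (γN N) (cubeLaw (N + 1)) (HA f N σ g a 0) 0 _ ∂_) - _| ≤ _
  rw [← hT, mul_sub, mul_one, ← integral_const_mul, ← integral_sub i1 i0]
  have e : s / 2 = ∫ _g : Fin M → Fin (N + 1) → ℝ, s / 2 ∂patterns M (N + 1) := by simp
  nth_rw 1 [e]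
  set A := fun g : Fin M → Fin (N + 1) → ℝ => val (γN N) (cubeLaw (N + 1)) (HA f N σ g a (√s)) 0 (fun _ _ => 0)
    - val (γN N) (cubeLaw (N + 1)) (HA f N σ g a 0) 0 fun _ _ => 0
  set B := fun g : Fin M → Fin (N + 1) → ℝ => s / 2 - s / 2 * T f N σ g a 0 fun _ _ => 0
  have iA : Integrable A (patterns M (N + 1)) := i1.sub i0
  have iB : Integrable B (patterns M (N + 1)) := (integrable_const (s / 2)).sub (hTi.const_mul _)
  rw [← integral_sub (integrable_const _) (hTi.const_mul _)]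
  show |(∫ g, A g ∂_) - ∫ g, B g ∂_| ≤ _
  rw [← integral_sub iA iB]
  suffices hg : ∀ g, ‖A g - B g‖ ≤ 6 * KA * (s * √s) by
    simpa using norm_integral_le_of_norm_le_const (μ := patterns M (N + 1)) (ae_of_all _ hg)
  intro g
  have h := expand hm hL σ g a (sqrt_nonneg s) (sqrt_le_one.2 hs1) (fun _ _ => 0)
  rw [sq_sqrt hs0, show √s ^ 3 = s * √s by rw [pow_succ, sq_sqrt hs0]] at h
  rw [mul_sub, mul_one] at h
  exact h

end Vale.Agent.P157.Cube2.AuxF
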