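import Vale.Agent.P157.Cube2.LowTools

/-!
# P157: consistency of the cube system

The one-spin increment with and without an auxiliary field, compared to first order in the variance of
that field, gives the tails of one more spin.
-/

open MeasureTheory ProbabilityTheory Real Finset
open Vale.Agent.P157.Rsb

namespace Vale.Agent.P157.Cube2

variable {k : ℕ}

theorem spinQ_congr {r r' : ℕ → ℝ} (h : ∀ j ≤ k, r j = r' j) {l : ℕ} (hl : l ≤ k) :
    spinQ k r l = spinQ k r' l := by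
  have hF : ∀ d ≤ k, spinN k r d = spinN k r' d := by
    intro d
    induction d with
    | zero => intro _; rfl
    | succ d ih =>
      intro hd
      simp only [spinN, ih (by omega), h (k - d) (by omega), h (k - d - 1) (by omega)]
  have hF' : ∀ j, spinF k r j = spinF k r' j := fun j => hF (k - j) (Nat.sub_le k j)
  have hA : ∀ d ≤ l, avgN k r l (fun x => spinU k r l x ^ 2) d
      = avgN k r' l (fun x => spinU k r' l x ^ 2) d := by
    intro d
    induction d with
    | zero => intro _; simp only [avgN, spinU, hF' l]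
    | succ d ih =>
      intro hd
      simp only [avgN, ih (by omega), hF', h (l - d) (by omega), h (l - d - 1) (by omega)]
  simp only [spinQ, spinW, hA (l - 0) (by omega)]

theorem good_bounds {f : ℝ → ℝ} (hf : Good f) :
    ∃ L D, (∀ u, |f u| ≤ L) ∧ ∀ u, |deriv f u| ≤ D := by
  obtain ⟨L, hL⟩ := hf.2.exists_bound_of_continuous hf.1.continuous
  obtain ⟨D, hD⟩ := hf.2.deriv.exists_bound_of_continuous (hf.1.continuous_deriv (by norm_num))
  exact ⟨L, D, hL, hD⟩

theorem rho_mono (hP : CubePathStmt) (hPhi : PhiStmt) {f : ℝ → ℝ} (hf : Good f) (N M : ℕ) (σ : ℕ → ℝ) :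
    ∀ j < k, rhoOf k f ((M : ℝ) / (N + 1)) σ (cubeQ f N M k σ) j
      ≤ rhoOf k f ((M : ℝ) / (N + 1)) σ (cubeQ f N M k σ) (j + 1) := by
  obtain ⟨L, D, hL, hD⟩ := good_bounds hf
  have hq := hP f L hf.1.continuous.measurable hL N M k σ
  obtain ⟨-, -, hg, hgm⟩ := hPhi.1 f D hf hD k _ _ hq hq
  intro j hj
  have ht : (0 : ℝ) ≤ (M : ℝ) / (N + 1) := by positivity
  rcases Nat.eq_zero_or_pos j with h | h
  · subst h
    rw [rhoOf, if_pos rfl, rhoOf, if_neg (by omega)]
    exact add_nonneg (sum_nonneg fun i _ => sq_nonneg _) (mul_nonneg ht (hg 1 (by omega)).1)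
  · rw [rhoOf, if_neg (by omega), rhoOf, if_neg (by omega), sum_Icc_succ_top (by omega)]
    have := mul_le_mul_of_nonneg_left (hgm j hj) ht
    linarith [sq_nonneg (σ (j + 1))]

/-- Amplitudes with prescribed cumulative variances. -/
noncomputable def ampsOf (r : ℕ → ℝ) (l : ℕ) : ℝ := √(r l - r (l - 1))

theorem cum_ampsOf {r : ℕ → ℝ} (h0 : r 0 = 0) (hm : ∀ j < k, r j ≤ r (j + 1)) :
    ∀ j ≤ k, cum (ampsOf r) j = r j := by
  intro j
  induction j with
  | zero => intro _; simp [cum, h0]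
  | succ j ih =>
    intro hj
    have e : ampsOf r (j + 1) ^ 2 = r (j + 1) - r j := by
      rw [ampsOf, Nat.add_sub_cancel, sq_sqrt (sub_nonneg.2 (hm j (by omega)))]
    have := ih (by omega)
    simp only [cum] at this ⊢
    rw [sum_Icc_succ_top (by omega), this, e]
    ring

theorem cubeConsist (hCav : CubeCavityStmt) (hAux : CubeAuxStmt) (hPr : CubeProductStmt)
    (hP : CubePathStmt) (hPhi : PhiStmt) : CubeConsistStmt := by
  intro f T B hf
  obtain ⟨Cv, hC⟩ := hCav f T B hf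
  obtain ⟨Ca, hCa, hA⟩ := hAux
  refine ⟨4 * (max Cv 1 + Ca), fun k ε s hε hs hs1 => ?_⟩
  obtain ⟨N₀, hN⟩ := hC k ε hε
  refine ⟨N₀, fun N hN₀ M hM σ hσ hB j hj => ?_⟩
  obtain ⟨hj1, hjk⟩ := mem_Icc.1 hj
  obtain ⟨L, D, hL, hD⟩ := good_bounds hf
  have hm := hf.1.continuous.measurable
  set ρ := rhoOf k f ((M : ℝ) / (N + 1)) σ (cubeQ f N M k σ) with hρ
  set u := √(cubeTotErr f N M k σ + mass k)
  set c := mass k / 2 * ∑ l ∈ Icc 1 k, (ρ l - cum σ l) * cubeQ f N M k σ l
  have hu : 0 ≤ u := sqrt_nonneg _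
  have h1 : |cubeGain f N M k σ j s - (spinG k (bump ρ j s) + c)| ≤ Cv * u + ε :=
    hN N hN₀ M hM σ hσ hB j s hj1 hjk hs.le hs1
  have h0 : |cubeGain f N M k σ j 0 - (spinG k (bump ρ j 0) + c)| ≤ Cv * u + ε :=
    hN N hN₀ M hM σ hσ hB j 0 hj1 hjk le_rfl zero_le_one
  rw [Low.cubeGain_zero, Low.bump_zero] at h0
  have hbig := hA f L hm hL (N + 1) M k j σ s hj1 hjk hs.le hs1
  set τ := tail k (cubeQ f (N + 1) M k σ) j
  have e2 : ((N + 1 : ℕ) : ℝ) + 1 = (N : ℝ) + 2 := by push_cast; ring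
  have hgain : cubeGain f N M k σ j s = ((N : ℝ) + 2) * free (cubeLeaf (N + 1)) f M k ((N : ℝ) + 2) σ (auxAmp j s)
      - ((N : ℝ) + 1) * cubeFree f N M k σ - s / 2 := rfl
  rw [e2] at hbig
  set σ' := ampsOf ρ
  have hcum : ∀ i ≤ k, cum σ' i = ρ i := cum_ampsOf (by simp [hρ, rhoOf]) (rho_mono hP hPhi hf N M σ)
  have hone := hA (fun _ => 0) 0 measurable_const (fun _ => by simp) 0 0 k j σ' s hj1 hjk hs.le hs1
  have hbump : spinG k (bump ρ j s) = free (cubeLeaf 0) (fun _ => 0) 0 k 1 σ' (auxAmp j s) - s / 2 := by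
    rw [hPr.2.2 (fun _ => 0) k j σ' s hs.le hj1 hjk]
    exact Low.spinG_congr fun i hi => by simp [bump, hcum i hi]
  have hzero : spinG k ρ = cubeFree (fun _ => 0) 0 0 k σ' := by
    rw [hPr.1]; exact Low.spinG_congr fun i hi => (hcum i hi).symm
  have htail : tail k (cubeQ (fun _ => 0) 0 0 k σ') j = spinTail k ρ j := by
    rw [tail, spinTail]
    congr 1
    refine sum_congr rfl fun l hl => ?_
    obtain ⟨hl1, hlk⟩ := mem_Icc.1 hl
    rw [hPr.2.1 _ k σ' l (mem_Icc.2 ⟨hj1.trans hl1, hlk⟩), spinQ_congr hcum hlk]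
  rw [htail, ← hzero, Nat.cast_zero, zero_add, one_mul] at hone
  have key : s / 2 * |τ - spinTail k ρ j| ≤ 2 * (Cv * u + ε) + 2 * (Ca * (s * √s)) := by
    rw [← abs_of_nonneg (show 0 ≤ s / 2 by linarith), ← abs_mul, abs_le]
    have g1 := abs_le.1 h1
    have g0 := abs_le.1 h0
    have gb := abs_le.1 hbig
    have go := abs_le.1 hone
    constructor <;> linarith [g1.1, g1.2, g0.1, g0.2, gb.1, gb.2, go.1, go.2]
  have hdiv : |τ - spinTail k ρ j| ≤ 4 * (Cv * u + ε) / s + 4 * Ca * √s := by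
    rw [div_add' _ _ _ hs.ne', le_div_iff₀ hs]
    linarith
  refine hdiv.trans ?_
  have e : Cv * u + ε ≤ max Cv 1 * (u + ε) := by
    have := mul_le_mul_of_nonneg_right (le_max_left Cv 1) hu
    have := mul_le_mul_of_nonneg_right (le_max_right Cv 1) hε.le
    linarith
  have hM0 : (0 : ℝ) ≤ max Cv 1 := zero_le_one.trans (le_max_right _ _)
  calc 4 * (Cv * u + ε) / s + 4 * Ca * √s
      ≤ 4 * (max Cv 1 * (u + ε)) / s + 4 * Ca * √s := by gcongr
    _ = 4 * max Cv 1 * ((u + ε) / s) + 4 * Ca * √s := by ring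
    _ ≤ 4 * (max Cv 1 + Ca) * ((u + ε) / s + √s) := by
        have h5 : 0 ≤ (u + ε) / s := by positivity
        nlinarith [mul_nonneg hCa h5, mul_nonneg hM0 (sqrt_nonneg s)]

end Vale.Agent.P157.Cube2
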