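import Vale.Agent.P157.Cube2.Intf
import Vale.Agent.P157.Rsb.Path

/-!
# P157: the overlaps of the cube system form a path
-/

open MeasureTheory ProbabilityTheory Real Finset
open Vale.Agent.P157.Rsb

namespace Vale.Agent.P157.Cube2

/-- The field vectors of the cube are unit vectors. -/
theorem cube_unit (N : ℕ) (x : (cubeLeaf N).X) :
    sdot ((cubeLeaf N).fld x) ((cubeLeaf N).fld x) = 1 :=
  (sum_congr rfl fun _ _ => (pow_two _).symm).trans (cubeField_unit (Nat.le_add_left 1 N) x)

/-- `cubePath : CubePathStmt`. -/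
theorem cubePath : CubePathStmt := fun _ _ hm hL N _ _ σ =>
  Lf.isPath_qOf (cubeLeaf N) (cube_unit N) hm hL _ σ _

end Vale.Agent.P157.Cube2
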