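import Vale.Agent.P157.Cube2.GenUpper
import Vale.Agent.P157.Cube2.Intf
import Vale.Agent.P157.Rsb.Dist

/-!
# P157: tools for the lower bound on the cube

The mean overlap is within the mean distance of any constant, for every leaf of unit vectors; basic
bounds for the cube systems; the free energy of one spin depends on the variances `r 0, …, r k` only.
-/

open MeasureTheory ProbabilityTheory Real Finset
open Vale.Agent.P157.Rsb

namespace Vale.Agent.P157.Cube2.Low

variable {n k M : ℕ} {S : Leaf n} {N : ℝ} {f : ℝ → ℝ} {L : ℝ}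

/-- The mean overlap is within the mean distance of any constant. -/
theorem gen_dist (hS : Gen.UnitLeaf S) (hN : 0 ≤ N) (hm : Measurable f) (hL : ∀ u, |f u| ≤ L)
    (σ : ℕ → ℝ) (c : ℝ) {j : ℕ} (hj : 1 ≤ j) :
    |Gen.qf S f M k N σ j - c| ≤ gibPair (k := k) S f M N σ (fun _ => 0) j
      fun _ x y => |sdot (S.fld x) (S.fld y) - c| := by
  have := S.fld_meas
  have hs : Measurable (Function.uncurry fun x y : S.X => sdot (S.fld x) (S.fld y)) := by
    unfold Function.uncurry sdot; fun_prop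
  have hb := Gen.abs_sdot_fld_le hS
  rw [Gen.qf, qOf, if_neg (by omega)]
  simp only [gibPair, gib]
  have hH : Measurable fun q : ((Fin M → Fin n → ℝ) × (Fin k → FieldIdx n → ℝ)) × S.X =>
      Gen.gHam S f N σ q.1.1 q.1.2 q.2 := by
    have := S.pat_meas
    have := S.aux_meas
    have := S.det_meas
    simp only [Gen.gHam, ham, sdot]
    fun_prop
  have hI : ∀ (a : S.X → S.X → ℝ) (A : ℝ),
      Measurable (Function.uncurry a) → (∀ x y, |a x y| ≤ A) →
      Integrable (fun g => cnd (stdG (FieldIdx n)) S.μ (Gen.gHam (k := k) S f N σ g)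
        (fun z _ => pairCnd (stdG (FieldIdx n)) S.μ (Gen.gHam S f N σ g)
          (fun _ x _ x' => a x x') j z) 0 (fun _ _ => 0)) (patterns M n) := fun a A ha hA =>
    Integrable.of_bound (measurable_root_pair (H := fun g => Gen.gHam S f N σ g) (Ψ := fun _ => a) hH
      (ha.comp (f := fun p : (Fin M → Fin n → ℝ) × S.X × S.X => (p.2.1, p.2.2)) (by fun_prop))
      j _).aestronglyMeasurable A (ae_of_all _ fun g =>
      (Real.norm_eq_abs _).trans_le (abs_root_pair_le (Gen.linB_gHam hS hN hm hL σ g) ha hA j _))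
  have h1 := hI _ _ hs hb
  have h2 := hI (fun x y => |sdot (S.fld x) (S.fld y) - c|) (1 + |c|) (hs.sub_const _).abs
    fun x y => by rw [abs_abs]; exact (abs_sub _ _).trans (add_le_add (hb x y) le_rfl)
  simp only [Gen.gHam] at h1 h2
  have e := integral_sub h1 (integrable_const c)
  simp only [integral_const, probReal_univ, one_smul] at e
  rw [← e]
  refine abs_integral_le_integral_abs.trans
    (integral_mono ((h1.sub (integrable_const _)).abs) h2 fun g => ?_)
  exact abs_root_pair_sub_le (Gen.linB_gHam hS hN hm hL σ g) hs hb c j _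

/-- A mean distance is nonnegative. -/
theorem gen_err_nonneg (σ c : ℕ → ℝ) (j : ℕ) : 0 ≤ gibPair (k := k) S f M N σ (fun _ => 0) j
    fun _ x y => |sdot (S.fld x) (S.fld y) - c j| :=
  integral_nonneg fun g => cnd_nonneg (fun z _ => cnd_nonneg (fun _ x =>
    cnd_nonneg (fun _ _ => abs_nonneg _) _ _) _ _) _ _

theorem cube_unitLeaf (N : ℕ) : Gen.UnitLeaf (cubeLeaf N) where
  same := rfl
  unit x := by
    have h := cubeField_unit (Nat.le_add_left 1 N) x
    simpa [sdot, cubeLeaf, ← pow_two] using h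
  det _ := rfl

theorem cube_err_nonneg (f : ℝ → ℝ) (N M k : ℕ) (σ q : ℕ → ℝ) (j : ℕ) :
    0 ≤ cubeErr f N M k σ q j :=
  gen_err_nonneg σ q j

theorem cube_tot_nonneg (f : ℝ → ℝ) (N M k : ℕ) (σ : ℕ → ℝ) : 0 ≤ cubeTotErr f N M k σ :=
  mul_nonneg (by unfold mass; positivity) (sum_nonneg fun j _ => cube_err_nonneg f N M k σ _ j)

/-- One added pattern on the cube. -/
theorem cube_pattern_step (hP : CubePathStmt) {C : ℝ} (hm : Measurable f) (hL : ∀ u, |f u| ≤ L)
    (hC : ∀ (n M k : ℕ) (S : Leaf n) (N : ℝ) (σ β : ℕ → ℝ) (q : ℕ → ℝ), 0 < N → IsPath k q →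
      (∀ x, sdot (S.pat x) (S.pat x) = 1) →
      |N * (free S f (M + 1) k N σ β - free S f M k N σ β) - phiK k f q|
        ≤ C * mass k * ∑ j ∈ Finset.Icc 0 k, gibPair (k := k) S f M N σ β j
            fun _ x y => |sdot (S.pat x) (S.pat y) - q j|)
    (N M : ℕ) (σ : ℕ → ℝ) :
    |((N : ℝ) + 1) * (cubeFree f N (M + 1) k σ - cubeFree f N M k σ)
      - phiK k f (cubeQ f N M k σ)| ≤ C * cubeTotErr f N M k σ := by
  have h := hC (N + 1) M k (cubeLeaf N) ((N : ℝ) + 1) σ (fun _ => 0) (cubeQ f N M k σ)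
    (by positivity) (hP f L hm hL N M k σ) (cube_unitLeaf N).unit
  rw [mul_assoc C] at h
  exact h

/-- One added pattern changes the pressure by a bounded amount. -/
theorem cube_close (hP : CubePathStmt) (hR : CubeRegStmt) (hPhi : PhiStmt) (hm : Measurable f)
    (hL : ∀ u, |f u| ≤ L) {C : ℝ} (hC0 : 0 ≤ C) {N M : ℕ} {σ : ℕ → ℝ}
    (h : |((N : ℝ) + 1) * (cubeFree f N (M + 1) k σ - cubeFree f N M k σ)
      - phiK k f (cubeQ f N M k σ)| ≤ C * cubeTotErr f N M k σ) :
    |((N : ℝ) + 1) * cubeFree f N (M + 1) k σ - ((N : ℝ) + 1) * cubeFree f N M k σ|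
      ≤ exp (8 * L) * L + 2 * C := by
  rw [← mul_sub]
  have h2 := abs_phiK_le hPhi hm hL (hP f L hm hL N M k σ)
  have h3 := mul_le_mul_of_nonneg_left ((le_abs_self _).trans ((hR f L hm hL N M k).2.2 σ)) hC0
  rw [abs_le] at h h2 ⊢
  constructor <;> linarith

/-- A crude bound on the free energy of the cube. -/
theorem abs_cubeFree_le (hD : DerivStmt) (hP : CubePathStmt) (hm : Measurable f)
    (hL : ∀ u, |f u| ≤ L) {N M : ℕ} {A R T : ℝ} (hA : 0 ≤ A) (hM : (M : ℝ) ≤ T * N)
    (hclose : ∀ M σ,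
      |((N : ℝ) + 1) * cubeFree f N (M + 1) k σ - ((N : ℝ) + 1) * cubeFree f N M k σ| ≤ A)
    {y : Fin k → ℝ} (hR : 0 ≤ R) (hy : ∀ i, |y i| ≤ R) :
    |cubeFree f N M k (lift y)| ≤ k * R * R + |T| * A := by
  have hN : (0 : ℝ) < (N : ℝ) + 1 := by positivity
  have h1 : |cubeFree f N M k (lift y) - cubeFree f N 0 k (lift y)| ≤ M * (A / ((N : ℝ) + 1)) :=
    Gen.apriori (S := cubeLeaf N) (k := k) (N := (N : ℝ) + 1) (f := f) (fun M σ => by
      rw [le_div_iff₀ hN]
      have := hclose M σ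
      rwa [← mul_sub, abs_mul, abs_of_pos hN, mul_comm] at this) M (lift y)
  have h2 := Gen.fr_lip (S := cubeLeaf N) hD hN (fun M σ => hP f L hm hL N M k σ) hm hL (M := 0)
    (R := R) (y := fun _ => 0) (y' := y) (fun _ => by simpa using hR) hy
  rw [lift_zero, Gen.fr_zero (cube_unitLeaf N), sub_zero] at h2
  have h3 : (M : ℝ) * (A / ((N : ℝ) + 1)) ≤ |T| * A := by
    rw [← mul_div_assoc, div_le_iff₀ hN]
    have := mul_le_mul_of_nonneg_right (hM.trans (mul_le_mul_of_nonneg_right (le_abs_self T)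
      (Nat.cast_nonneg N))) hA
    linarith [mul_nonneg (abs_nonneg T) hA]
  have h4 : R * ∑ i, |y i - (fun _ : Fin k => (0 : ℝ)) i| ≤ k * R * R := by
    refine (mul_le_mul_of_nonneg_left (sum_le_sum (g := fun _ => R) fun i _ => by simpa using hy i)
      hR).trans_eq ?_
    simp; ring
  have h5 : |cubeFree f N 0 k (lift y)| ≤ k * R * R := h2.trans h4
  have := abs_sub_abs_le_abs_sub (cubeFree f N M k (lift y)) (cubeFree f N 0 k (lift y))
  linarith

theorem spinG_congr {r r' : ℕ → ℝ} (h : ∀ j ≤ k, r j = r' j) : spinG k r = spinG k r' := by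
  have key : ∀ d ≤ k, spinN k r d = spinN k r' d := by
    intro d
    induction d with
    | zero => intro _; rfl
    | succ d ih =>
      intro hd
      simp only [spinN, ih (by omega), h (k - d) (by omega), h (k - d - 1) (by omega)]
  simp only [spinG, spinF, key (k - 0) (by omega), h k le_rfl]

/-- The one-spin free energy is bounded on bounded variances. -/
theorem abs_spinG_le (hD : DerivStmt) (hP : CubePathStmt) (hPr : CubeProductStmt) {r : ℕ → ℝ}
    {R : ℝ} (hr : IsVar k r) (hR : r k ≤ R) :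
    |spinG k r| ≤ k * (R + 1) * (R + 1) := by
  have hmono : ∀ j, j ≤ k → r j ≤ r k := fun j hj => by
    induction hj using Nat.decreasingInduction with
    | self => exact le_rfl
    | of_succ j hj ih => exact (hr.2 j hj).trans ih
  have hnn : ∀ j, j ≤ k → 0 ≤ r j := by
    intro j
    induction j with
    | zero => intro _; exact hr.1.ge
    | succ j ih => intro hj; exact (ih (by omega)).trans (hr.2 j hj)
  set y : Fin k → ℝ := fun i => √(r ((i : ℕ) + 1) - r i) with hy
  have hcum : ∀ j ≤ k, cum (lift y) j = r j := by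
    intro j hj
    rw [cum, sum_Icc_one, ← sub_zero (r j), ← hr.1, ← sum_range_sub r j]
    refine sum_congr rfl fun i hi => ?_
    have hik : i < k := by have := mem_range.1 hi; omega
    have := lift_succ y ⟨i, hik⟩
    simp only at this
    rw [this, hy]
    exact sq_sqrt (sub_nonneg.2 (hr.2 i hik))
  have hR0 : 0 ≤ R := (hnn k le_rfl).trans hR
  rw [← spinG_congr hcum, ← hPr.1 (fun _ => 0) 0 k (lift y)]
  have hyb : ∀ i, |y i| ≤ R + 1 := fun i => by
    rw [hy, abs_of_nonneg (sqrt_nonneg _), Real.sqrt_le_left (by linarith)]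
    have := hnn i i.2.le
    have := hmono _ i.2
    nlinarith
  have h := Gen.fr_lip (S := cubeLeaf 0) (f := fun _ => (0 : ℝ)) (L := 0) hD
    (N := ((0 : ℕ) : ℝ) + 1) (by norm_num)
    (fun M σ => hP _ 0 measurable_const (fun _ => by simp) 0 M k σ) measurable_const
    (fun _ => by simp) (M := 0) (R := R + 1) (y := fun _ => 0) (y' := y)
    (fun _ => by rw [abs_zero]; linarith) hyb
  rw [lift_zero, Gen.fr_zero (cube_unitLeaf 0), sub_zero] at h
  refine le_trans h ?_
  refine (mul_le_mul_of_nonneg_left (sum_le_sum (g := fun _ => R + 1) fun i _ => by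
    simpa using hyb i) (by linarith)).trans_eq ?_
  simp; ring

/-- The gain without auxiliary field is an increment of the free energy. -/
theorem cubeGain_zero (f : ℝ → ℝ) (N M k : ℕ) (σ : ℕ → ℝ) (j : ℕ) :
    cubeGain f N M k σ j 0
      = ((N : ℝ) + 2) * cubeFree f (N + 1) M k σ - ((N : ℝ) + 1) * cubeFree f N M k σ := by
  have h : auxAmp j 0 = fun _ => 0 := funext fun l => by simp [auxAmp]
  have h2 : ((N + 1 : ℕ) : ℝ) + 1 = (N : ℝ) + 2 := by push_cast; ring
  simp only [cubeGain, cubeFree, h, h2, zero_div, sub_zero]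

theorem bump_zero (ρ : ℕ → ℝ) (j : ℕ) : bump ρ j 0 = ρ := funext fun l => by simp [bump]

/-- The pressure on the cube is a free energy without fields. -/
theorem pressureCube_free (f : ℝ → ℝ) (α : ℝ) (N k : ℕ) :
    pressureCube f α (N + 1) = cubeFree f N ⌊α * ((N : ℝ) + 1)⌋₊ k (fun _ => 0) := by
  rw [← show ⌊α * ((N + 1 : ℕ) : ℝ)⌋₊ = ⌊α * ((N : ℝ) + 1)⌋₊ by push_cast; rfl, pressureCube]
  generalize ⌊α * ((N + 1 : ℕ) : ℝ)⌋₊ = M
  push_cast
  unfold cubeFree free Rsb.val
  refine congrArg (· / ((N : ℝ) + 1)) (integral_congr_ae (ae_of_all _ fun g => ?_))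
  have e : ham (k := k) (cubeLeaf N) f ((N : ℝ) + 1) (fun _ => 0) (fun _ => 0) g
      = fun _ x => ∑ a, f (sdot (g a) ((cubeLeaf N).pat x)) := by
    funext z x; simp [ham, cubeLeaf]
  simp only [e]
  rw [nest_indep _ _ _ _ (by omega)]
  simp only [cubeLeaf, sdot, cubeField, Nat.cast_add, Nat.cast_one]
  refine congrArg log (Eq.trans ?_ (integral_cubeLaw _ _).symm)
  refine congrArg (· / (2 : ℝ) ^ (N + 1)) (sum_congr rfl fun x _ => ?_)
  refine congrArg exp (sum_congr rfl fun a _ => congrArg f ?_)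
  rw [sum_div]
  exact sum_congr rfl fun i _ => by ring

end Vale.Agent.P157.Cube2.Low
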