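import Vale.Agent.P157.Cube2.Product
import Vale.Agent.P157.Rsb.CavStart

/-!
# P157, cube cavity: the two ends of the interpolation

The new coordinate is a fair sign. At angle zero it is a spin in nested fields; at angle `π / 2` the
system is the cube of one more dimension.
-/

open MeasureTheory ProbabilityTheory Real Finset
open Vale.Agent.P157.Rsb

namespace Vale.Agent.P157.Cube2

theorem measurable_sgn : Measurable sgn := measurable_of_countable _

/-- The base of the cube interpolation: the old cube and a sign. -/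
noncomputable def cubeBase (N : ℕ) : CavBase N where
  X0 := Fin (N + 1) → Bool
  law := cubeLaw (N + 1)
  probLaw := cubeLaw_isProb (N + 1)
  vec := cubeField (N + 1)
  vec_meas := measurable_cubeField _
  vec_unit x := by
    rw [sdot, ← cubeField_unit (Nat.le_add_left 1 N) x]
    exact sum_congr rfl fun i _ => by ring
  nu := coin.map sgn
  probNu := Measure.isProbabilityMeasure_map measurable_sgn.aemeasurable
  shift := 0

/-- The additional variances of the new spin. -/
noncomputable def auxVar (j : ℕ) (s : ℝ) (l : ℕ) : ℝ := if l = j then s else 0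

theorem auxVar_nonneg {s : ℝ} (hs : 0 ≤ s) (j l : ℕ) : 0 ≤ auxVar j s l := by
  unfold auxVar; split_ifs <;> [exact hs; exact le_rfl]

theorem clip_sgn (b : Bool) : clipW 1 (sgn b) = sgn b := clipW_of_mem (by cases b <;> simp [sgn])

theorem sgn_sq (b : Bool) : sgn b ^ 2 = 1 := by cases b <;> simp [sgn]

variable {N k M : ℕ}

/-- The old system of the base is the cube. -/
theorem ham_old (f : ℝ → ℝ) (σ : ℕ → ℝ) (g : Fin M → Fin (N + 1) → ℝ) :
    ham (k := k) (cubeBase N).old f (dimN N) σ (fun _ => 0) g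
      = ham (cubeLeaf N) f ((N : ℝ) + 1) σ (fun _ => 0) g := by
  funext z x
  simp only [ham, zero_mul]
  rfl

theorem cubeFree_old (f : ℝ → ℝ) (σ : ℕ → ℝ) :
    free (cubeBase N).old f M k (dimN N) σ (fun _ => 0) = cubeFree f N M k σ := by
  simp only [free, cubeFree, ham_old]
  rfl

theorem cubeErr_old (f : ℝ → ℝ) (σ q : ℕ → ℝ) (j : ℕ) :
    gibPair (k := k) (cubeBase N).old f M (dimN N) σ (fun _ => 0) j
        (fun _ x y => |sdot (cubeField (N + 1) x) (cubeField (N + 1) y) - q j|)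
      = cubeErr f N M k σ q j := by
  simp only [gibPair, gib, cubeErr, ham_old]
  rfl

variable {C : CavCtx N k}

/-- The cube of one more dimension as old cube and sign. -/
noncomputable def endMap (N : ℕ) (x : Fin (N + 1 + 1) → Bool) : (Fin (N + 1) → Bool) × ℝ :=
  (fun i => x i.castSucc, sgn (x (Fin.last (N + 1))))

theorem mp_endMap (N : ℕ) : MeasurePreserving (endMap N) (cubeLaw (N + 1 + 1))
    ((cubeBase N).law.prod (cubeBase N).nu) := by
  have h1 := measurePreserving_piFinSuccAbove (fun _ : Fin (N + 1 + 1) => coin) (Fin.last (N + 1))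
  have h2 := (Measure.measurePreserving_swap (μ := coin) (ν := cubeLaw (N + 1))).comp h1
  have h3 := ((MeasurePreserving.id (cubeLaw (N + 1))).prod
    (show MeasurePreserving sgn coin (coin.map sgn) from ⟨measurable_sgn, rfl⟩)).comp h2
  have e : endMap N = Prod.map id sgn ∘ Prod.swap
      ∘ MeasurableEquiv.piFinSuccAbove (fun _ : Fin (N + 1 + 1) => Bool) (Fin.last (N + 1)) := by
    funext x
    simp only [endMap, Function.comp_apply, MeasurableEquiv.piFinSuccAbove_apply, Prod.map, Prod.swap,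
      Fin.insertNthEquiv_symm_apply, id]
    exact Prod.ext (funext fun i => by simp [Fin.removeNth]) rfl
  rw [e]
  exact h3

theorem endCoef (N : ℕ) (b : Bool) :
    cA (dimN N) (π / 2) (sgn b) / √((N + 1 : ℕ) : ℝ) = 1 / √((N + 1 + 1 : ℕ) : ℝ) ∧
    cC (dimN N) (π / 2) (sgn b) / √((N + 1 : ℕ) : ℝ) = 1 / √((N + 1 + 1 : ℕ) : ℝ) ∧
    sin (π / 2) * cS (dimN N) (sgn b) = sgn b / √((N + 1 + 1 : ℕ) : ℝ) := by
  have hn : 0 < dimN N := by linarith [one_le_dimN N]
  have e1 : ((N + 1 : ℕ) : ℝ) = dimN N := by unfold dimN; push_cast; ring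
  have e2 : ((N + 1 + 1 : ℕ) : ℝ) = dimN N + 1 := by unfold dimN; push_cast; ring
  have hr : √(dimN N / (dimN N + 1)) / √(dimN N) = 1 / √(dimN N + 1) := by
    rw [sqrt_div' _ (by positivity)]
    field_simp
  rw [e1, e2]
  refine ⟨?_, ?_, ?_⟩
  · rw [cA, sin_pi_div_two, one_pow, one_mul, one_sub_cS_sq hn, sgn_sq, hr]
  · rw [cC, sin_pi_div_two, cos_pi_div_two, one_pow, one_mul, sgn_sq]
    simp only [ne_eq, OfNat.ofNat_ne_zero, not_false_eq_true, zero_pow, zero_mul, zero_add]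
    exact hr
  · rw [cS, sin_pi_div_two, one_mul, sgn_sq]

/-- The parameters of the interpolation. -/
structure EndCtx (C : CavCtx N k) (j : ℕ) (s : ℝ) : Prop where
  base : C.K = cubeBase N
  one : C.W = 1
  aux : C.e = auxVar j s

theorem beta_end {j : ℕ} {s : ℝ} (ρ : ℕ → ℝ) :
    cavBeta ρ (auxVar j s) (π / 2) = auxAmp j s := by
  funext l
  by_cases hl : l = j
  · by_cases hs : s = 0 <;> simp [cavBeta, auxVar, auxAmp, hl, hs]
  · simp [cavBeta, auxVar, auxAmp, hl]

theorem ham_end (f : ℝ → ℝ) (σ : ℕ → ℝ) (b : ℝ) (β : ℕ → ℝ) (g : Fin M → Fin (N + 1 + 1) → ℝ)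
    (z : Fin k → FieldIdx (N + 1 + 1) → ℝ) (x : Fin (N + 1 + 1) → Bool) :
    ham (cavLeaf (cubeBase N) (le_refl (1 : ℝ)) b (π / 2)) f (bigN N) σ β g z (endMap N x)
      = ham (cubeLeaf (N + 1)) f (bigN N) σ β g z x := by
  set sg := x (Fin.last (N + 1))
  have hw : cw (K := cubeBase N) 1 (endMap N x) = sgn sg := clip_sgn sg
  obtain ⟨hA, hC, hS⟩ := endCoef N sg
  have hj : ∀ a : ℝ, a / √((N + 1 : ℕ) : ℝ) = 1 / √((N + 1 + 1 : ℕ) : ℝ) →
      joinC (K := cubeBase N) (endMap N x) a (sgn sg / √((N + 1 + 1 : ℕ) : ℝ))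
        = cubeField (N + 1 + 1) x := fun a ha => by
    funext i
    induction i using Fin.lastCases with
    | last => simp only [joinC, Fin.snoc_last, cubeField, sgn, sg]
    | cast i =>
      simp only [joinC, Fin.snoc_castSucc, cx, cubeBase, endMap, cubeField]
      rw [mul_div_assoc', mul_comm, mul_div_assoc, ha, mul_one_div]
  have eP : cavPat (K := cubeBase N) 1 (π / 2) (endMap N x) = cubeField (N + 1 + 1) x := by
    show joinC _ _ _ = _
    rw [hw, hS]; exact hj _ hA
  have eF : cavFld (K := cubeBase N) 1 (π / 2) (endMap N x) = cubeField (N + 1 + 1) x := by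
    show joinC _ _ _ = _
    rw [hw, hS]; exact hj _ hC
  have eD : cavDet (K := cubeBase N) 1 b (π / 2) (endMap N x) = 0 := by
    simp [cavDet, cubeBase]
  show (∑ a, f (sdot (g a) (cavPat (K := cubeBase N) 1 (π / 2) (endMap N x))))
      + ∑ l : Fin k, (σ (l + 1) * √(bigN N)
          * sdot (fun i => z l (.inl i)) (cavFld (K := cubeBase N) 1 (π / 2) (endMap N x))
        + β (l + 1) * z l (.inr ()) * cw (K := cubeBase N) 1 (endMap N x))
      - bigN N / 2 * (∑ l : Fin k, σ (l + 1) ^ 2)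
          * sdot (cavFld (K := cubeBase N) 1 (π / 2) (endMap N x))
              (cavFld (K := cubeBase N) 1 (π / 2) (endMap N x))
      + cavDet (K := cubeBase N) 1 b (π / 2) (endMap N x) = _
  rw [eP, eF, eD, hw]
  rfl

theorem val_end {f : ℝ → ℝ} {L : ℝ} (hm : Measurable f) (hL : ∀ u, |f u| ≤ L) (σ : ℕ → ℝ) (b : ℝ)
    (β : ℕ → ℝ) (g : Fin M → Fin (N + 1 + 1) → ℝ) :
    val (stdG (FieldIdx (N + 1 + 1))) (cavLeaf (cubeBase N) (le_refl (1 : ℝ)) b (π / 2)).μ
        (ham (k := k) (cavLeaf (cubeBase N) (le_refl (1 : ℝ)) b (π / 2)) f (bigN N) σ β g) 0 (fun _ _ => 0)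
      = val (stdG (FieldIdx (N + 1 + 1))) (cubeLeaf (N + 1)).μ
          (ham (k := k) (cubeLeaf (N + 1)) f (bigN N) σ β g) 0 (fun _ _ => 0) := by
  have h := (val_map (μ := (cavLeaf (cubeBase N) (le_refl (1 : ℝ)) b (π / 2)).μ)
    (μ' := (cubeLeaf (N + 1)).μ) (MeasurePreserving.id (stdG (FieldIdx (N + 1 + 1))))
    (mp_endMap N) (linB_ham (k := k) (cavLeaf (cubeBase N) (le_refl (1 : ℝ)) b (π / 2)) hm hL (bigN N) σ β g)
    0 fun _ _ => 0).1
  refine (h.symm).trans ?_
  congr 1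
  funext z x
  exact ham_end f σ b β g z x

theorem free_end {j : ℕ} {s : ℝ} (hC : EndCtx C j s) (M : ℕ) :
    bigN N * free (C.S (π / 2)) C.f M k (bigN N) C.σ (C.β (π / 2))
      = ((N : ℝ) + 2) * free (cubeLeaf (N + 1)) C.f M k ((N : ℝ) + 2) C.σ (auxAmp j s) := by
  obtain ⟨K, W, hW, f, L, Bf, good, bf, bf', σ, ρ, e, q, b, p1, p2, p3, p4⟩ := C
  obtain ⟨h1, h2, h3⟩ := hC
  simp only at h1 h2 h3
  subst h1; subst h2; subst h3
  have hN : bigN N = (N : ℝ) + 2 := by unfold bigN dimN; ring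
  have hβ : cavBeta ρ (auxVar j s) (π / 2) = auxAmp j s := beta_end ρ
  rw [← hN]
  simp only [CavCtx.β, CavCtx.S, hβ, free]
  congr 2
  exact integral_congr_ae (ae_of_all _ fun g =>
    val_end good.1.continuous.measurable bf σ b (auxAmp j s) g)

theorem oneVal_eq {j : ℕ} {s : ℝ} (hC : EndCtx C j s) (hj : 1 ≤ j) (hjk : j ≤ k) :
    C.oneVal = spinG k (bump C.ρ j s) + (C.ρ k + s) / 2 - (C.b - 1) / 2 := by
  obtain ⟨K, W, hW, f, L, Bf, good, bf, bf', σ, ρ, e, q, b, p1, p2, p3, p4⟩ := C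
  obtain ⟨h1, h2, h3⟩ := hC
  simp only at h1 h2 h3
  subst h1; subst h2; subst h3
  set C : CavCtx N k :=
    ⟨cubeBase N, 1, hW, f, L, Bf, good, bf, bf', σ, ρ, auxVar j s, q, b, p1, p2, p3, p4⟩
  show C.oneVal = _
  set ψ : ℕ → (Unit → ℝ) → Fin 1 → ℝ := fun l y _ => cavBeta ρ (auxVar j s) 0 l * y ()
  have hL : SpinLaw k ψ (cavBeta ρ (auxVar j s) 0) (bump ρ j s) := by
    intro l hl hlk
    refine ⟨?_, fun F hF => ?_⟩
    · rw [(cavBeta_facts (p2 l hl hlk) (p3 l) 0).1, cos_zero, one_pow, one_mul, incr]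
      simp only [bump, auxVar]
      rcases lt_trichotomy l j with h | h | h
      · rw [if_neg (by omega), if_neg (by omega), if_neg (by omega)]; ring
      · rw [if_pos (by omega), if_neg (by omega), if_pos h]; ring
      · rw [if_pos (by omega), if_pos (by omega), if_neg (by omega)]; ring
    · have hp := mp_reindex (finOneEquiv : Fin 1 ≃ Unit)
      have hm : Measurable fun w : Fin 1 → ℝ => F fun i => cavBeta ρ (auxVar j s) 0 l * w i :=
        hF.comp (by fun_prop)
      rw [← hp.map_eq, integral_map hp.measurable.aemeasurable hm.aestronglyMeasurable]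
  have hF : MeasurePreserving (fun y : Unit → ℝ => y ()) (stdG Unit) (gaussianReal 0 1) :=
    measurePreserving_eval (fun _ : Unit => gaussianReal 0 1) ()
  have hG : MeasurePreserving (fun x : Fin 1 → Bool => sgn (x 0)) (cubeLaw 1) (cubeBase N).nu :=
    (show MeasurePreserving sgn coin (coin.map sgn) from ⟨measurable_sgn, rfl⟩).comp
      (measurePreserving_eval (fun _ : Fin 1 => coin) 0)
  have e : (fun (z : Fin k → Unit → ℝ) (x : Fin 1 → Bool) => C.oneH (fun i => z i ()) (sgn (x 0)))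
      = spinsH ψ (-((b - 1) / 2)) := by
    funext z x
    show ∑ l : Fin k, C.β 0 (l + 1) * z l () * clipW 1 (sgn (x 0))
      - (b - 1) * clipW 1 (sgn (x 0)) ^ 2 / 2 + 0 = _
    rw [clip_sgn, sgn_sq, spinsH, Fin.sum_univ_one, mul_sum]
    rw [sum_congr rfl fun (l : Fin k) _ => show C.β 0 (l + 1) * z l () * sgn (x 0)
      = sgn (x 0) * ψ (l + 1) (z l) 0 by simp only [ψ, CavCtx.β, C]; ring]
    ring
  have h := (val_map (μ' := cubeLaw 1) hF hG C.linB_oneH 0 (fun _ _ => 0)).1
  rw [CavCtx.oneVal]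
  refine h.symm.trans ?_
  rw [e, (spins_val hL (Nat.zero_le k) _).1]
  simp only [accV_zero, Fin.sum_univ_one, spinG_shift]
  simp only [bump, if_pos hjk]
  ring

theorem err_start {j : ℕ} {s : ℝ} (hC : EndCtx C j s) (M l : ℕ) (c : ℝ) :
    gibPair (k := k) (C.S 0) C.f M (bigN N) C.σ (C.β 0) l (fun _ p p' => |oldOv p p' - c|)
      = gibPair (k := k) (cubeLeaf N) C.f M ((N : ℝ) + 1) C.σ (fun _ => 0) l
          (fun _ x y => |sdot ((cubeLeaf N).fld x) ((cubeLeaf N).fld y) - c|) := by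
  obtain ⟨K, W, hW, f, L, Bf, good, bf, bf', σ, ρ, e, q, b, p1, p2, p3, p4⟩ := C
  obtain ⟨h1, h2, h3⟩ := hC
  simp only at h1 h2 h3
  subst h1; subst h2; subst h3
  set C : CavCtx N k :=
    ⟨cubeBase N, 1, hW, f, L, Bf, good, bf, bf', σ, ρ, auxVar j s, q, b, p1, p2, p3, p4⟩
  set ψ : (Fin (N + 1) → Bool) → (Fin (N + 1) → Bool) → ℝ :=
    fun x y => |sdot (cubeField (N + 1) x) (cubeField (N + 1) y) - c|
  have mψ : Measurable (Function.uncurry ψ) := measurable_of_countable _
  have h := C.gibPair_start (ψ := ψ) M l mψ (B := 1 + |c|) fun x y => by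
    show |(|sdot (cubeField (N + 1) x) (cubeField (N + 1) y) - c|)| ≤ 1 + |c|
    rw [abs_abs]
    exact (abs_sub _ _).trans (add_le_add (abs_oldOv_le (K := cubeBase N) (x, 0) (y, 0)) le_rfl)
  refine h.trans ?_
  simp only [gibPair, gib, ψ, C, ham_old]
  rfl

end Vale.Agent.P157.Cube2
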