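import Vale.Agent.P157.Rsb.CalcGauss
import Vale.Agent.P157.Rsb.Upd
import Vale.Agent.P157.Rsb.Reg

/-!
# P157: semiconvexity and regularity for any leaf of unit vectors

The statements of `Rsb/Reg.lean` for a leaf whose pattern and field maps agree and take values on
the unit sphere, with no deterministic part.  Both configuration spaces are instances.
-/

open MeasureTheory ProbabilityTheory Real Finset

namespace Vale.Agent.P157.Rsb.Gen

/-- Pattern map and field map agree and are unit vectors; no deterministic part. -/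
structure UnitLeaf {n : ℕ} (S : Leaf n) : Prop where
  same : S.pat = S.fld
  unit : ∀ x, sdot (S.fld x) (S.fld x) = 1
  det : ∀ x, S.det x = 0

variable {n k M : ℕ} {S : Leaf n} {N : ℝ} {f : ℝ → ℝ} {L : ℝ}

/-- The free energy with no auxiliary field. -/
noncomputable def fr (S : Leaf n) (f : ℝ → ℝ) (M k : ℕ) (N : ℝ) (σ : ℕ → ℝ) : ℝ :=
  free S f M k N σ fun _ => 0

/-- The overlap path with no auxiliary field. -/
noncomputable def qf (S : Leaf n) (f : ℝ → ℝ) (M k : ℕ) (N : ℝ) (σ : ℕ → ℝ) : ℕ → ℝ :=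
  qOf S f M k N σ fun _ => 0

/-- The mean distance of the overlaps to their means, summed over the branch levels. -/
noncomputable def tot (S : Leaf n) (f : ℝ → ℝ) (M k : ℕ) (N : ℝ) (σ : ℕ → ℝ) : ℝ :=
  mass k * ∑ j ∈ Finset.Icc 0 k, gibPair (k := k) S f M N σ (fun _ => 0) j
    fun _ x y => |sdot (S.fld x) (S.fld y) - qf S f M k N σ j|

/-- The Hamiltonian with no auxiliary field. -/
noncomputable def gHam (S : Leaf n) (f : ℝ → ℝ) (N : ℝ) {M k : ℕ} (σ : ℕ → ℝ)
    (g : Fin M → Fin n → ℝ) : (Fin k → FieldIdx n → ℝ) → S.X → ℝ :=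
  ham S f N σ (fun _ => 0) g

theorem abs_fld_le (hS : UnitLeaf S) (x : S.X) (i : Fin n) : |S.fld x i| ≤ 1 := by
  rw [← sq_le_one_iff_abs_le_one, pow_two, ← hS.unit x]
  exact single_le_sum (f := fun l => S.fld x l * S.fld x l) (fun l _ => mul_self_nonneg _) (mem_univ i)

theorem abs_sdot_fld_le (hS : UnitLeaf S) (x x' : S.X) : |sdot (S.fld x) (S.fld x')| ≤ 1 := by
  have h1 := hS.unit x
  have h2 := hS.unit x'
  unfold sdot at h1 h2 ⊢
  refine (abs_sum_le_sum_abs _ _).trans ?_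
  calc ∑ i, |S.fld x i * S.fld x' i|
      ≤ ∑ i, (S.fld x i * S.fld x i + S.fld x' i * S.fld x' i) / 2 := sum_le_sum fun i _ => by
        rw [abs_le]
        constructor <;>
          nlinarith [sq_nonneg (S.fld x i + S.fld x' i), sq_nonneg (S.fld x i - S.fld x' i)]
    _ = (∑ i, S.fld x i * S.fld x i + ∑ i, S.fld x' i * S.fld x' i) / 2 := by
        rw [← sum_div, sum_add_distrib]
    _ = 1 := by
        rw [show ∑ i, S.fld x i * S.fld x i = 1 from h1, show ∑ i, S.fld x' i * S.fld x' i = 1 from h2]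
        norm_num

theorem measurable_gHam (hm : Measurable f) :
    Measurable fun q : (((Fin k → ℝ) × (Fin M → Fin n → ℝ)) × (Fin k → FieldIdx n → ℝ)) × S.X =>
      gHam S f N (lift q.1.1.1) q.1.1.2 q.1.2 q.2 := by
  have := S.fld_meas
  have := S.pat_meas
  have := S.aux_meas
  have := S.det_meas
  simp only [gHam, ham, lift_succ, sdot]
  fun_prop

theorem measurable_gHam_at (hm : Measurable f) (σ : ℕ → ℝ) :
    Measurable fun q : ((Fin M → Fin n → ℝ) × (Fin k → FieldIdx n → ℝ)) × S.X =>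
      gHam S f N σ q.1.1 q.1.2 q.2 := by
  have := S.fld_meas
  have := S.pat_meas
  have := S.aux_meas
  have := S.det_meas
  simp only [gHam, ham, sdot]
  fun_prop

theorem meas_gHam_fixed (hm : Measurable f) (σ : ℕ → ℝ) (g : Fin M → Fin n → ℝ) :
    Measurable (Function.uncurry (gHam (k := k) S f N σ g)) :=
  (measurable_gHam_at hm σ).comp
    (f := fun p : (Fin k → FieldIdx n → ℝ) × S.X => ((g, p.1), p.2)) (by fun_prop)

theorem abs_sdot_fields (hS : UnitLeaf S) (z : FieldIdx n → ℝ) (x : S.X) :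
    |sdot (fun i => z (.inl i)) (S.fld x)| ≤ ∑ i, |z i| := by
  refine (abs_sum_le_sum_abs _ _).trans ?_
  rw [Fintype.sum_sum_type (fun i => |z i|)]
  refine le_add_of_le_of_nonneg (sum_le_sum fun i _ => ?_) (sum_nonneg fun i _ => abs_nonneg _)
  rw [abs_mul]
  exact mul_le_of_le_one_right (abs_nonneg _) (abs_fld_le hS x i)

theorem gHam_eq (hS : UnitLeaf S) (σ : ℕ → ℝ) (g : Fin M → Fin n → ℝ)
    (z : Fin k → FieldIdx n → ℝ) (x : S.X) :
    gHam S f N σ g z x = ∑ a, f (sdot (g a) (S.pat x))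
      + ∑ l : Fin k, σ ((l : ℕ) + 1) * √N * sdot (fun i => z l (.inl i)) (S.fld x)
      - N / 2 * ∑ l : Fin k, σ ((l : ℕ) + 1) ^ 2 := by
  simp [gHam, ham, hS.unit x, hS.det x]

/-- One bound for the Hamiltonians of all pattern matrices. -/
theorem gHam_bound (hS : UnitLeaf S) (hN : 0 ≤ N) (hL : ∀ u, |f u| ≤ L) (σ : ℕ → ℝ) :
    ∃ A, 0 ≤ A ∧ ∀ (g : Fin M → Fin n → ℝ) z x,
      |gHam (k := k) S f N σ g z x| ≤ A * (1 + (gaussSize (FieldIdx n)).tot z) := by
  have hL0 : 0 ≤ L := (abs_nonneg _).trans (hL 0)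
  set r := √N
  set W := ∑ l : Fin k, |σ ((l : ℕ) + 1)|
  set Q := ∑ l : Fin k, σ ((l : ℕ) + 1) ^ 2
  have hW : 0 ≤ W := sum_nonneg fun _ _ => abs_nonneg _
  have hQ : 0 ≤ Q := sum_nonneg fun _ _ => sq_nonneg _
  refine ⟨M * L + W * r + N / 2 * Q, by positivity, fun g z x => ?_⟩
  have ht : ∀ l : Fin k, ∑ i, |z l i| ≤ (gaussSize (FieldIdx n)).tot z := fun l =>
    single_le_sum (f := fun l => ∑ i, |z l i|) (fun _ _ => sum_nonneg fun _ _ => abs_nonneg _)
      (mem_univ l)
  have h0 := (gaussSize (FieldIdx n)).tot_nonneg z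
  have h1 : |∑ a, f (sdot (g a) (S.pat x))| ≤ M * L := by
    refine ((abs_sum_le_sum_abs _ _).trans (sum_le_sum fun a _ => hL _)).trans_eq ?_
    simp
  have h2 : |∑ l : Fin k, σ ((l : ℕ) + 1) * r * sdot (fun i => z l (.inl i)) (S.fld x)|
      ≤ W * r * (gaussSize (FieldIdx n)).tot z := by
    simp only [W, sum_mul]
    refine (abs_sum_le_sum_abs _ _).trans (sum_le_sum fun l _ => ?_)
    rw [abs_mul, abs_mul, abs_of_nonneg (sqrt_nonneg _)]
    exact mul_le_mul_of_nonneg_left ((abs_sdot_fields hS (z l) x).trans (ht l))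
      (mul_nonneg (abs_nonneg _) (sqrt_nonneg _))
  rw [gHam_eq hS, abs_le]
  have hWr : 0 ≤ W * r := mul_nonneg hW (sqrt_nonneg _)
  have hNQ : 0 ≤ N / 2 * Q := by positivity
  have h3 : 0 ≤ (M * L + N / 2 * Q) * (gaussSize (FieldIdx n)).tot z :=
    mul_nonneg (by positivity) h0
  constructor <;> linarith [(abs_le.1 h1).1, (abs_le.1 h1).2, (abs_le.1 h2).1, (abs_le.1 h2).2]

theorem linB_gHam (hS : UnitLeaf S) (hN : 0 ≤ N) (hm : Measurable f) (hL : ∀ u, |f u| ≤ L)
    (σ : ℕ → ℝ) (g : Fin M → Fin n → ℝ) :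
    LinB (gaussSize (FieldIdx n)) (gHam (k := k) S f N σ g) := by
  obtain ⟨A, hA, h⟩ := gHam_bound (M := M) (k := k) hS hN hL σ
  exact ⟨meas_gHam_fixed hm σ g, A, hA, h g⟩

/-- The derivative of the Hamiltonian in the amplitude of the level `i + 1`. -/
noncomputable def dir (S : Leaf n) (N : ℝ) (i : Fin k) (z : Fin k → FieldIdx n → ℝ) (x : S.X) : ℝ :=
  √N * sdot (fun l => z i (.inl l)) (S.fld x)

theorem tame_dir (hS : UnitLeaf S) (i : Fin k) : Tame (gaussSize (FieldIdx n)) (dir S N i) := by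
  have := S.fld_meas
  refine ⟨?_, max (√N) 1, by positivity, fun z x => ?_⟩
  · unfold dir sdot Function.uncurry
    fun_prop
  rw [dir, abs_mul, abs_of_nonneg (sqrt_nonneg _)]
  have h0 := (gaussSize (FieldIdx n)).tot_nonneg z
  refine mul_le_mul (le_max_left _ _) ?_ (abs_nonneg _) (by positivity)
  refine ((abs_sdot_fields hS (z i) x).trans (single_le_sum (f := fun l => ∑ a, |z l a|)
    (fun _ _ => sum_nonneg fun _ _ => abs_nonneg _) (mem_univ i))).trans ?_
  calc (gaussSize (FieldIdx n)).tot z ≤ exp ((gaussSize (FieldIdx n)).tot z) := by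
        linarith [add_one_le_exp ((gaussSize (FieldIdx n)).tot z)]
    _ ≤ _ := exp_le_exp.2 (le_mul_of_one_le_left h0 (le_max_right _ _))

theorem gHam_update (hS : UnitLeaf S) (σ : ℕ → ℝ) (i : Fin k) (t : ℝ) (g : Fin M → Fin n → ℝ)
    (z : Fin k → FieldIdx n → ℝ) (x : S.X) :
    gHam S f N (Function.update σ ((i : ℕ) + 1) t) g z x = gHam S f N σ g z x
      + ((t - σ ((i : ℕ) + 1)) * dir S N i z x - N / 2 * (t ^ 2 - σ ((i : ℕ) + 1) ^ 2)) := by
  have e1 : ∀ F : ℝ → Fin k → ℝ,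
      ∑ l : Fin k, F (Function.update σ ((i : ℕ) + 1) t ((l : ℕ) + 1)) l
        = ∑ l : Fin k, F (σ ((l : ℕ) + 1)) l + (F t i - F (σ ((i : ℕ) + 1)) i) := by
    intro F
    rw [← add_sum_erase _ _ (mem_univ i),
      ← add_sum_erase _ (fun l : Fin k => F (σ ((l : ℕ) + 1)) l) (mem_univ i),
      Function.update_self, sum_congr rfl fun l hl => by
        rw [Function.update_of_ne fun h => ne_of_mem_erase hl (Fin.ext (by omega))]]
    ring
  have hl := e1 fun a l => a * √N * sdot (fun b => z l (.inl b)) (S.fld x)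
  have hq := e1 fun a _ => a ^ 2
  rw [gHam_eq hS, gHam_eq hS, dir, hl, hq]
  ring

theorem integrable_val_gHam (hS : UnitLeaf S) (hN : 0 ≤ N) (hm : Measurable f)
    (hL : ∀ u, |f u| ≤ L) (σ : ℕ → ℝ) (z : Fin k → FieldIdx n → ℝ) :
    Integrable (fun g => val (stdG (FieldIdx n)) S.μ (gHam S f N σ g) 0 z) (patterns M n) := by
  obtain ⟨A, hA, hb⟩ := gHam_bound (M := M) (k := k) hS hN hL σ
  obtain ⟨A', -, hA'⟩ := val_bound_unif (k := k) (μ := S.μ) (gaussSize (FieldIdx n)) hA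
  exact Integrable.of_bound
    (val_measurable_param_at (measurable_gHam_at hm σ) 0 z).aestronglyMeasurable
    (A' * (1 + (gaussSize (FieldIdx n)).tot z)) (ae_of_all _ fun g =>
      (Real.norm_eq_abs _).trans_le (hA' _ (meas_gHam_fixed hm _ g) (hb g) 0 z))

theorem integrable_cnd_gHam (hS : UnitLeaf S) (hN : 0 ≤ N) (hm : Measurable f)
    (hL : ∀ u, |f u| ≤ L) (σ : ℕ → ℝ) {φ : (Fin k → FieldIdx n → ℝ) → S.X → ℝ}
    (hφ : Tame (gaussSize (FieldIdx n)) φ) (z : Fin k → FieldIdx n → ℝ) :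
    Integrable (fun g => cnd (stdG (FieldIdx n)) S.μ (gHam S f N σ g) φ 0 z) (patterns M n) := by
  obtain ⟨A, hA, hb⟩ := gHam_bound (M := M) (k := k) hS hN hL σ
  obtain ⟨D, hD0, hd'⟩ := hφ.bound
  obtain ⟨A', -, hA'⟩ := cnd_bound_unif (k := k) (μ := S.μ) (gaussSize (FieldIdx n))
    (show 0 ≤ A + D by positivity)
  exact Integrable.of_bound (cnd_measurable_param_at (φ := fun _ => φ) (measurable_gHam_at hm σ)
    (hφ.meas.comp (f := fun p : ((Fin M → Fin n → ℝ) × (Fin k → FieldIdx n → ℝ)) × S.X =>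
      (p.1.2, p.2)) (by fun_prop)) 0 z).aestronglyMeasurable
    (A' * exp (A' * (gaussSize (FieldIdx n)).tot z)) (ae_of_all _ fun g =>
      (Real.norm_eq_abs _).trans_le (hA' _ _ (meas_gHam_fixed hm _ g) hφ.meas
        (fun z x => (hb g z x).trans (mul_le_mul_of_nonneg_right (by linarith)
          (by linarith [(gaussSize (FieldIdx n)).tot_nonneg z])))
        (fun z x => Tame.mono_bound hD0 (by linarith) hd' z x) 0 z))

/-- The value has a supporting line in one amplitude. -/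
theorem val_support (hS : UnitLeaf S) (hN : 0 ≤ N) (hm : Measurable f) (hL : ∀ u, |f u| ≤ L)
    (σ : ℕ → ℝ) (i : Fin k) (t : ℝ) (g : Fin M → Fin n → ℝ) (z : Fin k → FieldIdx n → ℝ) :
    val (stdG (FieldIdx n)) S.μ (gHam S f N σ g) 0 z
        + (t - σ ((i : ℕ) + 1)) * cnd (stdG (FieldIdx n)) S.μ (gHam S f N σ g) (dir S N i) 0 z
        - N / 2 * (t ^ 2 - σ ((i : ℕ) + 1) ^ 2)
      ≤ val (stdG (FieldIdx n)) S.μ (gHam S f N (Function.update σ ((i : ℕ) + 1) t) g) 0 z := by
  have hH := linB_gHam (k := k) hS hN hm hL σ g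
  have h := cnd_exp_le (μ := S.μ) hH
    (linB_gHam (k := k) hS hN hm hL (Function.update σ ((i : ℕ) + 1) t) g) 0 z
  simp only [gHam_update hS σ i t g, add_sub_cancel_left] at h
  rw [cnd_sub hH ((tame_dir hS i).const_mul _) (Tame.of_bdd measurable_const fun _ _ => le_rfl),
    cnd_const_mul, cnd_const hH] at h
  linarith

/-- The free energy has a supporting line in one amplitude. -/
theorem free_support (hS : UnitLeaf S) (hN : 0 < N) (hm : Measurable f) (hL : ∀ u, |f u| ≤ L)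
    (M : ℕ) (σ : ℕ → ℝ) (i : Fin k) :
    ∃ c, ∀ t, fr S f M k N σ + (t - σ ((i : ℕ) + 1)) * c - (t ^ 2 - σ ((i : ℕ) + 1) ^ 2) / 2
      ≤ fr S f M k N (Function.update σ ((i : ℕ) + 1) t) := by
  set z₀ : Fin k → FieldIdx n → ℝ := fun _ _ => 0
  refine ⟨(∫ g, cnd (stdG (FieldIdx n)) S.μ (gHam S f N σ g) (dir S N i) 0 z₀
    ∂patterns M n) / N, fun t => ?_⟩
  have hV := fun σ => integrable_val_gHam (M := M) (k := k) hS hN.le hm hL σ z₀
  have hc := integrable_cnd_gHam (M := M) hS hN.le hm hL σ (tame_dir (N := N) hS i) z₀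
  have h := integral_mono (((hV σ).add (hc.const_mul (t - σ ((i : ℕ) + 1)))).sub
    (integrable_const (N / 2 * (t ^ 2 - σ ((i : ℕ) + 1) ^ 2))))
    (hV (Function.update σ ((i : ℕ) + 1) t)) fun g => val_support hS hN.le hm hL σ i t g z₀
  simp only [Pi.sub_apply, Pi.add_apply] at h
  rw [integral_sub, integral_add, integral_const_mul, integral_const, probReal_univ, one_smul] at h
  · have h' := div_le_div_of_nonneg_right h hN.le
    rw [sub_div, add_div, mul_div_assoc,
      show N / 2 * (t ^ 2 - σ ((i : ℕ) + 1) ^ 2) / N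
        = (t ^ 2 - σ ((i : ℕ) + 1) ^ 2) / 2 by field_simp] at h'
    exact h'
  · exact hV σ
  · exact hc.const_mul _
  · exact (hV σ).add (hc.const_mul _)
  · exact integrable_const _

/-- Semiconvexity in one amplitude. -/
theorem tangent (hD : DerivStmt) (hS : UnitLeaf S) (hN : 0 < N) (hm : Measurable f)
    (hL : ∀ u, |f u| ≤ L) (M k j : ℕ) (σ : ℕ → ℝ) (s : ℝ) (hj : 1 ≤ j) (hjk : j ≤ k) :
    fr S f M k N σ + (s - σ j) * (-σ j * tail k (qf S f M k N σ) j) - (s - σ j) ^ 2 / 2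
      ≤ fr S f M k N (Function.update σ j s) := by
  obtain ⟨i, rfl⟩ : ∃ i : Fin k, (i : ℕ) + 1 = j := ⟨⟨j - 1, by omega⟩, by simp; omega⟩
  obtain ⟨c, hc⟩ := free_support hS hN hm hL M σ i
  set a := σ ((i : ℕ) + 1) with ha
  let F := fun t => fr S f M k N (Function.update σ ((i : ℕ) + 1) t)
  have hder : HasDerivAt F (-a * tail k (qf S f M k N σ) ((i : ℕ) + 1)) a :=
    hD f L hm hL n M k ((i : ℕ) + 1) S N σ (fun _ => 0) hN hj hjk
  have he : F a = fr S f M k N σ := by simp only [F, ha, Function.update_eq_self]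
  have hmin : IsLocalMin (fun t => F t + t ^ 2 / 2 - c * t) a :=
    Filter.Eventually.of_forall fun t => by
      simp only [he]; linarith [hc t]
  have hd0 := hmin.hasDerivAt_eq_zero
    ((hder.add ((hasDerivAt_pow 2 a).div_const 2)).sub ((hasDerivAt_id a).const_mul c))
  push_cast at hd0
  have h := hc s
  rw [show c = -a * tail k (qf S f M k N σ) ((i : ℕ) + 1) + a by linarith] at h
  linarith

theorem abs_gibPair_le (hS : UnitLeaf S) (hN : 0 ≤ N) (hm : Measurable f) (hL : ∀ u, |f u| ≤ L)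
    (σ : ℕ → ℝ) (j : ℕ) {B : ℝ} (ψ : S.X → S.X → ℝ) (hψm : Measurable (Function.uncurry ψ))
    (hψ : ∀ x x', |ψ x x'| ≤ B) :
    |gibPair (k := k) S f M N σ (fun _ => 0) j fun _ x x' => ψ x x'| ≤ B := by
  unfold gibPair gib
  rw [← Real.norm_eq_abs]
  refine (norm_integral_le_of_norm_le_const (C := B) (ae_of_all _ fun g => ?_)).trans
    (by rw [probReal_univ, mul_one])
  rw [Real.norm_eq_abs]
  exact abs_root_pair_le (linB_gHam hS hN hm hL σ g) hψm hψ j _

theorem measurable_gibPair (hm : Measurable f) (j : ℕ) {Ψ : (Fin k → ℝ) → S.X → S.X → ℝ}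
    (hΨ : Measurable fun p : (Fin k → ℝ) × S.X × S.X => Ψ p.1 p.2.1 p.2.2) :
    Measurable fun y : Fin k → ℝ => gibPair (k := k) S f M N (lift y) (fun _ => 0) j
      fun _ x x' => Ψ y x x' := by
  have hC := measurable_root_pair (γ := stdG (FieldIdx n)) (μ := S.μ)
    (H := fun q : (Fin k → ℝ) × (Fin M → Fin n → ℝ) => gHam S f N (lift q.1) q.2)
    (Ψ := fun q => Ψ q.1) (measurable_gHam hm)
    (hΨ.comp (f := fun p : ((Fin k → ℝ) × (Fin M → Fin n → ℝ)) × S.X × S.X => (p.1.1, p.2))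
      (by fun_prop)) j (fun _ _ => 0)
  exact (hC.stronglyMeasurable.integral_prod_right' (ν := patterns M n)).measurable

theorem abs_qf_le (hS : UnitLeaf S) (hN : 0 ≤ N) (hm : Measurable f) (hL : ∀ u, |f u| ≤ L)
    (σ : ℕ → ℝ) (j : ℕ) : |qf S f M k N σ j| ≤ 1 := by
  unfold qf qOf
  split_ifs
  · simp
  · have := S.fld_meas
    exact abs_gibPair_le hS hN hm hL σ j (fun x y => sdot (S.fld x) (S.fld y))
      (by unfold Function.uncurry sdot; fun_prop) (abs_sdot_fld_le hS)

/-- Regularity of the overlap error. -/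
theorem reg (hS : UnitLeaf S) (hN : 0 ≤ N) (hm : Measurable f) (hL : ∀ u, |f u| ≤ L) (M k : ℕ) :
    Measurable (fun y : Fin k → ℝ => tot S f M k N (lift y)) ∧ ∀ σ, |tot S f M k N σ| ≤ 2 := by
  have hs : Measurable fun p : S.X × S.X => sdot (S.fld p.1) (S.fld p.2) := by
    have := S.fld_meas
    simp only [sdot]; fun_prop
  refine ⟨Measurable.const_mul (Finset.measurable_sum _ fun j _ => ?_) _, fun σ => ?_⟩
  · have hc : Measurable fun y : Fin k → ℝ => qf S f M k N (lift y) j := by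
      unfold qf qOf
      split_ifs
      · exact measurable_const
      · exact measurable_gibPair hm j (Ψ := fun _ x x' => sdot (S.fld x) (S.fld x'))
          (hs.comp measurable_snd)
    exact measurable_gibPair hm j
      (Ψ := fun y x x' => |sdot (S.fld x) (S.fld x') - qf S f M k N (lift y) j|)
      ((hs.comp measurable_snd).sub (hc.comp measurable_fst)).abs
  · have hov : ∀ j, |gibPair (k := k) S f M N σ (fun _ => 0) j
        (fun _ x y => |sdot (S.fld x) (S.fld y) - qf S f M k N σ j|)| ≤ 2 := fun j =>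
      abs_gibPair_le hS hN hm hL σ j _ (hs.sub measurable_const).abs fun x x' => by
        rw [abs_abs]
        exact (abs_sub _ _).trans (by
          linarith [abs_sdot_fld_le hS x x', abs_qf_le (k := k) (M := M) hS hN hm hL σ j])
    rw [tot, abs_mul, abs_of_pos mass_pos]
    refine (mul_le_mul_of_nonneg_left ((abs_sum_le_sum_abs _ _).trans
      (sum_le_sum fun j _ => hov j)) mass_pos.le).trans_eq ?_
    rw [sum_const, Nat.card_Icc, nsmul_eq_mul, mass]
    push_cast
    field_simp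

theorem fr_zero (hS : UnitLeaf S) (k : ℕ) (N : ℝ) : fr S f 0 k N (fun _ => 0) = 0 := by
  have h : ∀ g, ham (k := k) (M := 0) S f N (fun _ => 0) (fun _ => 0) g = fun _ _ => (0 : ℝ) := by
    intro g; funext z x; simp [ham, hS.det]
  simp only [fr, free, h, val]
  rw [show (fun g : Fin 0 → Fin n → ℝ => nest (stdG (FieldIdx n)) S.μ (fun _ _ => (0 : ℝ)) (k - 0)
      fun _ _ => 0) = fun _ => 0 from funext fun _ => by rw [nest_indep _ _ _ _ (by omega)]; simp]
  simp

end Vale.Agent.P157.Rsb.Gen
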