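import Vale.Agent.P157.Cube2.Path
import Vale.Agent.P157.Cube2.GenReg

/-!
# P157: semiconvexity and regularity of the perturbed cube systems

`cubeTangent : CubeTangentStmt` and `cubeReg : CubeRegStmt`, as instances of the statements for any
leaf of unit vectors.
-/

open MeasureTheory ProbabilityTheory Real Finset
open Vale.Agent.P157.Rsb

namespace Vale.Agent.P157.Cube2

/-- The cube is a leaf of unit vectors. -/
theorem cube_unitLeaf (N : ℕ) : Gen.UnitLeaf (cubeLeaf N) :=
  ⟨rfl, cube_unit N, fun _ => rfl⟩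

/-- `cubeTangent : CubeTangentStmt`. -/
theorem cubeTangent : CubeTangentStmt := fun _ _ hm hL N M k j σ s hj hjk =>
  Gen.tangent deriv_amp (cube_unitLeaf N) (N := (N : ℝ) + 1) (by positivity) hm hL M k j σ s hj hjk

/-- `cubeReg : CubeRegStmt`. -/
theorem cubeReg : CubeRegStmt := by
  intro f L hm hL N M k
  obtain ⟨h1, h2⟩ := Gen.reg (cube_unitLeaf N) (N := (N : ℝ) + 1) (by positivity) hm hL M k
  refine ⟨h1, fun j => ?_, h2⟩
  unfold cubeQ qOf
  split_ifs
  · exact measurable_const
  · refine Gen.measurable_gibPair (S := cubeLeaf N) hm j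
      (Ψ := fun _ x x' => sdot ((cubeLeaf N).fld x) ((cubeLeaf N).fld x')) ?_
    have := (cubeLeaf N).fld_meas
    simp only [sdot]
    fun_prop

end Vale.Agent.P157.Cube2
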