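import Vale.Agent.P157.Cube2.CavGain
import Vale.Agent.P157.Cube2.Reg

/-!
# P157, cube cavity: from the error bound along the path to `CubeCavityStmt`
-/

open MeasureTheory ProbabilityTheory Real Finset
open Vale.Agent.P157.Rsb

namespace Vale.Agent.P157.Cube2

theorem sqrt_trade {E0 m δ K : ℝ} (hm : 0 < m) (hE0 : 0 ≤ E0) (hK : 0 ≤ K) (hδ : δ = (E0 + m) / 3) :
    (E0 + δ * K) / √δ ≤ (3 + K) * √(E0 + m) := by
  have h0 : 0 < δ := by rw [hδ]; positivity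
  rw [div_le_iff₀ (sqrt_pos.2 h0)]
  calc E0 + δ * K ≤ (3 + K) * (√δ * √δ) := by
        rw [mul_self_sqrt h0.le]
        nlinarith
    _ ≤ (3 + K) * (√(E0 + m) * √δ) :=
        mul_le_mul_of_nonneg_left
          (mul_le_mul_of_nonneg_right (sqrt_le_sqrt (by rw [hδ]; linarith)) (sqrt_nonneg _))
          (by positivity)
    _ = _ := (mul_assoc _ _ _).symm

variable {N M k : ℕ} {f : ℝ → ℝ}

/-- Bounds of the parameters of the interpolation. -/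
theorem cubeCtx_bounds (hΦ : PhiStmt) (hf : Good f) {L Bf : ℝ} (hL : ∀ u, |f u| ≤ L)
    (hB : ∀ u, |deriv f u| ≤ Bf) {σ : ℕ → ℝ} {s : ℝ} (hs : 0 ≤ s) {j : ℕ} (hk : 1 ≤ k) {T B : ℝ}
    (hT : (M : ℝ) / dimN N ≤ T) (hr : cum σ k ≤ B) :
    let C := cubeCtx hΦ hf hL hB N M k σ hs j
    C.ρ k ≤ B + T * Bf ^ 2 ∧ |C.b - 1| ≤ B + T * Bf ^ 2 := by
  intro C
  have ht : 0 ≤ (M : ℝ) / dimN N := by
    have := one_le_dimN N
    positivity
  obtain ⟨-, -, hbd, -⟩ := hΦ.1 f Bf hf hB k C.q C.q C.hq C.hq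
  have hρk : C.ρ k ≤ B + T * Bf ^ 2 := by
    have e : C.ρ k = cum σ k + (M : ℝ) / dimN N * gamK k f C.q k := rhoOf_pos hk
    rw [e]
    exact add_le_add hr (mul_le_mul hT (hbd k le_rfl).2 (hbd k le_rfl).1 (ht.trans hT))
  refine ⟨hρk, le_trans ?_ hρk⟩
  have hl : ∀ l ∈ Icc 1 k, 0 ≤ C.ρ l ∧ C.ρ l ≤ C.ρ k := fun l hl => by
    have hlk := (mem_Icc.1 hl).2
    rw [C.ρ_eq l, C.ρ_eq k]
    exact ⟨sum_nonneg fun i hi => C.hρ i (mem_Icc.1 hi).1 ((mem_Icc.1 hi).2.trans hlk),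
      sum_le_sum_of_subset_of_nonneg (Icc_subset_Icc le_rfl hlk)
        fun i hi _ => C.hρ i (mem_Icc.1 hi).1 (mem_Icc.1 hi).2⟩
  have hS0 : 0 ≤ mass k * ∑ l ∈ Icc 1 k, C.ρ l * C.q l :=
    mul_nonneg mass_pos.le (sum_nonneg fun l h => mul_nonneg (hl l h).1 (C.q_mem (mem_Icc.1 h).2).1)
  have hS1 : mass k * ∑ l ∈ Icc 1 k, C.ρ l * C.q l ≤ C.ρ k :=
    mass_sum_le (fun l h => mem_Icc.2 ⟨Nat.zero_le _, (mem_Icc.1 h).2⟩) C.ρ_nonneg fun l h =>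
      (mul_le_of_le_one_right (hl l h).1 (C.q_mem (mem_Icc.1 h).2).2).trans (hl l h).2
  have eb : C.b - 1 = C.ρ k - mass k * ∑ l ∈ Icc 1 k, C.ρ l * C.q l := by
    show bOf k C.ρ C.q - 1 = _
    simp only [bOf]
    ring
  rw [eb, abs_le]
  constructor <;> linarith [C.ρ_nonneg]

/-- `CubeCavityStmt` from the bound on the errors along the path. -/
theorem cubeCavity_of (hΦ : PhiStmt) (hP : PatternStmt)
    (hErr : ∀ Bf T R P : ℝ, ∃ Ke, 0 ≤ Ke ∧ ∀ (N k M : ℕ) (C : CavCtx N k), C.W = 1 → C.Bf = Bf →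
      (M : ℝ) / dimN N ≤ T → C.r k ≤ R → C.ρ k ≤ P → |C.b - 1| ≤ P → ∀ δ : ℝ, 0 < δ → δ ≤ 1 →
        ∀ u ∈ Set.Icc (0 : ℝ) (π / 2), C.Err M u ≤ (C.Err M 0 + δ * Ke) / √δ) :
    CubeCavityStmt := by
  intro f T B hf
  obtain ⟨L, Bf, hL, hB⟩ := good_bounds hf
  set T' := max T 0 with hT'
  obtain ⟨A, hA, hgain⟩ := gain_bound hΦ hP hf hL hB (T := T') (B := B)
  obtain ⟨Ke, hKe, hE⟩ := hErr Bf T' B (B + T' * Bf ^ 2)
  refine ⟨A * (1 + (3 + Ke)), fun k ε hε => ⟨⌈A / ε⌉₊, fun N hN M hM σ _ hr j s hj hjk hs _ => ?_⟩⟩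
  intro q ρ
  have hn : 0 < dimN N := by linarith [one_le_dimN N]
  have hT : (M : ℝ) / dimN N ≤ T' := by
    rw [div_le_iff₀ hn]
    calc (M : ℝ) ≤ T * N := hM
      _ ≤ T' * N := mul_le_mul_of_nonneg_right (le_max_left _ _) (Nat.cast_nonneg N)
      _ ≤ T' * dimN N := mul_le_mul_of_nonneg_left (by unfold dimN; linarith) (le_max_right _ _)
  have hcum : cum σ k ≤ B := hr
  set C := cubeCtx hΦ hf hL hB N M k σ hs j
  set X := cubeTotErr f N M k σ + mass k with hX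
  have hm : 0 < mass k := mass_pos
  have hm1 : mass k ≤ 1 := mass_le_one k
  have e0 : C.Err M 0 = cubeTotErr f N M k σ := Err_start hΦ hf hL hB hs j
  have hE0 : 0 ≤ cubeTotErr f N M k σ := e0 ▸ C.Err_nonneg M 0
  have hE2 : cubeTotErr f N M k σ ≤ 2 :=
    (le_abs_self _).trans ((cubeReg f L hf.1.continuous.measurable hL N M k).2.2 σ)
  obtain ⟨b1, b2⟩ := cubeCtx_bounds (j := j) hΦ hf hL hB hs (hj.trans hjk) hT hcum
  set δ := X / 3 with hδ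
  have hu : ∀ u ∈ Set.Icc (0 : ℝ) (π / 2), C.Err M u ≤ (3 + Ke) * √X := fun u hu => by
    refine (hE N k M C rfl rfl hT hcum b1 b2 δ (by positivity) (by rw [hδ, hX]; linarith) u hu).trans ?_
    rw [e0]
    exact sqrt_trade hm hE0 hKe hδ
  refine (hgain N M k σ s hs j _ hT hcum hj hjk hu).trans ?_
  have hmX : mass k ≤ √X := by
    refine le_trans ?_ (sqrt_le_sqrt (by rw [hX]; linarith : mass k ≤ X))
    rw [le_sqrt hm.le hm.le, pow_two]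
    exact mul_le_of_le_one_right hm.le hm1
  have hAn : A * (1 / dimN N) ≤ ε := by
    rw [mul_one_div, div_le_iff₀ hn]
    have h : A / ε ≤ N := (Nat.le_ceil _).trans (by exact_mod_cast hN)
    rw [div_le_iff₀ hε] at h
    unfold dimN
    nlinarith
  nlinarith [mul_le_mul_of_nonneg_left hmX hA]

end Vale.Agent.P157.Cube2
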