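import Vale.Agent.P157.Cube2.CavEnds
import Vale.Agent.P157.Cube2.Path
import Vale.Agent.P157.Rsb.CavDeriv

/-!
# P157, cube cavity: the gain of one spin from the interpolation

The interpolation of one system; the bound on the overlap errors along the path enters as a
hypothesis.
-/

open MeasureTheory ProbabilityTheory Real Finset
open Vale.Agent.P157.Rsb

namespace Vale.Agent.P157.Cube2

theorem good_bounds {f : ℝ → ℝ} (hf : Good f) :
    ∃ L Bf : ℝ, (∀ u, |f u| ≤ L) ∧ ∀ u, |deriv f u| ≤ Bf := by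
  obtain ⟨L, hL⟩ := hf.1.continuous.bounded_above_of_compact_support hf.2
  obtain ⟨Bf, hBf⟩ := (hf.1.continuous_deriv (by norm_num)).bounded_above_of_compact_support hf.2.deriv
  exact ⟨L, Bf, fun u => hL u, fun u => hBf u⟩

theorem cum_nonneg (σ : ℕ → ℝ) (l : ℕ) : 0 ≤ cum σ l := sum_nonneg fun _ _ => sq_nonneg _

variable {k : ℕ} {f : ℝ → ℝ} {t : ℝ} {σ q : ℕ → ℝ}

theorem rhoOf_zero : rhoOf k f t σ q 0 = 0 := if_pos rfl

theorem rhoOf_pos {l : ℕ} (hl : 1 ≤ l) : rhoOf k f t σ q l = cum σ l + t * gamK k f q l :=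
  if_neg (by omega)

theorem incr_rhoOf_nonneg (hΦ : PhiStmt) (hf : Good f) {Bf : ℝ} (hB : ∀ u, |deriv f u| ≤ Bf)
    (hq : IsPath k q) (ht : 0 ≤ t) {l : ℕ} (hl : 1 ≤ l) (hlk : l ≤ k) :
    0 ≤ incr (rhoOf k f t σ q) l := by
  obtain ⟨-, -, hbd, hmono⟩ := hΦ.1 f Bf hf hB k q q hq hq
  rw [incr, rhoOf_pos hl]
  rcases Nat.lt_or_ge 1 l with h | h
  · rw [rhoOf_pos (show 1 ≤ l - 1 by omega)]
    have h1 := hmono (l - 1) (by omega)
    rw [show l - 1 + 1 = l by omega] at h1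
    have h2 := cum_step σ hl
    nlinarith [sq_nonneg (σ l)]
  · obtain rfl : l = 1 := by omega
    rw [Nat.sub_self, rhoOf_zero]
    linarith [mul_nonneg ht (hbd 1 hlk).1, cum_nonneg σ 1]

/-- The interpolation of the cube system. -/
noncomputable def cubeCtx (hΦ : PhiStmt) (hf : Good f) {L Bf : ℝ} (hL : ∀ u, |f u| ≤ L)
    (hB : ∀ u, |deriv f u| ≤ Bf) (N M k : ℕ) (σ : ℕ → ℝ) {s : ℝ} (hs : 0 ≤ s) (j : ℕ) : CavCtx N k where
  K := cubeBase N
  W := 1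
  hW := le_rfl
  f := f
  L := L
  Bf := Bf
  good := hf
  bf := hL
  bf' := hB
  σ := σ
  ρ := rhoOf k f ((M : ℝ) / (N + 1)) σ (cubeQ f N M k σ)
  e := auxVar j s
  q := cubeQ f N M k σ
  b := bOf k (rhoOf k f ((M : ℝ) / (N + 1)) σ (cubeQ f N M k σ)) (cubeQ f N M k σ)
  hρ0 := rhoOf_zero
  hρ _ hl hlk := incr_rhoOf_nonneg hΦ hf hB
    (cubePath f L hf.1.continuous.measurable hL N M k σ) (by positivity) hl hlk
  he := auxVar_nonneg hs j
  hq := cubePath f L hf.1.continuous.measurable hL N M k σ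

variable {N M : ℕ}

theorem cubeCtx_end (hΦ : PhiStmt) (hf : Good f) {L Bf : ℝ} (hL : ∀ u, |f u| ≤ L)
    (hB : ∀ u, |deriv f u| ≤ Bf) {s : ℝ} (hs : 0 ≤ s) (j : ℕ) :
    EndCtx (cubeCtx hΦ hf hL hB N M k σ hs j) j s :=
  ⟨rfl, rfl, rfl⟩

/-- At angle zero the errors are those of the cube system. -/
theorem Err_start (hΦ : PhiStmt) (hf : Good f) {L Bf : ℝ} (hL : ∀ u, |f u| ≤ L)
    (hB : ∀ u, |deriv f u| ≤ Bf) {s : ℝ} (hs : 0 ≤ s) (j : ℕ) :
    (cubeCtx hΦ hf hL hB N M k σ hs j).Err M 0 = cubeTotErr f N M k σ := by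
  unfold CavCtx.Err cubeTotErr
  congr 1
  exact sum_congr rfl fun l _ => err_start (cubeCtx_end hΦ hf hL hB hs j) M l _

/-- The mean value inequality along the path. -/
theorem path_diff {F : ℝ → ℝ} {c K : ℝ}
    (h : ∀ u ∈ Set.Icc (0 : ℝ) (π / 2), ∃ d, HasDerivAt F d u ∧ |d + sin u * cos u * c| ≤ K) :
    |F (π / 2) - F 0 + c / 2| ≤ K * (π / 2) := by
  set G := fun u => F u + sin u ^ 2 * (c / 2) with hG
  have hd : ∀ u ∈ Set.Icc (0 : ℝ) (π / 2), ∃ d, HasDerivWithinAt G d (Set.Icc 0 (π / 2)) u ∧ ‖d‖ ≤ K := by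
    intro u hu
    obtain ⟨d, hd, hb⟩ := h u hu
    refine ⟨d + sin u * cos u * c, ?_, by rwa [Real.norm_eq_abs]⟩
    refine ((hd.add (((hasDerivAt_sin u).pow 2).mul_const (c / 2))).congr_deriv ?_).hasDerivWithinAt
    push_cast
    ring
  choose! d hd hb using hd
  have hp : (0 : ℝ) ≤ π / 2 := by positivity
  have key := (convex_Icc (0 : ℝ) (π / 2)).norm_image_sub_le_of_norm_hasDerivWithin_le hd hb
    (Set.left_mem_Icc.2 hp) (Set.right_mem_Icc.2 hp)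
  simp only [hG, Real.norm_eq_abs, sin_pi_div_two, sin_zero, one_pow, one_mul, sub_zero,
    abs_of_nonneg hp] at key
  calc |F (π / 2) - F 0 + c / 2| = |F (π / 2) + c / 2 - (F 0 + 0 ^ 2 * (c / 2))| := by ring_nf
    _ ≤ _ := key

theorem F_eq (C : CavCtx N k) (M : ℕ) (u : ℝ) :
    C.F M u = bigN N * free (C.S u) C.f M k (bigN N) C.σ (C.β u) := by
  rw [free, mul_div_cancel₀ _ CavCtx.bigN_pos.ne']
  rfl

/-- The gain against its prediction, given the derivative bound along the path. -/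
theorem gain_near (hΦ : PhiStmt) (hf : Good f) {L Bf : ℝ} (hL : ∀ u, |f u| ≤ L)
    (hB : ∀ u, |deriv f u| ≤ Bf) {s : ℝ} (hs : 0 ≤ s) {j : ℕ} (hj : 1 ≤ j) (hjk : j ≤ k) {K : ℝ}
    (hK : ∀ u ∈ Set.Icc (0 : ℝ) (π / 2), ∃ d,
      HasDerivAt ((cubeCtx hΦ hf hL hB N M k σ hs j).F M) d u ∧
      |d + sin u * cos u * (mass k * ∑ l ∈ Icc 1 k, cum σ l * cubeQ f N M k σ l)| ≤ K) :
    let q := cubeQ f N M k σ
    let ρ := rhoOf k f ((M : ℝ) / (N + 1)) σ q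
    |cubeGain f N M k σ j s
        - (spinG k (bump ρ j s) + mass k / 2 * ∑ l ∈ Icc 1 k, (ρ l - cum σ l) * q l)| ≤ K * (π / 2) := by
  intro q ρ
  set C := cubeCtx hΦ hf hL hB N M k σ hs j
  have hC : EndCtx C j s := cubeCtx_end hΦ hf hL hB hs j
  have h1 : C.F M (π / 2)
      = ((N : ℝ) + 2) * free (cubeLeaf (N + 1)) f M k ((N : ℝ) + 2) σ (auxAmp j s) :=
    (F_eq C M _).trans (free_end hC M)
  have h0 : C.F M 0 = ((N : ℝ) + 1) * cubeFree f N M k σ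
      + (spinG k (bump ρ j s) + (ρ k + s) / 2 - (bOf k ρ q - 1) / 2) := by
    rw [F_eq C M, C.free_start, oneVal_eq hC hj hjk]
    congr 1
    exact congrArg (((N : ℝ) + 1) * ·) (cubeFree_old (N := N) (M := M) (k := k) f σ)
  have hd := path_diff (F := C.F M) (c := mass k * ∑ l ∈ Icc 1 k, cum σ l * q l) hK
  rw [h1, h0] at hd
  refine le_of_eq_of_le ?_ hd
  congr 1
  rw [cubeGain]
  simp only [bOf, sub_mul, sum_sub_distrib]
  ring

/-- The gain is close to the prediction when the errors along the path are. -/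
theorem gain_bound (hΦ : PhiStmt) (hP : PatternStmt) (hf : Good f) {L Bf : ℝ} (hL : ∀ u, |f u| ≤ L)
    (hB : ∀ u, |deriv f u| ≤ Bf) {T B : ℝ} :
    ∃ A, 0 ≤ A ∧ ∀ (N M k : ℕ) (σ : ℕ → ℝ) (s : ℝ) (hs : 0 ≤ s) (j : ℕ) (E : ℝ),
      (M : ℝ) / dimN N ≤ T → cum σ k ≤ B → 1 ≤ j → j ≤ k →
      (∀ u ∈ Set.Icc (0 : ℝ) (π / 2), (cubeCtx hΦ hf hL hB N M k σ hs j).Err M u ≤ E) →
      let q := cubeQ f N M k σ
      let ρ := rhoOf k f ((M : ℝ) / (N + 1)) σ q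
      |cubeGain f N M k σ j s
          - (spinG k (bump ρ j s) + mass k / 2 * ∑ l ∈ Icc 1 k, (ρ l - cum σ l) * q l)|
        ≤ A * (mass k + 1 / dimN N + E) := by
  obtain ⟨Cp, hCp, hPf⟩ := hP f hf
  refine ⟨|CavCtx.derK 1 Bf L Cp B T| * (π / 2), by positivity,
    fun N M k σ s hs j E hT hr hj hjk hE => ?_⟩
  intro q ρ
  set C := cubeCtx hΦ hf hL hB N M k σ hs j
  rw [mul_right_comm]
  refine gain_near hΦ hf hL hB hs hj hjk fun u hu => ?_
  obtain ⟨d, hd, hb⟩ := C.deriv_F_near hΦ hCp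
    (fun M u l hl a b R ha hb ma mb => (hPf (N + 1 + 1) M k (C.S u) (bigN N) C.σ (C.β u) C.q
      CavCtx.bigN_pos C.hq fun x => cavPat_unit x).2.1 l hl a b R ha hb ma mb)
    (M := M) (R := B) (T := T) hr hT (fun l hl => rhoOf_pos (mem_Icc.1 hl).1)
    (by show bOf k ρ q - 1 - ρ k = -(mass k * ∑ l ∈ Icc 1 k, ρ l * q l); simp only [bOf]; ring) u
  refine ⟨d, hd, le_trans hb ?_⟩
  have h1 := C.Err_nonneg M u
  have h2 : 0 < dimN N := by linarith [one_le_dimN N]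
  refine mul_le_mul (le_abs_self _) (add_le_add le_rfl (hE u hu)) ?_ (abs_nonneg _)
  have := mass_pos (k := k)
  positivity

end Vale.Agent.P157.Cube2
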