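import Vale.Agent.P157.Cube2.CavFinish
import Vale.Agent.P157.Rsb.CavErr

/-!
# P157, cube cavity: `CubeCavityStmt`
-/

open MeasureTheory ProbabilityTheory Real Finset
open Vale.Agent.P157.Rsb

namespace Vale.Agent.P157.Cube2

/-- `cubeCavity : CubeCavityStmt` from the one-pattern facts. -/
theorem cubeCavity (hΦ : PhiStmt) (hP : PatternStmt) : CubeCavityStmt :=
  cubeCavity_of hΦ hP fun Bf T R P => ⟨errK 1 Bf T R P P, (errK_pos _ _ _ _ _ _).le,
    fun N k M C hW hB hT hR hρ hb δ hδ hδ1 u hu => by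
      have h := C.Err_le hT hR hρ hb hδ hδ1 hu.1 hu.2
      rwa [hW, hB] at h⟩

end Vale.Agent.P157.Cube2
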