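import Vale.Agent.P157.Cube2.Intf

/-!
# P157: assembly of the variational formula on the cube
-/

open MeasureTheory ProbabilityTheory Real Filter Topology
open Vale.Agent.P157.Rsb

namespace Vale.Agent.P157.Cube2

theorem nest_zero {k : ℕ} {Z X : Type} [MeasurableSpace Z] [MeasurableSpace X] (γ : Measure Z)
    [IsProbabilityMeasure γ] (μ : Measure X) [IsProbabilityMeasure μ] (d : ℕ) :
    ∀ z : Fin k → Z, nest γ μ (fun _ _ => (0 : ℝ)) d z = 0 := by
  induction d with
  | zero => intro z; simp [nest]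
  | succ d ih => intro z; simp [nest, ih]

/-- The set of values on the grid with `k` levels. -/
noncomputable def valSet (k : ℕ) (f : ℝ → ℝ) (α : ℝ) : Set ℝ :=
  (fun q => spinSup k q + α * phiK k f q) '' {q | IsPath k q}

theorem valSet_ok (hS : SpinStmt) (hP : PhiStmt) {f : ℝ → ℝ} (hf : Measurable f) {L : ℝ}
    (hL : ∀ u, |f u| ≤ L) {α : ℝ} (hα : 0 ≤ α) (k : ℕ) :
    (valSet k f α).Nonempty ∧ BddBelow (valSet k f α) := by
  refine ⟨⟨_, ⟨fun _ => 0, ⟨rfl, fun _ _ => le_rfl, zero_le_one⟩, rfl⟩⟩,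
    ⟨-(α * (exp (8 * L) * ∫ u, |f u| ∂gaussianReal 0 1)), ?_⟩⟩
  rintro _ ⟨q, hq, rfl⟩
  have hL0 : 0 ≤ L := (abs_nonneg _).trans (hL 0)
  have h := hP.2 f (fun _ => 0) L hf measurable_const hL (fun _ => by simpa using hL0) k q hq
  have h0 : phiK k (fun _ => 0) q = 0 := nest_zero _ _ _ _
  simp only [h0, sub_zero] at h
  have := mul_le_mul_of_nonneg_left (abs_le.1 h).1 hα
  linarith [(hS.2.1 k q hq).2.2]

theorem cubeVal_lip (hS : SpinStmt) (hP : PhiStmt) {f h : ℝ → ℝ} (hf : Measurable f)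
    (hh : Measurable h) {L : ℝ} (hfL : ∀ u, |f u| ≤ L) (hhL : ∀ u, |h u| ≤ L) {α : ℝ} (hα : 0 ≤ α)
    (k : ℕ) : |cubeVal k f α - cubeVal k h α| ≤ α * exp (8 * L) * ∫ u, |f u - h u| ∂gaussianReal 0 1 := by
  have key : ∀ {p r : ℝ → ℝ}, Measurable p → Measurable r → (∀ u, |p u| ≤ L) → (∀ u, |r u| ≤ L) →
      cubeVal k p α - α * exp (8 * L) * ∫ u, |p u - r u| ∂gaussianReal 0 1 ≤ cubeVal k r α := by
    intro p r hp hr hpL hrL
    refine le_csInf (valSet_ok hS hP hr hrL hα k).1 ?_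
    rintro _ ⟨q, hq, rfl⟩
    have h1 : cubeVal k p α ≤ spinSup k q + α * phiK k p q :=
      csInf_le (valSet_ok hS hP hp hpL hα k).2 ⟨q, hq, rfl⟩
    have h2 := mul_le_mul_of_nonneg_left (abs_le.1 (hP.2 p r L hp hr hpL hrL k q hq)).2 hα
    simp only
    linarith
  have h1 := key hf hh hfL hhL
  have h2 := key hh hf hhL hfL
  simp only [abs_sub_comm (h _)] at h2
  rw [abs_le]
  constructor <;> linarith

/-- Every bounded measurable potential: the pressure converges to the limit of the grid values. -/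
theorem cube_formula (hS : SpinStmt) (hP : PhiStmt) (hX : ApproxStmt) (hLip : CubeLipStmt)
    (hU : CubeUpperStmt) (hLo : CubeLowerStmt) {f : ℝ → ℝ} (hf : Measurable f) {L : ℝ}
    (hL : ∀ u, |f u| ≤ L) {α : ℝ} (hα : 0 < α) :
    ∃ l, Tendsto (fun N => pressureCube f α N) atTop (𝓝 l) ∧
      Tendsto (fun k => cubeVal k f α) atTop (𝓝 l) := by
  have hclose : ∀ δ : ℝ, 0 < δ → ∃ K, ∀ k, K ≤ k →
      ∀ᶠ N in atTop, |pressureCube f α N - cubeVal k f α| ≤ δ := by
    intro δ hδ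
    set e := α * exp (8 * (L + 1))
    have he0 : 0 < e := by positivity
    obtain ⟨h, hgood, hhL, herr⟩ := hX.1 f L (δ / 4 / e) hf hL (by positivity)
    have hfL : ∀ u, |f u| ≤ L + 1 := fun u => by linarith [hL u]
    have hh : Measurable h := hgood.1.continuous.measurable
    have herr' : e * ∫ u, |f u - h u| ∂gaussianReal 0 1 ≤ δ / 4 := by
      refine (mul_le_mul_of_nonneg_left herr he0.le).trans (le_of_eq ?_)
      field_simp
    obtain ⟨K, hK⟩ := hU h α hgood hα (δ / 4) (by positivity)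
    obtain ⟨K', hK'⟩ := hLo h α hgood hα (δ / 4) (by positivity)
    refine ⟨max K K', fun k hk => ?_⟩
    filter_upwards [hK k ((le_max_left _ _).trans hk), hK' k ((le_max_right _ _).trans hk)] with N h1 h2
    have h5 := abs_le.1 ((hLip f h (L + 1) hf hh hfL hhL α N hα.le).trans herr')
    have h6 := abs_le.1 ((cubeVal_lip hS hP hf hh hfL hhL hα.le k).trans herr')
    rw [abs_le]
    constructor <;> linarith
  have hcs : CauchySeq fun N => pressureCube f α N := Metric.cauchySeq_iff'.2 fun δ hδ => by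
    obtain ⟨K, hK⟩ := hclose (δ / 3) (by positivity)
    obtain ⟨N₀, hN⟩ := eventually_atTop.1 (hK K le_rfl)
    refine ⟨N₀, fun N hN' => ?_⟩
    rw [Real.dist_eq, abs_lt]
    have a := abs_le.1 (hN N hN')
    have b := abs_le.1 (hN N₀ le_rfl)
    constructor <;> linarith
  obtain ⟨l, hl⟩ := cauchySeq_tendsto_of_complete hcs
  refine ⟨l, hl, Metric.tendsto_atTop.2 fun δ hδ => ?_⟩
  obtain ⟨K, hK⟩ := hclose (δ / 2) (by positivity)
  refine ⟨K, fun k hk => ?_⟩
  rw [Real.dist_eq, abs_sub_comm]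
  linarith [le_of_tendsto ((hl.sub_const (cubeVal k f α)).abs) (hK k hk)]

end Vale.Agent.P157.Cube2
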