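import Vale.Agent.P157.Cube2.Param

/-!
# P157: the single-spin step preserves monotonicity in the absolute value
-/

open MeasureTheory ProbabilityTheory Real Filter Topology

namespace Vale.Agent.P157.Cube2

/-- Monotone in the absolute value (in particular even). -/
def AbsMono (φ : ℝ → ℝ) : Prop := ∀ x y, |x| ≤ |y| → φ x ≤ φ y

theorem AbsMono.neg_eq {φ : ℝ → ℝ} (h : AbsMono φ) (x : ℝ) : φ (-x) = φ x :=
  le_antisymm (h _ _ (by rw [abs_neg])) (h _ _ (by rw [abs_neg]))

theorem AbsMono.comono {φ ψ : ℝ → ℝ} (h : AbsMono φ) (h' : AbsMono ψ) (x y : ℝ) :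
    0 ≤ (φ x - φ y) * (ψ x - ψ y) := by
  rcases le_total |x| |y| with e | e
  · exact mul_nonneg_of_nonpos_of_nonpos (sub_nonpos.2 (h _ _ e)) (sub_nonpos.2 (h' _ _ e))
  · exact mul_nonneg (sub_nonneg.2 (h _ _ e)) (sub_nonneg.2 (h' _ _ e))

theorem absMono_of_deriv {φ : ℝ → ℝ} (hd : Differentiable ℝ φ) (he : ∀ x, φ (-x) = φ x)
    (h : ∀ x, 0 ≤ x → 0 ≤ deriv φ x) : AbsMono φ := by
  have hm : MonotoneOn φ (Set.Ici 0) := monotoneOn_of_deriv_nonneg (convex_Ici 0)
    hd.continuous.continuousOn hd.differentiableOn fun x hx => h x (by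
      rw [interior_Ici] at hx; exact le_of_lt hx)
  have hab : ∀ x, φ x = φ |x| := fun x => by
    rcases abs_choice x with e | e <;> rw [e]
    exact (he x).symm
  intro x y hxy
  rw [hab x, hab y]
  exact hm (abs_nonneg x) (abs_nonneg y) hxy

theorem deriv_neg_of_even {φ : ℝ → ℝ} (hd : Differentiable ℝ φ) (he : ∀ x, φ (-x) = φ x) (x : ℝ) :
    deriv φ (-x) = -deriv φ x := by
  have h := (hd (-(-x))).hasDerivAt.comp (-x) ((hasDerivAt_id (-x)).neg)
  rw [show φ ∘ Neg.neg = φ from funext fun t => he t] at h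
  rw [h.deriv]; simp

theorem AbsMono.deriv_nonneg {φ : ℝ → ℝ} (h : AbsMono φ) (hd : Differentiable ℝ φ) {x : ℝ} (hx : 0 ≤ x) :
    0 ≤ deriv φ x := by
  refine ge_of_tendsto (hd x).hasDerivAt.tendsto_slope_zero_right ?_
  filter_upwards [self_mem_nhdsWithin] with t ht
  rw [Set.mem_Ioi] at ht
  refine smul_nonneg (inv_nonneg.2 ht.le) (sub_nonneg.2 (h _ _ ?_))
  rw [abs_of_nonneg hx, abs_of_nonneg (by linarith)]; linarith

theorem AbsMono.deriv_zero {φ : ℝ → ℝ} (h : AbsMono φ) (hd : Differentiable ℝ φ) : deriv φ 0 = 0 := by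
  have := deriv_neg_of_even hd h.neg_eq 0
  rw [neg_zero] at this; linarith

/-- The second derivative at the minimum is nonnegative. -/
theorem AbsMono.deriv2_nonneg {φ : ℝ → ℝ} (h : AbsMono φ) (hd : Differentiable ℝ φ)
    (hd2 : Differentiable ℝ (deriv φ)) : 0 ≤ deriv (deriv φ) 0 := by
  refine ge_of_tendsto (hd2 0).hasDerivAt.tendsto_slope_zero_right ?_
  filter_upwards [self_mem_nhdsWithin] with t ht
  rw [Set.mem_Ioi] at ht
  refine smul_nonneg (inv_nonneg.2 ht.le) ?_
  rw [zero_add, h.deriv_zero hd, sub_zero]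
  exact h.deriv_nonneg hd ht.le

theorem hasDerivAt_tanh' (x : ℝ) : HasDerivAt tanh (1 - tanh x ^ 2) x := by
  rw [show tanh = fun y => sinh y / cosh y from funext fun y => tanh_eq_sinh_div_cosh y]
  refine ((Real.hasDerivAt_sinh x).fun_div (Real.hasDerivAt_cosh x) (cosh_pos x).ne').congr_deriv ?_
  field_simp [(cosh_pos x).ne']

theorem abs_tanh_le (x : ℝ) : |tanh x| ≤ 1 := (abs_tanh_lt_one x).le

theorem tanh_monotone : Monotone tanh :=
  monotone_of_deriv_nonneg (fun x => (hasDerivAt_tanh' x).differentiableAt) fun x => by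
    rw [(hasDerivAt_tanh' x).deriv, sub_nonneg]
    exact (sq_le_one_iff_abs_le_one _).2 (abs_tanh_le x)

/-- Chebyshev's inequality for comonotone functions. -/
theorem cheb {μ : Measure ℝ} [SFinite μ] {ρ φ ψ : ℝ → ℝ} (hρ : ∀ x, 0 ≤ ρ x) (i0 : Integrable ρ μ)
    (i1 : Integrable (fun x => φ x * ρ x) μ) (i2 : Integrable (fun x => ψ x * ρ x) μ)
    (i3 : Integrable (fun x => φ x * ψ x * ρ x) μ) (h : ∀ x y, 0 ≤ (φ x - φ y) * (ψ x - ψ y)) :
    (∫ x, φ x * ρ x ∂μ) * (∫ x, ψ x * ρ x ∂μ) ≤ (∫ x, φ x * ψ x * ρ x ∂μ) * ∫ x, ρ x ∂μ := by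
  have hp : 0 ≤ ∫ p : ℝ × ℝ, (φ p.1 - φ p.2) * (ψ p.1 - ψ p.2) * (ρ p.1 * ρ p.2) ∂μ.prod μ :=
    integral_nonneg fun p => mul_nonneg (h _ _) (mul_nonneg (hρ _) (hρ _))
  have e : ∀ p : ℝ × ℝ, (φ p.1 - φ p.2) * (ψ p.1 - ψ p.2) * (ρ p.1 * ρ p.2)
      = (φ p.1 * ψ p.1 * ρ p.1) * ρ p.2 + ρ p.1 * (φ p.2 * ψ p.2 * ρ p.2)
        - ((φ p.1 * ρ p.1) * (ψ p.2 * ρ p.2) + (ψ p.1 * ρ p.1) * (φ p.2 * ρ p.2)) := fun p => by ring
  simp only [e] at hp
  rw [integral_sub ((i3.mul_prod i0).fun_add (i0.mul_prod i3))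
      ((i1.mul_prod i2).fun_add (i2.mul_prod i1)),
    integral_add (i3.mul_prod i0) (i0.mul_prod i3), integral_add (i1.mul_prod i2) (i2.mul_prod i1),
    integral_prod_mul (fun x => φ x * ψ x * ρ x) ρ, integral_prod_mul ρ fun x => φ x * ψ x * ρ x,
    integral_prod_mul (fun x => φ x * ρ x) fun x => ψ x * ρ x,
    integral_prod_mul (fun x => ψ x * ρ x) fun x => φ x * ρ x] at hp
  linarith

theorem mp_neg : MeasurePreserving (fun y : ℝ => -y) γ₁ γ₁ :=
  ⟨measurable_neg, by rw [gaussianReal_map_neg, neg_zero]⟩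

theorem integral_neg_γ (F : ℝ → ℝ) : ∫ y, F (-y) ∂γ₁ = ∫ y, F y ∂γ₁ :=
  mp_neg.integral_comp (Homeomorph.neg ℝ).measurableEmbedding F

theorem integral_centre {a : ℝ} (ha : 0 < a) (h : ℝ) (G : ℝ → ℝ) :
    ∫ y, G (h + √a * y) ∂γ₁ = ∫ y, G (√a * y) * exp (h / √a * y - (h / √a) ^ 2 / 2) ∂γ₁ := by
  set c := h / √a with hc
  have hs : √a ≠ 0 := (sqrt_pos.2 ha).ne'
  rw [integral_gaussianReal_eq_integral_smul one_ne_zero,
    integral_gaussianReal_eq_integral_smul one_ne_zero,
    ← integral_add_right_eq_self (μ := volume)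
      (fun y => gaussianPDFReal 0 1 y • (G (√a * y) * exp (c * y - c ^ 2 / 2))) c]
  refine integral_congr_ae (Eventually.of_forall fun x => ?_)
  have e : gaussianPDFReal 0 1 (x + c) * exp (c * (x + c) - c ^ 2 / 2) = gaussianPDFReal 0 1 x := by
    simp only [gaussianPDFReal, NNReal.coe_one, mul_one, sub_zero, mul_assoc, ← exp_add]
    congr 2; ring
  simp only [smul_eq_mul, ← e, hc]
  rw [show h + √a * x = √a * (x + h / √a) by field_simp; ring]
  ring

section

variable {m a : ℝ} {f : ℝ → ℝ}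

theorem tE_neg (hfe : ∀ x, f (-x) = f x) {φ : ℝ → ℝ} (hφe : ∀ x, φ (-x) = φ x) (h : ℝ) :
    tE m a f φ (-h) = tE m a f φ h := by
  have e : ∀ ψ : ℝ → ℝ, (∀ x, ψ (-x) = ψ x) →
      ∫ y, ψ (-h + √a * y) ∂γ₁ = ∫ y, ψ (h + √a * y) ∂γ₁ := fun ψ hψ => by
    rw [← integral_neg_γ]
    refine integral_congr_ae (Eventually.of_forall fun y => ?_)
    show ψ (-h + √a * -y) = ψ (h + √a * y)
    rw [← hψ (h + √a * y)]; congr 1; ring
  simp only [tE, num, den]
  rw [e (fun x => φ x * exp (m * f x)) (fun x => by simp only [hfe, hφe]),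
    e (fun x => exp (m * f x)) (fun x => by simp only [hfe])]

theorem hT_neg (hfe : ∀ x, f (-x) = f x) (h : ℝ) : hT m a f (-h) = hT m a f h := by
  have e : den m a f (-h) = den m a f h := by
    simp only [den]
    rw [← integral_neg_γ]
    refine integral_congr_ae (Eventually.of_forall fun y => ?_)
    show exp (m * f (-h + √a * -y)) = exp (m * f (h + √a * y))
    rw [← hfe (h + √a * y)]; congr 3; ring
  simp only [hT, e]

theorem tC_nonneg (hf : Pot f) {φ ψ : ℝ → ℝ} {C D : ℝ} {i j : ℕ} (hφ : Bd i C φ) (hψ : Bd j D ψ)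
    (h1 : AbsMono φ) (h2 : AbsMono ψ) (h : ℝ) : 0 ≤ tC m a f φ ψ h := by
  have hb : ∀ x, |φ x * ψ x| ≤ C * D := fun x => by
    rw [abs_mul]; exact mul_le_mul (hφ.abs_le x) (hψ.abs_le x) (abs_nonneg _) hφ.nonneg
  have := cheb (μ := γ₁) (φ := fun y => φ (h + √a * y)) (ψ := fun y => ψ (h + √a * y))
    (ρ := fun y => exp (m * f (h + √a * y))) (fun _ => (exp_pos _).le) (int_wt hf h)
    (int_num hf hφ.cont hφ.abs_le h) (int_num hf hψ.cont hψ.abs_le h)
    (int_num hf (hφ.cont.mul hψ.cont) hb h) (fun x y => h1.comono h2 _ _)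
  simp only [tC, tE, num, den] at this ⊢
  have hd : 0 < ∫ y, exp (m * f (h + √a * y)) ∂γ₁ := den_pos hf h
  rw [div_mul_div_comm, sub_nonneg, div_le_div_iff₀ (mul_pos hd hd) hd]
  nlinarith

/-- The derivative is the covariance with the position. -/
theorem deriv_tE_eq (hf : Pot f) {φ : ℝ → ℝ} {C : ℝ} (hφ : Bd 1 C φ) (h : ℝ) :
    √a * deriv (tE m a f φ) h * (den m a f h) ^ 2
      = (∫ y, y * (φ (h + √a * y) * exp (m * f (h + √a * y))) ∂γ₁) * den m a f h
        - num m a f φ h * ∫ y, y * exp (m * f (h + √a * y)) ∂γ₁ := by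
  have key : ∀ {ψ : ℝ → ℝ} {E : ℝ}, Bd 1 E ψ →
      ∫ y, y * (ψ (h + √a * y) * exp (m * f (h + √a * y))) ∂γ₁
        = √a * (num m a f (deriv ψ) h + m * num m a f (fun x => ψ x * deriv f x) h) := by
    intro ψ E hψ
    have hu : ∀ x, |ψ x * deriv f x| ≤ E := fun x => by
      rw [abs_mul]
      exact (mul_le_mul (hψ.abs_le x) (hf.dle x) (abs_nonneg _) hψ.nonneg).trans_eq (mul_one E)
    have i1 := int_num (m := m) (a := a) hf hψ.2.2.cont hψ.2.2.abs_le h
    have i2 := int_num (m := m) (a := a) hf (hψ.cont.fun_mul hf.dcont) hu h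
    have i3 : Integrable (fun y => y * (ψ (h + √a * y) * exp (m * f (h + √a * y)))) γ₁ := by
      refine ((int_exp_abs (|m| * √a + 1)).const_mul (E * exp (|m| * |f h|))).mono'
        (Continuous.aestronglyMeasurable (by have := hf.diff.continuous; have := hψ.cont; fun_prop))
        (ae_of_all _ fun y => ?_)
      rw [Real.norm_eq_abs, abs_mul, abs_mul, Real.abs_exp]
      refine (mul_le_mul (abs_le_exp_abs y) (mul_le_mul (hψ.abs_le _)
        (exp_le_exp.2 (hf.bound (m := m) (a := a) h h y)) (exp_pos _).le hψ.nonneg) (by positivity)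
        (exp_pos _).le).trans_eq ?_
      simp only [sub_self, abs_zero, add_zero]
      rw [mul_assoc E (exp _) (exp _), mul_left_comm, ← exp_add, ← exp_add]; ring_nf
    have hs := P150.stein (φ := fun y => ψ (h + √a * y) * exp (m * f (h + √a * y)))
      (φ' := fun y => √a * (deriv ψ (h + √a * y) * exp (m * f (h + √a * y))
        + m * (ψ (h + √a * y) * deriv f (h + √a * y) * exp (m * f (h + √a * y)))))
      (fun y => by
        have hl : HasDerivAt (fun y => h + √a * y) √a y := by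
          simpa using ((hasDerivAt_id y).const_mul √a).const_add h
        exact (((hψ.1 _).hasDerivAt.comp y hl).fun_mul
          (((hf.diff _).hasDerivAt.comp y hl).const_mul m).exp).congr_deriv (by
            simp only [Function.comp_apply]; ring))
      (int_num hf hψ.cont hψ.abs_le h) ((i1.add (i2.const_mul m)).const_mul _) i3
    simp only [P150.std] at hs
    rw [hs, integral_const_mul, integral_add i1 (i2.const_mul m), integral_const_mul]
    rfl
  have k1 := key hφ
  have k0 := key (Bd.const 1 1)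
  simp only [one_mul, deriv_const', num, zero_mul, integral_zero, zero_add] at k0
  rw [k1, k0, (hasDerivAt_tE hf hφ h).deriv]
  simp only [tC, tE, num, den]
  have hd : (∫ y, exp (m * f (h + √a * y)) ∂γ₁) ≠ 0 := (den_pos hf h).ne'
  field_simp
  ring

/-- The tilted average of a function monotone in the absolute value is again monotone. -/
theorem absMono_tE (hf : Pot f) (hfe : ∀ x, f (-x) = f x) (ha : 0 < a) {φ : ℝ → ℝ} {C : ℝ}
    (hφ : Bd 1 C φ) (hm : AbsMono φ) : AbsMono (tE m a f φ) := by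
  refine absMono_of_deriv (fun h => (hasDerivAt_tE hf hφ h).differentiableAt)
    (fun h => tE_neg hfe hm.neg_eq h) fun h hh => ?_
  set c := h / √a with hc
  have hc0 : 0 ≤ c := by positivity
  set p : ℝ → ℝ := fun y => exp (-(c ^ 2 / 2)) * exp (m * f (√a * y)) with hp
  set v : ℝ → ℝ := fun y => φ (√a * y) with hv
  set g : ℝ → ℝ := fun y => y * tanh (c * y) with hg
  have hC := hφ.nonneg
  have hfc := hf.diff.continuous
  have hvc : Continuous v := by have := hφ.cont; simp only [hv]; fun_prop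
  have hpc : Continuous p := by simp only [hp]; fun_prop
  have hpb : ∀ y, p y ≤ exp (|m| * |f 0|) * exp (|m| * √a * |y|) := fun y => by
    refine (mul_le_of_le_one_left (exp_pos _).le (exp_le_one_iff.2 (by nlinarith))).trans ?_
    rw [← exp_add]; refine exp_le_exp.2 ?_
    simpa using hf.bound (m := m) (a := a) 0 0 y
  have hint : ∀ {b : ℕ} {ψ : ℝ → ℝ}, Continuous ψ → (∀ y, |ψ y| ≤ max C 1 * exp (b * |y|)) →
      Integrable (fun y => ψ y * p y) γ₁ := by
    intro b ψ hψ hb
    refine ((int_exp_abs (b + |m| * √a)).const_mul (max C 1 * exp (|m| * |f 0|))).mono'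
      (hψ.mul hpc).aestronglyMeasurable (ae_of_all _ fun y => ?_)
    rw [Real.norm_eq_abs, abs_mul, abs_of_nonneg (show 0 ≤ p y by simp only [hp]; positivity)]
    refine (mul_le_mul (hb y) (hpb y) (by simp only [hp]; positivity) (by positivity)).trans_eq ?_
    rw [add_mul, exp_add]; ring
  set n : ℕ := ⌈c⌉₊ + 1 with hn
  have hcn : c + 1 ≤ n := by rw [hn]; push_cast; linarith [Nat.le_ceil c]
  have he1 : ∀ y, exp (c * y) ≤ exp (c * |y|) := fun y =>
    exp_le_exp.2 (mul_le_mul_of_nonneg_left (le_abs_self y) hc0)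
  have he2 : ∀ y, |y| * exp (c * y) ≤ exp (n * |y|) := fun y => by
    refine (mul_le_mul (abs_le_exp_abs y) (he1 y) (exp_pos _).le (exp_pos _).le).trans ?_
    rw [← exp_add]; refine exp_le_exp.2 ?_
    nlinarith [abs_nonneg y]
  have hvb : ∀ y, |v y| ≤ max C 1 := fun y => (hφ.abs_le _).trans (le_max_left _ _)
  have hM : (1 : ℝ) ≤ max C 1 := le_max_right _ _
  have hen : ∀ y, exp (c * y) ≤ exp (n * |y|) := fun y =>
    (he1 y).trans (exp_le_exp.2 (mul_le_mul_of_nonneg_right (by linarith) (abs_nonneg y)))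
  have i0 : Integrable (fun y => exp (c * y) * p y) γ₁ := hint (b := n) (by fun_prop) fun y => by
    rw [Real.abs_exp]; exact (hen y).trans (le_mul_of_one_le_left (exp_pos _).le hM)
  have i1 : Integrable (fun y => v y * exp (c * y) * p y) γ₁ := hint (b := n) (by fun_prop) fun y => by
    rw [abs_mul, Real.abs_exp]; exact mul_le_mul (hvb y) (hen y) (exp_pos _).le (by linarith)
  have i2 : Integrable (fun y => y * exp (c * y) * p y) γ₁ := hint (b := n) (by fun_prop) fun y => by
    rw [abs_mul, Real.abs_exp]; exact (he2 y).trans (le_mul_of_one_le_left (exp_pos _).le hM)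
  have i3 : Integrable (fun y => v y * y * exp (c * y) * p y) γ₁ :=
    hint (b := n) (by fun_prop) fun y => by
      rw [abs_mul, abs_mul, Real.abs_exp, mul_assoc]
      exact mul_le_mul (hvb y) (he2 y) (by positivity) (by linarith)
  have hpe : ∀ y, p (-y) = p y := fun y => by simp only [hp, mul_neg, hfe]
  have hve : ∀ y, v (-y) = v y := fun y => by simp only [hv, mul_neg, hm.neg_eq]
  have hfold : ∀ {F : ℝ → ℝ}, Integrable F γ₁ →
      Integrable (fun y => (F y + F (-y)) / 2) γ₁ ∧ ∫ y, F y ∂γ₁ = ∫ y, (F y + F (-y)) / 2 ∂γ₁ := by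
    intro F hF
    have hF' : Integrable (fun y => F (-y)) γ₁ :=
      (mp_neg.integrable_comp_emb (Homeomorph.neg ℝ).measurableEmbedding).2 hF
    refine ⟨(hF.add hF').div_const 2, ?_⟩
    rw [integral_div, integral_add hF hF', integral_neg_γ]; ring
  set ρ : ℝ → ℝ := fun y => cosh (c * y) * p y with hρ
  have ht : ∀ y, g y * ρ y = y * sinh (c * y) * p y := fun y => by
    simp only [hg, hρ, tanh_eq_sinh_div_cosh]
    field_simp [(cosh_pos (c * y)).ne']
  obtain ⟨j0, e0⟩ := hfold i0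
  obtain ⟨j1, e1⟩ := hfold i1
  obtain ⟨j2, e2⟩ := hfold i2
  obtain ⟨j3, e3⟩ := hfold i3
  have s0 : ∀ y, (exp (c * y) * p y + exp (c * -y) * p (-y)) / 2 = ρ y := fun y => by
    simp only [hpe, hρ, cosh_eq, mul_neg]; ring
  have s1 : ∀ y, (v y * exp (c * y) * p y + v (-y) * exp (c * -y) * p (-y)) / 2 = v y * ρ y := fun y => by
    simp only [hpe, hve, hρ, cosh_eq, mul_neg]; ring
  have s2 : ∀ y, (y * exp (c * y) * p y + -y * exp (c * -y) * p (-y)) / 2 = g y * ρ y := fun y => by
    simp only [ht, hpe, sinh_eq, mul_neg]; ring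
  have s3 : ∀ y, (v y * y * exp (c * y) * p y + v (-y) * -y * exp (c * -y) * p (-y)) / 2
      = v y * g y * ρ y := fun y => by
    rw [mul_assoc (v y) (g y) (ρ y), ht]
    simp only [hpe, hve, sinh_eq, mul_neg]; ring
  simp only [s0] at j0 e0
  simp only [s1] at j1 e1
  simp only [s2] at j2 e2
  simp only [s3] at j3 e3
  have hgm : AbsMono g := by
    intro x y hxy
    have hta : ∀ z : ℝ, g z = |z| * tanh (c * |z|) := fun z => by
      rcases abs_choice z with e | e <;> rw [e]
      simp only [hg, mul_neg, tanh_neg]; ring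
    rw [hta x, hta y]
    have hmono : tanh (c * |x|) ≤ tanh (c * |y|) :=
      tanh_monotone (mul_le_mul_of_nonneg_left hxy hc0)
    have : 0 ≤ tanh (c * |x|) := by
      rw [← Real.tanh_zero]; exact tanh_monotone (by positivity)
    exact mul_le_mul hxy hmono this (abs_nonneg y)
  have hvm : AbsMono v := fun x y hxy => hm _ _ (by
    rw [abs_mul, abs_mul]; exact mul_le_mul_of_nonneg_left hxy (abs_nonneg _))
  have hch := cheb (μ := γ₁) (φ := v) (ψ := g) (ρ := ρ)
    (fun y => mul_nonneg (cosh_pos _).le (by simp only [hp]; positivity)) j0 j1 j2 j3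
    fun x y => hvm.comono hgm x y
  rw [← e0, ← e1, ← e2, ← e3] at hch
  have hd := deriv_tE_eq (m := m) (a := a) hf hφ h
  have hw : ∀ y, exp (c * y) * p y = exp (m * f (√a * y)) * exp (c * y - c ^ 2 / 2) := fun y => by
    simp only [hp]; rw [sub_eq_add_neg (c * y), exp_add]; ring
  have hs : √a ≠ 0 := (sqrt_pos.2 ha).ne'
  have c0 : den m a f h = ∫ y, exp (c * y) * p y ∂γ₁ := by
    rw [den, integral_centre ha h fun x => exp (m * f x)]; simp only [hw, ← hc]
  have c1 : num m a f φ h = ∫ y, v y * exp (c * y) * p y ∂γ₁ := by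
    rw [num, integral_centre ha h fun x => φ x * exp (m * f x)]
    simp only [mul_assoc, hw, hv, ← hc]
  have c2 : ∫ y, y * exp (m * f (h + √a * y)) ∂γ₁ = (∫ y, y * exp (c * y) * p y ∂γ₁)
      - c * den m a f h := by
    rw [c0, show (fun y => y * exp (m * f (h + √a * y))) = fun y =>
      (fun x => (x - h) / √a * exp (m * f x)) (h + √a * y) from funext fun y => by field_simp; ring,
      integral_centre ha h fun x => (x - h) / √a * exp (m * f x), ← integral_const_mul,
      ← integral_sub i2 (i0.const_mul c)]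
    refine integral_congr_ae (Eventually.of_forall fun y => ?_)
    simp only [mul_assoc, hw, ← hc]
    rw [show (√a * y - h) / √a = y - c by rw [hc]; field_simp]
    ring
  have c3 : ∫ y, y * (φ (h + √a * y) * exp (m * f (h + √a * y))) ∂γ₁
      = (∫ y, v y * y * exp (c * y) * p y ∂γ₁) - c * num m a f φ h := by
    rw [c1, show (fun y => y * (φ (h + √a * y) * exp (m * f (h + √a * y)))) = fun y =>
      (fun x => (x - h) / √a * (φ x * exp (m * f x))) (h + √a * y) from funext fun y => by field_simp; ring,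
      integral_centre ha h fun x => (x - h) / √a * (φ x * exp (m * f x)), ← integral_const_mul,
      ← integral_sub i3 (i1.const_mul c)]
    refine integral_congr_ae (Eventually.of_forall fun y => ?_)
    simp only [mul_assoc, hw, hv, ← hc]
    rw [show (√a * y - h) / √a = y - c by rw [hc]; field_simp]
    ring
  rw [c2, c3] at hd
  have hnn : 0 ≤ √a * deriv (tE m a f φ) h * den m a f h ^ 2 := by
    rw [hd, c0, c1]; linarith
  have hsp : 0 < √a * den m a f h ^ 2 := mul_pos (sqrt_pos.2 ha) (pow_pos (den_pos hf h) 2)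
  nlinarith

end

end Vale.Agent.P157.Cube2
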