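import Vale.Agent.P157.Cube2.GenReg

/-!
# P157: the one-sided maximum principle for any leaf of unit vectors

`upper_gen`: if the pressure without patterns lies below an affine functional
`C q - tail q . σ^2 / 2` of the perturbing variances, then the pressure with `α N` patterns lies
below `C q + α Φ(q)` up to the synchronisation error.  It is the argument of `Rsb/Upper.lean`.
-/

open MeasureTheory ProbabilityTheory Real Finset

namespace Vale.Agent.P157.Rsb.Gen

variable {n k : ℕ} {S : Leaf n} {N : ℝ} {f : ℝ → ℝ} {q : ℕ → ℝ}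

/-! ### amplitude dependence -/

section Bounds

variable (hD : DerivStmt) (hN : 0 < N) (hP : ∀ M σ, IsPath k (qf S f M k N σ)) {L : ℝ}
  (hm : Measurable f) (hL : ∀ u, |f u| ≤ L)
include hD hN hP hm hL

theorem fr_step {M : ℕ} {R : ℝ} (y : Fin k → ℝ) (i : Fin k) {s : ℝ} (hy : |y i| ≤ R)
    (hs : |s| ≤ R) :
    |fr S f M k N (lift (Function.update y i s)) - fr S f M k N (lift y)|
      ≤ R * |s - y i| := by
  set j := (i : ℕ) + 1 with hj
  let g := fun t => fr S f M k N (Function.update (lift y) j t)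
  have hd : ∀ t, HasDerivAt g
      (-t * tail k (qf S f M k N (Function.update (lift y) j t)) j) t := by
    intro t
    have h := hD f L hm hL n M k j S N
      (Function.update (lift y) j t) (fun _ => 0) hN (by omega) (by omega)
    simp only [Function.update_idem, Function.update_self] at h
    exact h
  have h := Convex.norm_image_sub_le_of_norm_hasDerivWithin_le (f := g)
    (f' := fun t => -t * tail k (qf S f M k N (Function.update (lift y) j t)) j)
    (s := Set.Icc (-R) R) (C := R) (fun t _ => (hd t).hasDerivWithinAt) (fun t ht => by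
      have hT := tail_mem (hP M (Function.update (lift y) j t)) (j := j) (by omega)
      rw [Real.norm_eq_abs, abs_mul, abs_neg, abs_of_nonneg hT.1]
      exact (mul_le_of_le_one_right (abs_nonneg _) hT.2).trans (abs_le.2 ⟨ht.1, ht.2⟩))
    (convex_Icc _ _) (x := y i) (y := s) (abs_le.1 hy) (abs_le.1 hs)
  have e : Function.update (lift y) j (y i) = lift y := by
    rw [← lift_update, Function.update_eq_self]
  simpa [g, e, lift_update, ← hj, Real.norm_eq_abs] using h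

theorem fr_lip {M : ℕ} {R : ℝ} {y y' : Fin k → ℝ} (hy : ∀ i, |y i| ≤ R)
    (hy' : ∀ i, |y' i| ≤ R) :
    |fr S f M k N (lift y') - fr S f M k N (lift y)| ≤ R * ∑ i, |y' i - y i| := by
  let z : Finset (Fin k) → Fin k → ℝ := fun s i => if i ∈ s then y' i else y i
  have key : ∀ s : Finset (Fin k),
      |fr S f M k N (lift (z s)) - fr S f M k N (lift y)| ≤ R * ∑ i ∈ s, |y' i - y i| := by
    intro s
    induction s using Finset.induction_on with
    | empty => simp [z]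
    | @insert a s ha ih =>
      have e : z (insert a s) = Function.update (z s) a (y' a) := by
        funext i
        by_cases h : i = a
        · subst h; simp [z]
        · simp [z, h]
      have ez : z s a = y a := by simp [z, ha]
      have h := fr_step hD hN hP hm hL (M := M) (z s) a (ez.symm ▸ hy a) (hy' a)
      rw [← e, ez] at h
      rw [sum_insert ha, mul_add]
      exact (abs_sub_le _ (fr S f M k N (lift (z s))) _).trans (add_le_add h ih)
  simpa [z] using key Finset.univ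

theorem continuousOn_fr {M : ℕ} {R : ℝ} (hR : 0 ≤ R) :
    ContinuousOn (fun y : Fin k → ℝ => fr S f M k N (lift y))
      (Set.pi Set.univ fun _ => Set.Icc (-R) R) := by
  refine (LipschitzOnWith.of_dist_le_mul (K := Real.toNNReal (R * k))
    fun y hy y' hy' => ?_).continuousOn
  rw [Real.coe_toNNReal _ (by positivity), Real.dist_eq, mul_assoc]
  refine (fr_lip hD hN hP hm hL (R := R) (fun i => abs_le.2 (hy' i trivial))
    (fun i => abs_le.2 (hy i trivial))).trans (mul_le_mul_of_nonneg_left ?_ hR)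
  refine (sum_le_sum fun i _ => ?_).trans_eq
    (by rw [sum_const, card_univ, Fintype.card_fin, nsmul_eq_mul])
  simpa [Real.dist_eq] using dist_le_pi_dist y y' i

theorem integrable_fr {M : ℕ} {a : Fin k → ℝ} {δ R : ℝ} (hδ : 0 < δ) (hR : 0 ≤ R)
    (ha : ∀ i, 0 ≤ a i ∧ a i + δ ≤ R) :
    Integrable (fun y => fr S f M k N (lift y)) (boxP a δ) :=
  integrable_boxP hδ ((continuousOn_fr hD hN hP hm hL hR).mono fun y hy i hi =>
    ⟨by linarith [(hy i hi).1, (ha i).1], (hy i hi).2.trans (ha i).2⟩)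

theorem boxAvg_fr_close {M : ℕ} {a y : Fin k → ℝ} {δ R : ℝ} (hδ : 0 < δ) (hR : 0 ≤ R)
    (ha : ∀ i, 0 ≤ a i ∧ a i + δ ≤ R) (hy : y ∈ boxSet a δ) :
    |boxAvg k a δ (fr S f M k N) - fr S f M k N (lift y)| ≤ R * k * δ := by
  obtain ⟨hp, hae⟩ := boxP_facts a hδ
  rw [boxAvg_eq]
  have hi := integrable_fr hD hN hP hm hL (M := M) hδ hR ha
  have h : ∀ᵐ u ∂boxP a δ,
      ‖fr S f M k N (lift u) - fr S f M k N (lift y)‖ ≤ R * k * δ := by
    filter_upwards [hae] with u hu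
    have hb : ∀ w : Fin k → ℝ, w ∈ boxSet a δ → ∀ i, |w i| ≤ R := fun w hw i =>
      abs_le.2 ⟨by linarith [(hw i trivial).1, (ha i).1], (hw i trivial).2.trans (ha i).2⟩
    rw [Real.norm_eq_abs, mul_assoc]
    refine (fr_lip hD hN hP hm hL (hb y hy) (hb u hu)).trans
      (mul_le_mul_of_nonneg_left ?_ hR)
    refine (sum_le_sum (g := fun _ => δ) fun i _ => ?_).trans_eq (by simp)
    have := hu i trivial
    have := hy i trivial
    simp only [Set.mem_Icc] at *
    exact abs_le.2 ⟨by linarith, by linarith⟩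
  have h2 := norm_integral_le_of_norm_le_const h
  rw [integral_sub hi (integrable_const _), integral_const, probReal_univ, one_smul, mul_one,
    Real.norm_eq_abs] at h2
  exact h2

end Bounds

/-! ### one added pattern at an approximate maximum -/

/-- The affine functional in the squared amplitudes at the corner `a`. -/
noncomputable def lq (k : ℕ) (f : ℝ → ℝ) (q : ℕ → ℝ) (Cq t : ℝ) (a : Fin k → ℝ) : ℝ :=
  Cq - (∑ i : Fin k, tail k q ((i : ℕ) + 1) * a i ^ 2) / 2 + t * phiK k f q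

/-- The objective whose maximum over the amplitudes is followed. -/
noncomputable def upObj (S : Leaf n) (f : ℝ → ℝ) (q : ℕ → ℝ) (Cq N δ εp : ℝ) (M : ℕ)
    (a : Fin k → ℝ) : ℝ :=
  boxAvg k a δ (fr S f M k N) - lq k f q Cq ((M : ℝ) / N) a - εp * ∑ i, a i ^ 2

section Step

variable (hD : DerivStmt) (hN : 0 < N) (hP : ∀ M σ, IsPath k (qf S f M k N σ)) {L : ℝ}
  (hm : Measurable f) (hL : ∀ u, |f u| ≤ L)
include hD hN hP hm hL

theorem tail_of_near_max (hS : UnitLeaf S) {Cq : ℝ} (hq : IsPath k q) {M : ℕ} {a y : Fin k → ℝ}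
    {δ R e η h θ G εp : ℝ} (hδ : 0 < δ) (hR : 0 ≤ R) (he : 0 < e) (hη : 0 < η) (hh : h = e * η / 4)
    (hεp : εp = e / 6) (hhη : h ≤ η) (hh1 : h ≤ 1) (ha : ∀ i, η ≤ a i ∧ a i + h + δ ≤ R)
    (hy : y ∈ boxSet a δ) (i : Fin k)
    (hmax : upObj S f q Cq N δ εp (M + 1) (Function.update a i (a i + h))
      ≤ upObj S f q Cq N δ εp (M + 1) a + θ)
    (hclose : ∀ σ, |fr S f (M + 1) k N σ - fr S f M k N σ| ≤ G)
    (hsmall : θ + 2 * G + 2 * (R * k * δ) + δ ≤ e * h * η / 4) :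
    tail k q ((i : ℕ) + 1) ≤ tail k (qf S f M k N (lift y)) ((i : ℕ) + 1) + e := by
  have hh0 : 0 < h := by rw [hh]; positivity
  set b := Function.update a i (a i + h) with hbdef
  have hba : ∀ l, 0 ≤ b l ∧ b l + δ ≤ R := fun l => by
    by_cases hl : l = i
    · subst hl
      rw [hbdef, Function.update_self]
      exact ⟨by linarith [(ha l).1], (ha l).2⟩
    · rw [hbdef, Function.update_of_ne hl]
      exact ⟨by linarith [(ha l).1], by linarith [(ha l).2]⟩
  have haa : ∀ l, 0 ≤ a l ∧ a l + δ ≤ R := fun l =>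
    ⟨by linarith [(ha l).1], by linarith [(ha l).2]⟩
  have hybox : Function.update y i (y i + h) ∈ boxSet b δ := fun l _ => by
    by_cases hl : l = i
    · subst hl
      simp only [hbdef, Function.update_self, Set.mem_Icc]
      exact ⟨by linarith [(hy l trivial).1], by linarith [(hy l trivial).2]⟩
    · simp only [hbdef, Function.update_of_ne hl]; exact hy l trivial
  have c1 := abs_le.1 (boxAvg_fr_close hD hN hP hm hL (M := M) hδ hR haa hy)
  have c2 := abs_le.1 (boxAvg_fr_close hD hN hP hm hL (M := M) hδ hR hba hybox)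
  have tan := tangent hD hS hN hm hL M k ((i : ℕ) + 1) (lift y) (y i + h) (by omega) (by omega)
  rw [← lift_update, lift_succ, add_sub_cancel_left] at tan
  have hd : ∀ c : Fin k → ℝ, (∀ l, 0 ≤ c l ∧ c l + δ ≤ R) →
      |boxAvg k c δ (fr S f (M + 1) k N) - boxAvg k c δ (fr S f M k N)| ≤ G := by
    intro c hc
    obtain ⟨hpc, -⟩ := boxP_facts c hδ
    rw [boxAvg_eq, boxAvg_eq, ← integral_sub (integrable_fr hD hN hP hm hL hδ hR hc)
      (integrable_fr hD hN hP hm hL hδ hR hc), ← Real.norm_eq_abs]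
    exact (norm_integral_le_of_norm_le_const
      (ae_of_all _ fun u => (Real.norm_eq_abs _).trans_le (hclose (lift u)))).trans_eq
      (by rw [probReal_univ, mul_one])
  have d1 := abs_le.1 (hd a haa)
  have d2 := abs_le.1 (hd b hba)
  have hτ := tail_mem hq (j := (i : ℕ) + 1) (by omega)
  have hτy := tail_mem (hP M (lift y)) (j := (i : ℕ) + 1) (by omega)
  have hai := (ha i).1
  have hyi := hy i trivial
  simp only [upObj, lq] at hmax
  have s1 : ∑ l : Fin k, tail k q ((l : ℕ) + 1) * b l ^ 2 =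
      ∑ l : Fin k, tail k q ((l : ℕ) + 1) * a l ^ 2
      + tail k q ((i : ℕ) + 1) * ((a i + h) ^ 2 - a i ^ 2) :=
    sum_update_sq (fun l : Fin k => tail k q ((l : ℕ) + 1)) a i (a i + h)
  have s2 : ∑ l, b l ^ 2 = ∑ l, a l ^ 2 + ((a i + h) ^ 2 - a i ^ 2) := by
    simpa only [one_mul] using sum_update_sq (fun _ => (1 : ℝ)) a i (a i + h)
  rw [s1, s2] at hmax
  set τ := tail k q ((i : ℕ) + 1)
  set τy := tail k (qf S f M k N (lift y)) ((i : ℕ) + 1)
  have hmain : h * (a i * τ) ≤ h * (y i * τy) + h ^ 2 / 2 + εp * (2 * a i * h + h ^ 2)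
      + θ + 2 * G + 2 * (R * k * δ) := by
    have : 0 ≤ τ * h ^ 2 := mul_nonneg hτ.1 (sq_nonneg h)
    linarith
  have hy1 : y i * τy ≤ a i * τy + δ := by
    linarith [mul_le_mul_of_nonneg_right hyi.2 hτy.1, mul_le_of_le_one_right hδ.le hτy.2]
  have hgoal : h * (a i * τ) ≤ h * (a i * (τy + e)) := by
    have q1 : h * (y i * τy) ≤ h * (a i * τy + δ) := mul_le_mul_of_nonneg_left hy1 hh0.le
    have q2 : h ^ 2 / 2 ≤ e * h * a i / 8 := by
      have := mul_le_mul_of_nonneg_left hai (mul_nonneg he.le hh0.le)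
      have : h ^ 2 = e * h * η / 4 := by rw [hh]; ring
      linarith
    have q3 : εp * (2 * a i * h + h ^ 2) ≤ e * h * a i / 2 := by
      have : h ^ 2 ≤ h * a i := by
        rw [pow_two]; exact mul_le_mul_of_nonneg_left (hhη.trans hai) hh0.le
      have := mul_le_mul_of_nonneg_left this he.le
      subst hεp
      linarith
    have q4 : e * h * η ≤ e * h * a i := mul_le_mul_of_nonneg_left hai (by positivity)
    have q5 : 0 ≤ e * h * a i := mul_nonneg (mul_nonneg he.le hh0.le) (hη.le.trans hai)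
    have q6 : h * δ ≤ δ := mul_le_of_le_one_left hδ.le hh1
    linarith
  exact le_of_mul_le_mul_left (le_of_mul_le_mul_left hgoal hh0) (hη.trans_le hai)

theorem boxAvg_increment (hS' : UnitLeaf S) {M : ℕ} {a : Fin k → ℝ} {δ R X C Se : ℝ} (hδ : 0 < δ)
    (hR : 0 ≤ R) (ha : ∀ i, 0 ≤ a i ∧ a i + δ ≤ R) (hC : 0 ≤ C)
    (hpt : ∀ y ∈ boxSet a δ, N * (fr S f (M + 1) k N (lift y)
      - fr S f M k N (lift y)) ≤ X + C * tot S f M k N (lift y))
    (hS : boxAvg k a δ (fun σ => tot S f M k N σ) ≤ Se) :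
    boxAvg k a δ (fr S f (M + 1) k N) - boxAvg k a δ (fr S f M k N)
      ≤ (X + C * Se) / N := by
  obtain ⟨hp, hae⟩ := boxP_facts a hδ
  have hiT : Integrable (fun y => tot S f M k N (lift y)) (boxP a δ) :=
    Integrable.of_bound (reg hS' hN.le hm hL M k).1.aestronglyMeasurable 2
      (ae_of_all _ fun y => (Real.norm_eq_abs _).trans_le ((reg hS' hN.le hm hL M k).2 _))
  have i1 := integrable_fr hD hN hP hm hL (M := M + 1) hδ hR ha
  have i2 := integrable_fr hD hN hP hm hL (M := M) hδ hR ha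
  have hint := integral_mono_ae ((i1.sub i2).const_mul N)
    ((integrable_const X).add (hiT.const_mul C)) (by filter_upwards [hae] with y hy using hpt y hy)
  simp only [Pi.sub_apply, Pi.add_apply] at hint
  rw [integral_const_mul, integral_sub i1 i2, integral_add (integrable_const _) (hiT.const_mul C),
    integral_const, probReal_univ, one_smul, integral_const_mul, ← boxAvg_eq, ← boxAvg_eq,
    ← boxAvg_eq] at hint
  rw [le_div_iff₀ (by positivity)]
  linarith [mul_le_mul_of_nonneg_left hS hC]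

/-- The growth of the objective from the start, by induction over the patterns. -/
theorem upper_chain (hS : UnitLeaf S) {Cq : ℝ} (hq : IsPath k q) {M₀ : ℕ}
    {δ η h θ G εp B C D e A₁ Se v₀ : ℝ} (hδ : 0 < δ) (he : 0 < e) (hη : 0 < η) (hηB : η ≤ B)
    (hh : h = e * η / 4) (hεp : εp = e / 6) (hhη : h ≤ η) (hh1 : h ≤ 1)
    (hθ : 0 < θ) (hC : 0 ≤ C)
    (hclose : ∀ M σ, |fr S f (M + 1) k N σ - fr S f M k N σ| ≤ G)
    (hinc : ∀ M σ, N * (fr S f (M + 1) k N σ - fr S f M k N σ)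
      ≤ phiK k f (qf S f M k N σ) + C * tot S f M k N σ)
    (hmono : ∀ p, IsPath k p → (∀ j ∈ Finset.Icc 1 k, tail k q j ≤ tail k p j + e) →
      phiK k f p ≤ phiK k f q + D ^ 2 * e)
    (hsync : ∀ M < M₀, ∀ a : Fin k → ℝ, (∀ i, η ≤ a i ∧ a i ≤ B) →
      boxAvg k a δ (fun σ => tot S f M k N σ) ≤ Se)
    (hzero : ∀ a ∈ Set.pi Set.univ (fun _ : Fin k => Set.Icc η B), upObj S f q Cq N δ εp 0 a ≤ v₀)
    (hJ : ∀ M ≤ M₀, ∀ a ∈ Set.pi Set.univ (fun _ : Fin k => Set.Icc η B),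
      upObj S f q Cq N δ εp M a ≤ A₁ - εp * ∑ i, a i ^ 2)
    (hlow : ∀ M ≤ M₀, A₁ + θ - εp * (B - h) ^ 2 ≤ upObj (k := k) S f q Cq N δ εp M fun _ => η)
    (hsmall : θ + 2 * G + 2 * ((B + δ) * k * δ) + δ ≤ e * h * η / 4) :
    ∀ M ≤ M₀, ∀ a ∈ Set.pi Set.univ (fun _ : Fin k => Set.Icc η B),
      upObj S f q Cq N δ εp M a
        ≤ v₀ + M * (θ + (D ^ 2 * e + C * Se) / N) := by
  have ha₀ : (fun _ : Fin k => η) ∈ Set.pi Set.univ (fun _ : Fin k => Set.Icc η B) :=
    fun i _ => ⟨le_rfl, hηB⟩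
  intro M
  induction M with
  | zero =>
    intro _ a ha
    simpa using hzero a ha
  | succ M ih =>
    intro hM a' ha'
    have hbdd : BddAbove (upObj S f q Cq N δ εp (M + 1) '' Set.pi Set.univ
        (fun _ : Fin k => Set.Icc η B)) := ⟨A₁, by
      rintro _ ⟨a, ha, rfl⟩
      have : 0 ≤ εp * ∑ i, a i ^ 2 := by rw [hεp]; positivity
      linarith [hJ (M + 1) hM a ha]⟩
    obtain ⟨_, ⟨a, ha, rfl⟩, hlt⟩ := exists_lt_of_lt_csSup
      (Set.Nonempty.image (upObj S f q Cq N δ εp (M + 1)) ⟨_, ha₀⟩)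
      (sub_lt_self (sSup (upObj S f q Cq N δ εp (M + 1) '' Set.pi Set.univ
        (fun _ : Fin k => Set.Icc η B))) hθ)
    have hmax : ∀ b ∈ Set.pi Set.univ (fun _ : Fin k => Set.Icc η B),
        upObj S f q Cq N δ εp (M + 1) b ≤ upObj S f q Cq N δ εp (M + 1) a + θ := fun b hb => by
      linarith [le_csSup hbdd ⟨b, hb, rfl⟩]
    have hroom : ∀ i, a i + h ≤ B := by
      intro i
      by_contra hc
      rw [not_le] at hc
      have h4 : (B - h) ^ 2 < ∑ l, a l ^ 2 :=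
        lt_of_lt_of_le (pow_lt_pow_left₀ (by linarith) (by linarith) two_ne_zero)
          (single_le_sum (f := fun l => a l ^ 2) (fun l _ => sq_nonneg _) (mem_univ i))
      have := mul_lt_mul_of_pos_left h4 (show 0 < εp by rw [hεp]; positivity)
      linarith [hJ (M + 1) hM a ha, hmax _ ha₀, hlow (M + 1) hM]
    have hab : ∀ i, η ≤ a i ∧ a i + h + δ ≤ B + δ := fun i =>
      ⟨(ha i trivial).1, by linarith [hroom i]⟩
    have htail : ∀ y ∈ boxSet a δ, ∀ j ∈ Finset.Icc 1 k,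
        tail k q j ≤ tail k (qf S f M k N (lift y)) j + e := by
      intro y hy j hj
      rw [Finset.mem_Icc] at hj
      obtain ⟨i, rfl⟩ : ∃ i : Fin k, (i : ℕ) + 1 = j := ⟨⟨j - 1, by omega⟩, by simp; omega⟩
      refine tail_of_near_max hD hN hP hm hL hS hq hδ (by linarith) he hη hh hεp hhη hh1 hab hy i
        (hmax _ fun l _ => ?_) (hclose M) hsmall
      by_cases hl : l = i
      · subst hl
        rw [Function.update_self]
        exact ⟨by linarith [(hab l).1, hh ▸ (show 0 < e * η / 4 by positivity)], hroom l⟩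
      · rw [Function.update_of_ne hl]; exact ha l trivial
    have hstep : boxAvg k a δ (fr S f (M + 1) k N) - boxAvg k a δ (fr S f M k N)
        ≤ (phiK k f q + D ^ 2 * e + C * Se) / N :=
      boxAvg_increment hD hN hP hm hL hS hδ (by linarith : (0 : ℝ) ≤ B + δ)
        (fun i => ⟨by linarith [(ha i trivial).1], by linarith [(ha i trivial).2]⟩) hC
        (fun y hy => (hinc M _).trans (add_le_add
          (hmono _ (hP M _) (htail y hy)) le_rfl))
        (hsync M (by omega) a fun i => ha i trivial)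
    have e4 : lq k f q Cq (((M + 1 : ℕ) : ℝ) / N) a
        = lq k f q Cq ((M : ℝ) / N) a + phiK k f q / N := by
      simp only [lq]; push_cast; ring
    have h5 := ih (by omega) a ha
    have h6 := hmax a' ha'
    rw [add_assoc, add_div] at hstep
    simp only [upObj, e4] at h5 h6 ⊢
    push_cast at h6 ⊢
    linarith

end Step

theorem apriori {G : ℝ}
    (hclose : ∀ M σ, |fr S f (M + 1) k N σ - fr S f M k N σ| ≤ G) (M : ℕ) (σ : ℕ → ℝ) :
    |fr S f M k N σ - fr S f 0 k N σ| ≤ M * G := by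
  induction M with
  | zero => simp
  | succ M ih =>
    refine (abs_sub_le _ (fr S f M k N σ) _).trans ?_
    push_cast
    linarith [hclose M σ]

theorem zero_close (hD : DerivStmt) (hN : 0 < N) (hP : ∀ M σ, IsPath k (qf S f M k N σ)) {L : ℝ} (hm : Measurable f)
    (hL : ∀ u, |f u| ≤ L) {δ η : ℝ} (hδ : 0 < δ) (hη : 0 < η) (hδη : δ ≤ η) (M : ℕ) :
    |boxAvg k (fun _ => η) δ (fr S f M k N) - fr S f M k N (fun _ => 0)|
      ≤ (k : ℝ) * 4 * η ^ 2 := by
  have h1 := boxAvg_fr_close hD hN hP hm hL (M := M) (R := 2 * η) hδ (by linarith)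
    (a := fun _ : Fin k => η) (y := fun _ => η)
    (fun i => ⟨hη.le, by linarith⟩) (fun i _ => ⟨le_rfl, by linarith⟩)
  have h2 := fr_lip hD hN hP hm hL (M := M) (k := k) (R := 2 * η)
    (y := fun _ => 0) (y' := fun _ => η)
    (fun _ => by rw [abs_zero]; linarith) (fun _ => by rw [abs_of_pos hη]; linarith)
  rw [lift_zero] at h2
  simp only [sub_zero, abs_of_pos hη, sum_const, card_univ, Fintype.card_fin, nsmul_eq_mul] at h2
  refine (abs_sub_le _ (fr S f M k N (lift fun _ : Fin k => η)) _).trans ?_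
  have hk : (0 : ℝ) ≤ k * η := by positivity
  nlinarith [mul_le_mul_of_nonneg_left hδη hk]

theorem start_bound {ε₀ R δ Cq : ℝ} (hq : IsPath k q) (hR : 0 ≤ R)
    (hinit : ∀ σ : ℕ → ℝ, (∀ l, 0 ≤ σ l ∧ σ l ≤ R) →
      fr S f 0 k N σ ≤ Cq - (∑ j ∈ Finset.Icc 1 k, tail k q j * σ j ^ 2) / 2 + ε₀)
    {a y : Fin k → ℝ} (ha : ∀ i, 0 ≤ a i ∧ a i + δ ≤ R) (hy : y ∈ boxSet a δ) :
    fr S f 0 k N (lift y) ≤ lq k f q Cq 0 a + ε₀ := by
  have h := hinit (lift y) (lift_bound hR fun i =>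
    ⟨by linarith [(hy i trivial).1, (ha i).1], by linarith [(hy i trivial).2, (ha i).2]⟩)
  rw [sum_Icc_one, ← Fin.sum_univ_eq_sum_range] at h
  simp only [lift_succ] at h
  have : ∑ i : Fin k, tail k q ((i : ℕ) + 1) * a i ^ 2
      ≤ ∑ i : Fin k, tail k q ((i : ℕ) + 1) * y i ^ 2 :=
    sum_le_sum fun i _ => mul_le_mul_of_nonneg_left
      (pow_le_pow_left₀ (ha i).1 (hy i trivial).1 2) (tail_mem hq (by omega)).1
  simp only [lq]
  linarith

/-- A bound for a single grid, in terms of constants that do not depend on the size. -/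
theorem upper_at (hD : DerivStmt) (hN : 1 ≤ N) (hP : ∀ M σ, IsPath k (qf S f M k N σ))
    (hS : UnitLeaf S) (hPhi : PhiStmt) (hm : Measurable f) {L D C Se α ε A η e δ B Cq : ℝ}
    (hL : ∀ u, |f u| ≤ L) (hf : Good f) (hDer : ∀ u, |deriv f u| ≤ D) (hα : 0 < α)
    (hC : 0 ≤ C) (hSe : 0 ≤ Se) (hq : IsPath k q) (hA0 : 0 ≤ A)
    (he : 0 < e) (he1 : e ≤ 1) (hη : 0 < η) (hη1 : η ≤ 1)
    (hη2 : (k : ℝ) * (e / 6 + 4) * η ^ 2 ≤ ε) (hδ : 0 < δ) (hδη : δ ≤ η) (hB : 2 ≤ B)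
    (hBP : 4 * α * A + |Cq| + 2 * ε + 1 ≤ e / 6 * (B - 1) ^ 2) {M₀ : ℕ}
    (hM : (M₀ : ℝ) ≤ α * N) (hM' : α * N < M₀ + 1)
    (hphi : |phiK k f q| ≤ A)
    (hclose : ∀ M σ, |fr S f (M + 1) k N σ - fr S f M k N σ| ≤ A / N)
    (hinc : ∀ M σ, N * (fr S f (M + 1) k N σ - fr S f M k N σ)
      ≤ phiK k f (qf S f M k N σ) + C * tot S f M k N σ)
    (hsync : ∀ M < M₀, ∀ a : Fin k → ℝ, (∀ i, η ≤ a i ∧ a i ≤ B) →
      boxAvg k a δ (fun σ => tot S f M k N σ) ≤ Se)
    (hinit : ∀ σ : ℕ → ℝ, (∀ l, 0 ≤ σ l ∧ σ l ≤ B + 1) →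
      fr S f 0 k N σ ≤ Cq - (∑ j ∈ Finset.Icc 1 k, tail k q j * σ j ^ 2) / 2 + ε)
    (hsmall : (4 * A + 1) / N + (2 * ((B + 1) * k) + 1) * δ ≤ e * (e * η / 4) * η / 4) :
    fr S f M₀ k N (fun _ => 0) ≤ Cq + α * phiK k f q + 2 * ε
      + α * (D ^ 2 * e + C * Se) + (α + A) / N := by
  have hN1 := hN
  have hN : 0 < N := lt_of_lt_of_le one_pos hN1
  set θ := 1 / N ^ 2 with hθ
  have hθ1 : θ ≤ 1 / N :=
    one_div_le_one_div_of_le hN (le_self_pow₀ hN1
      two_ne_zero)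
  have hh1 : e * η / 4 ≤ η := by
    linarith [mul_le_of_le_one_left hη.le he1]
  have hbox : ∀ a ∈ Set.pi Set.univ (fun _ : Fin k => Set.Icc η B),
      ∀ i, 0 ≤ a i ∧ a i + δ ≤ B + 1 := fun a ha i =>
    ⟨by linarith [(ha i trivial).1], by linarith [(ha i trivial).2]⟩
  have hap := apriori hclose
  have hMA : ∀ M ≤ M₀, (M : ℝ) * (A / N) ≤ α * A ∧ (M : ℝ) / N ≤ α := by
    intro M h
    have hM'' : (M : ℝ) ≤ α * N := le_trans (Nat.cast_le.2 h) hM
    refine ⟨?_, (div_le_iff₀ hN).2 hM''⟩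
    calc (M : ℝ) * (A / N) ≤ α * N * (A / N) :=
          mul_le_mul_of_nonneg_right hM'' (by positivity)
      _ = α * A := by field_simp
  have hint : ∀ M, ∀ a ∈ Set.pi Set.univ (fun _ : Fin k => Set.Icc η B), ∀ c : ℝ,
      (∀ y ∈ boxSet a δ, fr S f M k N (lift y) ≤ c) →
      boxAvg k a δ (fr S f M k N) ≤ c := by
    intro M a ha c h
    obtain ⟨hp, hae⟩ := boxP_facts a hδ
    have := integral_mono_ae (integrable_fr hD hN hP hm hL (M := M) hδ
      (by linarith : (0 : ℝ) ≤ B + 1) (hbox a ha)) (integrable_const c)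
      (by filter_upwards [hae] with y hy using h y hy)
    rwa [integral_const, probReal_univ, one_smul, ← boxAvg_eq] at this
  have hzero : ∀ a ∈ Set.pi Set.univ (fun _ : Fin k => Set.Icc η B),
      upObj S f q Cq N δ (e / 6) 0 a ≤ ε := by
    intro a ha
    have := hint 0 a ha _ fun y hy =>
      start_bound hq (by linarith : (0 : ℝ) ≤ B + 1) hinit (hbox a ha) hy
    have : 0 ≤ e / 6 * ∑ i, a i ^ 2 := by positivity
    simp only [upObj, Nat.cast_zero, zero_div]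
    linarith
  have hJ : ∀ M ≤ M₀, ∀ a ∈ Set.pi Set.univ (fun _ : Fin k => Set.Icc η B),
      upObj S f q Cq N δ (e / 6) M a ≤ ε + 2 * α * A - e / 6 * ∑ i, a i ^ 2 := by
    intro M h a ha
    have h4 : -(α * A) ≤ (M : ℝ) / N * phiK k f q := by
      have h0 : (0 : ℝ) ≤ (M : ℝ) / N := by positivity
      linarith [mul_le_mul_of_nonneg_left (abs_le.1 hphi).1 h0,
        mul_le_mul_of_nonneg_right (hMA M h).2 hA0]
    have := hint M a ha (lq k f q Cq 0 a + ε + α * A) fun y hy => by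
      linarith [start_bound hq (by linarith : (0 : ℝ) ≤ B + 1) hinit (hbox a ha) hy,
        (abs_le.1 (hap M (lift y))).2, (hMA M h).1]
    simp only [upObj, lq] at this ⊢
    linarith
  have hlow : ∀ M ≤ M₀, ε + 2 * α * A + θ - e / 6 * (B - e * η / 4) ^ 2
      ≤ upObj (k := k) S f q Cq N δ (e / 6) M fun _ => η := by
    intro M h
    have h1 := (abs_le.1 (zero_close hD hN hP hm hL hδ hη hδη M)).1
    have h2 := (abs_le.1 (hap M fun _ => 0)).1
    rw [fr_zero hS, sub_zero] at h2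
    have h0 : (0 : ℝ) ≤ (M : ℝ) / N := by positivity
    have h4 : (M : ℝ) / N * phiK k f q ≤ α * A :=
      (mul_le_mul_of_nonneg_left (abs_le.1 hphi).2 h0).trans
        (mul_le_mul_of_nonneg_right (hMA M h).2 hA0)
    have h5 : e / 6 * (B - 1) ^ 2 ≤ e / 6 * (B - e * η / 4) ^ 2 :=
      mul_le_mul_of_nonneg_left (pow_le_pow_left₀ (by linarith) (by linarith) 2) (by positivity)
    have h6 : 0 ≤ ∑ i : Fin k, tail k q ((i : ℕ) + 1) * η ^ 2 :=
      sum_nonneg fun i _ => mul_nonneg (tail_mem hq (by omega)).1 (sq_nonneg _)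
    have h7 : θ ≤ 1 := hθ1.trans (by
      rwa [div_le_one hN])
    simp only [upObj, lq, sum_const, card_univ, Fintype.card_fin, nsmul_eq_mul] at h6 ⊢
    linarith [(hMA M h).1, le_abs_self Cq]
  have hfin := upper_chain hD hN hP hm hL hS hq hδ he hη (by linarith) rfl rfl hh1
    (hh1.trans hη1) (by positivity) hC hclose hinc
    (fun p hp h => (hPhi.1 f D hf hDer k p q hp hq).2.1 e he.le h) hsync hzero hJ hlow (by
      have e1 : (4 * A + 1) / N = 4 * (A / N) + 1 / N := by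
        ring
      have : (B + δ) * k * δ ≤ (B + 1) * k * δ := by
        gcongr
        exact hδη.trans hη1
      have : 0 ≤ A / N := by positivity
      linarith) M₀ le_rfl (fun _ => η) (fun i _ => ⟨le_rfl, by linarith⟩)
  have h1 := (abs_le.1 (zero_close hD hN hP hm hL hδ hη hδη M₀)).1
  have hE : 0 ≤ D ^ 2 * e + C * Se := by positivity
  have h3 : (M₀ : ℝ) * (θ + (D ^ 2 * e + C * Se) / N)
      ≤ α / N + α * (D ^ 2 * e + C * Se) := by
    refine (mul_le_mul_of_nonneg_right hM (by positivity)).trans_eq ?_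
    rw [hθ]; field_simp
  have h4 : (M₀ : ℝ) / N * phiK k f q ≤ α * phiK k f q + A / N := by
    have hd : |(M₀ : ℝ) / N - α| ≤ 1 / N := by
      rw [div_sub' hN.ne', abs_div, abs_of_pos hN]
      exact div_le_div_of_nonneg_right (abs_le.2 ⟨by linarith, by linarith⟩) hN.le
    have := mul_le_mul hd hphi (abs_nonneg _) (by positivity)
    rw [← abs_mul, one_div_mul_eq_div] at this
    linarith [(abs_le.1 this).2]
  have h6 : 0 ≤ ∑ i : Fin k, tail k q ((i : ℕ) + 1) * η ^ 2 :=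
    sum_nonneg fun i _ => mul_nonneg (tail_mem hq (by omega)).1 (sq_nonneg _)
  simp only [upObj, lq, sum_const, card_univ, Fintype.card_fin, nsmul_eq_mul] at hfin
  rw [add_div]
  linarith

/-- The upper bound for a family of leaves. -/
theorem upper_gen (hD : DerivStmt) (hPat : PatternStmt) (hPhi : PhiStmt) {f : ℝ → ℝ} (hf : Good f)
    {α : ℝ} (hα : 0 < α) {d : ℕ → ℕ} (S : ∀ m, Leaf (d m)) (hS : ∀ m, UnitLeaf (S m))
    (hP : ∀ (m M k : ℕ) (σ : ℕ → ℝ), IsPath k (qf (S m) f M k ((m : ℝ) + 1) σ))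
    (hSync : ∃ Cs : ℝ, 0 ≤ Cs ∧ ∀ (k : ℕ) (η B δ T ε : ℝ), 0 < η → 0 < δ → 0 < ε →
      ∃ N₀ : ℕ, ∀ m : ℕ, N₀ ≤ m → ∀ M : ℕ, (M : ℝ) ≤ T * m →
        ∀ a : Fin k → ℝ, (∀ i, η ≤ a i ∧ a i ≤ B) →
          boxAvg k a δ (fun σ => tot (S m) f M k ((m : ℝ) + 1) σ) ≤ Cs / √(k + 1) + ε) :
    ∃ C : ℝ, ∀ (k : ℕ) (q : ℕ → ℝ) (Cq : ℝ), IsPath k q →
      (∀ R ε : ℝ, 0 ≤ R → 0 < ε → ∃ N₀ : ℕ, ∀ m, N₀ ≤ m →
        ∀ σ : ℕ → ℝ, (∀ l, 0 ≤ σ l ∧ σ l ≤ R) → fr (S m) f 0 k ((m : ℝ) + 1) σ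
          ≤ Cq - (∑ j ∈ Finset.Icc 1 k, tail k q j * σ j ^ 2) / 2 + ε) →
      ∀ ε : ℝ, 0 < ε → ∀ᶠ m in Filter.atTop,
        fr (S m) f ⌊α * ((m : ℝ) + 1)⌋₊ k ((m : ℝ) + 1) (fun _ => 0)
          ≤ Cq + α * phiK k f q + C / √((k : ℝ) + 1) + ε := by
  obtain ⟨L, hL⟩ := hf.2.exists_bound_of_continuous hf.1.continuous
  simp only [Real.norm_eq_abs] at hL
  obtain ⟨D, hDer⟩ := hf.2.deriv.exists_bound_of_continuous (hf.1.continuous_deriv (by norm_num))
  simp only [Real.norm_eq_abs] at hDer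
  have hm : Measurable f := hf.1.continuous.measurable
  have hL0 : 0 ≤ L := (abs_nonneg _).trans (hL 0)
  obtain ⟨C, hC0, hC⟩ := hPat f hf
  obtain ⟨Cs, hCs0, hCs⟩ := hSync
  refine ⟨α * C * Cs, fun k q Cq hq hinit ε hε => ?_⟩
  set A := exp (8 * L) * L + 2 * C with hAdef
  have hA0 : 0 ≤ A := by positivity
  obtain ⟨e, he, he1, he2⟩ : ∃ e, 0 < e ∧ e ≤ 1 ∧ α * (D ^ 2 * e) ≤ ε / 8 := by
    refine ⟨min 1 (ε / (8 * (α * (D ^ 2 + 1)))), by positivity, min_le_left _ _, ?_⟩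
    have h := min_le_right 1 (ε / (8 * (α * (D ^ 2 + 1))))
    rw [le_div_iff₀ (by positivity)] at h
    have h0 : (0 : ℝ) ≤ α * min 1 (ε / (8 * (α * (D ^ 2 + 1)))) := by positivity
    linarith
  set εs := ε / (8 * (α * (C + 1))) with hεs
  have hεs0 : 0 < εs := by positivity
  have hεs1 : α * (C * εs) ≤ ε / 8 := by
    have : α * (C + 1) * εs = ε / 8 := by rw [hεs]; field_simp
    linarith [mul_nonneg hα.le hεs0.le]
  obtain ⟨B, hB, hBP⟩ : ∃ B, 2 ≤ B ∧
      4 * α * A + |Cq| + 2 * (ε / 8) + 1 ≤ e / 6 * (B - 1) ^ 2 := by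
    set P := 4 * α * A + |Cq| + 2 * (ε / 8) + 1
    refine ⟨√(P / (e / 6)) + 2, le_add_of_nonneg_left (sqrt_nonneg _), ?_⟩
    have h : √(P / (e / 6)) ^ 2 ≤ (√(P / (e / 6)) + 2 - 1) ^ 2 :=
      pow_le_pow_left₀ (sqrt_nonneg _) (by linarith) 2
    rw [sq_sqrt (by positivity), div_le_iff₀ (by positivity)] at h
    linarith
  obtain ⟨η, hη, hη1, hη2⟩ : ∃ η : ℝ, 0 < η ∧ η ≤ 1 ∧
      (k : ℝ) * (e / 6 + 4) * η ^ 2 ≤ ε / 8 := by
    refine ⟨min 1 (ε / (8 * ((k : ℝ) * (e / 6 + 4) + 1))), by positivity, min_le_left _ _, ?_⟩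
    set η := min 1 (ε / (8 * ((k : ℝ) * (e / 6 + 4) + 1))) with h
    have h1 : η ≤ 1 := min_le_left _ _
    have h2 : η ≤ ε / (8 * ((k : ℝ) * (e / 6 + 4) + 1)) := min_le_right _ _
    rw [le_div_iff₀ (by positivity)] at h2
    have h0 : 0 ≤ η := by positivity
    have hX : 0 ≤ (k : ℝ) * (e / 6 + 4) := by positivity
    nlinarith [mul_le_mul_of_nonneg_left (mul_le_of_le_one_left h0 h1) hX]
  set W := e * (e * η / 4) * η / 4 with hW
  obtain ⟨δ, hδ, hδη, hδs⟩ : ∃ δ, 0 < δ ∧ δ ≤ η ∧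
      (2 * ((B + 1) * k) + 1) * δ ≤ W / 2 := by
    refine ⟨min η (W / 2 / (2 * ((B + 1) * k) + 1)), by positivity, min_le_left _ _, ?_⟩
    have := min_le_right η (W / 2 / (2 * ((B + 1) * k) + 1))
    rw [le_div_iff₀ (by positivity)] at this
    linarith
  obtain ⟨N₁, hN₁⟩ := hinit (B + 1) (ε / 8) (by linarith) (by linarith)
  obtain ⟨N₂, hN₂⟩ := hCs k η B δ (α + 1) εs hη hδ hεs0
  obtain ⟨N₃, hN₃⟩ := exists_nat_ge (max α (max ((4 * A + 1) / (W / 2)) ((α + A) / (ε / 8))))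
  rw [max_le_iff, max_le_iff] at hN₃
  rw [Filter.eventually_atTop]
  refine ⟨max N₁ (max N₂ N₃), fun m hmN => ?_⟩
  have hN : (0 : ℝ) < (m : ℝ) + 1 := by positivity
  have hNr : (N₃ : ℝ) ≤ m := Nat.cast_le.2 (by omega)
  have hNA : (4 * A + 1) / ((m : ℝ) + 1) ≤ W / 2 := by
    rw [div_le_iff₀ hN, mul_comm (W / 2), ← div_le_iff₀ (by positivity)]
    linarith [hN₃.2.1]
  have hNε : (α + A) / ((m : ℝ) + 1) ≤ ε / 8 := by
    rw [div_le_iff₀ hN, mul_comm (ε / 8), ← div_le_iff₀ (by positivity)]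
    linarith [hN₃.2.2]
  have hinc : ∀ (M : ℕ) (σ : ℕ → ℝ),
      |((m : ℝ) + 1) * (fr (S m) f (M + 1) k ((m : ℝ) + 1) σ - fr (S m) f M k ((m : ℝ) + 1) σ)
        - phiK k f (qf (S m) f M k ((m : ℝ) + 1) σ)| ≤ C * tot (S m) f M k ((m : ℝ) + 1) σ := by
    intro M σ
    have h := (hC (d m) M k (S m) ((m : ℝ) + 1) σ (fun _ => 0) (qf (S m) f M k ((m : ℝ) + 1) σ)
      hN (hP m M k σ) (fun x => by rw [(hS m).same]; exact (hS m).unit x)).1
    simp only [(hS m).same] at h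
    rw [mul_assoc C] at h
    exact h
  have hclose : ∀ (M : ℕ) (σ : ℕ → ℝ),
      |fr (S m) f (M + 1) k ((m : ℝ) + 1) σ - fr (S m) f M k ((m : ℝ) + 1) σ|
        ≤ A / ((m : ℝ) + 1) := by
    intro M σ
    rw [le_div_iff₀ hN]
    suffices h : |((m : ℝ) + 1) *
        (fr (S m) f (M + 1) k ((m : ℝ) + 1) σ - fr (S m) f M k ((m : ℝ) + 1) σ)| ≤ A by
      rwa [abs_mul, abs_of_pos hN, mul_comm] at h
    have h1 := hinc M σ
    have h2 := abs_phiK_le hPhi hm hL (hP m M k σ)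
    have h3 := mul_le_mul_of_nonneg_left
      ((le_abs_self _).trans ((reg (hS m) hN.le hm hL M k).2 σ)) hC0
    rw [abs_le] at h1 h2 ⊢
    constructor <;> linarith
  have hmain := upper_at (S := S m) hD (by linarith : (1 : ℝ) ≤ (m : ℝ) + 1)
    (fun M σ => hP m M k σ) (hS m) hPhi hm (Se := Cs / √((k : ℝ) + 1) + εs) (ε := ε / 8)
    hL hf hDer hα hC0 (by positivity) hq hA0 he he1 hη hη1 hη2 hδ hδη hB hBP
    (Nat.floor_le (by positivity)) (Nat.lt_floor_add_one _)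
    ((abs_phiK_le hPhi hm hL hq).trans (by linarith)) hclose
    (fun M σ => by linarith [(abs_le.1 (hinc M σ)).2])
    (fun M hM a ha => hN₂ m (by omega) M (by
      have h1 : (M : ℝ) + 1 ≤ (⌊α * ((m : ℝ) + 1)⌋₊ : ℝ) := by exact_mod_cast hM
      have : (⌊α * ((m : ℝ) + 1)⌋₊ : ℝ) ≤ α * ((m : ℝ) + 1) := Nat.floor_le (by positivity)
      linarith [hN₃.1, (Nat.cast_nonneg N₃ : (0 : ℝ) ≤ N₃)]) a ha)
    (hN₁ m (by omega)) (by linarith)
  have h5 : α * C * Cs / √((k : ℝ) + 1) = α * (C * (Cs / √((k : ℝ) + 1))) := by ring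
  linarith

end Vale.Agent.P157.Rsb.Gen
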