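import Vale.Agent.P150.Gauss
import Vale.Agent.P157.Rsb.Nest

/-!
# P157: one step of the recursion for a single spin

`hT m a f` is the log-Laplace transform of `f` along a Gaussian of variance `a`, and `tE m a f φ` the
matching tilted average of `φ`.
-/

open MeasureTheory ProbabilityTheory Real Filter Topology

namespace Vale.Agent.P157.Cube2

/-- The standard Gaussian measure. -/
noncomputable abbrev γ₁ : Measure ℝ := gaussianReal 0 1

/-- The weighted integral. -/
noncomputable def num (m a : ℝ) (f φ : ℝ → ℝ) (h : ℝ) : ℝ :=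
  ∫ y, φ (h + √a * y) * exp (m * f (h + √a * y)) ∂γ₁

/-- The normalisation. -/
noncomputable def den (m a : ℝ) (f : ℝ → ℝ) (h : ℝ) : ℝ := ∫ y, exp (m * f (h + √a * y)) ∂γ₁

/-- The tilted average. -/
noncomputable def tE (m a : ℝ) (f φ : ℝ → ℝ) (h : ℝ) : ℝ := num m a f φ h / den m a f h

/-- The log-Laplace step. -/
noncomputable def hT (m a : ℝ) (f : ℝ → ℝ) (h : ℝ) : ℝ := log (den m a f h) / m

/-- The covariance under the tilt. -/
noncomputable def tC (m a : ℝ) (f φ ψ : ℝ → ℝ) (h : ℝ) : ℝ :=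
  tE m a f (fun x => φ x * ψ x) h - tE m a f φ h * tE m a f ψ h

/-- Admissible potential: differentiable with a continuous derivative bounded by one. -/
structure Pot (f : ℝ → ℝ) : Prop where
  diff : Differentiable ℝ f
  dcont : Continuous (deriv f)
  dle : ∀ x, |deriv f x| ≤ 1

/-- Bounded with `n` bounded continuous derivatives. -/
def Bd : ℕ → ℝ → (ℝ → ℝ) → Prop
  | 0, C, φ => Continuous φ ∧ ∀ x, |φ x| ≤ C
  | n + 1, C, φ => Differentiable ℝ φ ∧ (∀ x, |φ x| ≤ C) ∧ Bd n C (deriv φ)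

theorem Bd.cont {n : ℕ} {C : ℝ} {φ : ℝ → ℝ} (h : Bd n C φ) : Continuous φ := by
  cases n with
  | zero => exact h.1
  | succ n => exact h.1.continuous

theorem Bd.abs_le {n : ℕ} {C : ℝ} {φ : ℝ → ℝ} (h : Bd n C φ) (x : ℝ) : |φ x| ≤ C := by
  cases n with
  | zero => exact h.2 x
  | succ n => exact h.2.1 x

theorem Bd.nonneg {n : ℕ} {C : ℝ} {φ : ℝ → ℝ} (h : Bd n C φ) : 0 ≤ C :=
  (abs_nonneg _).trans (h.abs_le 0)

theorem Bd.mono : ∀ {n : ℕ} {C D : ℝ} {φ : ℝ → ℝ}, Bd n C φ → C ≤ D → Bd n D φ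
  | 0, _, _, _, h, hCD => ⟨h.1, fun x => (h.2 x).trans hCD⟩
  | _ + 1, _, _, _, h, hCD => ⟨h.1, fun x => (h.2.1 x).trans hCD, Bd.mono h.2.2 hCD⟩

theorem Bd.down : ∀ {n : ℕ} {C : ℝ} {φ : ℝ → ℝ}, Bd (n + 1) C φ → Bd n C φ
  | 0, _, _, h => ⟨h.1.continuous, h.2.1⟩
  | _ + 1, _, _, h => ⟨h.1, h.2.1, Bd.down h.2.2⟩

theorem Bd.le_deg {n n' : ℕ} (hn : n' ≤ n) {C : ℝ} {φ : ℝ → ℝ} (h : Bd n C φ) : Bd n' C φ := by
  induction hn with
  | refl => exact h
  | step _ ih => exact ih h.down

theorem Bd.const : ∀ (n : ℕ) (c : ℝ), Bd n |c| fun _ => c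
  | 0, c => ⟨continuous_const, fun _ => le_rfl⟩
  | n + 1, c => ⟨differentiable_const c, fun _ => le_rfl, by
      rw [deriv_const']
      exact (Bd.const n 0).mono (by simp)⟩

theorem Bd.add : ∀ {n : ℕ} {C D : ℝ} {φ ψ : ℝ → ℝ}, Bd n C φ → Bd n D ψ →
    Bd n (C + D) fun x => φ x + ψ x
  | 0, _, _, _, _, h, h' => ⟨h.1.add h'.1, fun x => (abs_add_le _ _).trans (add_le_add (h.2 x) (h'.2 x))⟩
  | _ + 1, _, _, φ, ψ, h, h' => ⟨h.1.add h'.1,
      fun x => (abs_add_le _ _).trans (add_le_add (h.2.1 x) (h'.2.1 x)), by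
      rw [show deriv (fun x => φ x + ψ x) = fun x => deriv φ x + deriv ψ x from
        funext fun x => deriv_fun_add (h.1 x) (h'.1 x)]
      exact Bd.add h.2.2 h'.2.2⟩

theorem Bd.mul : ∀ {n : ℕ} {C D : ℝ} {φ ψ : ℝ → ℝ}, Bd n C φ → Bd n D ψ →
    Bd n (2 ^ n * (C * D)) fun x => φ x * ψ x
  | 0, _, _, _, _, h, h' => ⟨h.1.mul h'.1, fun x => by
      rw [abs_mul, pow_zero, one_mul]
      exact mul_le_mul (h.2 x) (h'.2 x) (abs_nonneg _) ((abs_nonneg _).trans (h.2 x))⟩
  | n + 1, C, D, φ, ψ, h, h' => ⟨h.1.mul h'.1, fun x => by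
      rw [abs_mul]
      refine (mul_le_mul (h.2.1 x) (h'.2.1 x) (abs_nonneg _) h.nonneg).trans ?_
      exact le_mul_of_one_le_left (mul_nonneg h.nonneg h'.nonneg) (one_le_pow₀ one_le_two), by
      rw [show deriv (fun x => φ x * ψ x) = fun x => deriv φ x * ψ x + φ x * deriv ψ x from
        funext fun x => deriv_fun_mul (h.1 x) (h'.1 x)]
      exact ((Bd.mul h.2.2 h'.down).add (Bd.mul h.down h'.2.2)).mono (le_of_eq (by ring))⟩

theorem Bd.sub {n : ℕ} {C D : ℝ} {φ ψ : ℝ → ℝ} (h : Bd n C φ) (h' : Bd n D ψ) :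
    Bd n (C + 2 ^ n * D) fun x => φ x - ψ x := by
  have h1 := h.add ((Bd.const n (-1)).mul h')
  simp only [neg_mul, one_mul, ← sub_eq_add_neg, abs_neg, abs_one] at h1
  exact h1

section

variable {m a : ℝ} {f : ℝ → ℝ}

theorem int_exp_abs (c : ℝ) : Integrable (fun y : ℝ => exp (c * |y|)) γ₁ := by
  have h1 : Integrable (fun y : ℝ => exp (c * y)) γ₁ := integrable_exp_mul_gaussianReal c
  have h2 : Integrable (fun y : ℝ => exp (-c * y)) γ₁ := integrable_exp_mul_gaussianReal (-c)
  refine (h1.add h2).mono' (by fun_prop) (ae_of_all _ fun y => ?_)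
  simp only [Real.norm_eq_abs, Real.abs_exp, Pi.add_apply]
  rcases abs_choice y with e | e
  · rw [e]; linarith [exp_pos (-c * y)]
  · rw [e, show c * -y = -c * y by ring]; linarith [exp_pos (c * y)]

theorem Pot.growth (hf : Pot f) (x z : ℝ) : |f z - f x| ≤ |z - x| := by
  have := Convex.norm_image_sub_le_of_norm_deriv_le (f := f) (s := Set.univ) (C := 1)
    (fun y _ => hf.diff y) (fun y _ => hf.dle y) convex_univ (Set.mem_univ x) (Set.mem_univ z)
  simpa using this

theorem Pot.bound (hf : Pot f) (h h' y : ℝ) :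
    m * f (h' + √a * y) ≤ |m| * (|f h| + |h' - h|) + |m| * √a * |y| := by
  have h1 := hf.growth h (h' + √a * y)
  have h2 : |h' + √a * y - h| ≤ |h' - h| + √a * |y| := by
    rw [show h' + √a * y - h = (h' - h) + √a * y by ring]
    refine (abs_add_le _ _).trans ?_
    rw [abs_mul, abs_of_nonneg (sqrt_nonneg a)]
  have h3 : |f (h' + √a * y)| ≤ |f h| + (|h' - h| + √a * |y|) := by
    have := abs_sub_abs_le_abs_sub (f (h' + √a * y)) (f h)
    linarith
  calc m * f (h' + √a * y) ≤ |m * f (h' + √a * y)| := le_abs_self _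
    _ = |m| * |f (h' + √a * y)| := abs_mul _ _
    _ ≤ |m| * (|f h| + (|h' - h| + √a * |y|)) := mul_le_mul_of_nonneg_left h3 (abs_nonneg m)
    _ = _ := by ring

theorem int_num (hf : Pot f) {φ : ℝ → ℝ} (hφ : Continuous φ) {C : ℝ} (hC : ∀ x, |φ x| ≤ C) (h : ℝ) :
    Integrable (fun y => φ (h + √a * y) * exp (m * f (h + √a * y))) γ₁ := by
  refine (((int_exp_abs (|m| * √a)).const_mul (C * exp (|m| * |f h|)))).mono'
    (Continuous.aestronglyMeasurable (by have := hf.diff.continuous; fun_prop)) (ae_of_all _ fun y => ?_)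
  rw [Real.norm_eq_abs, abs_mul, Real.abs_exp, mul_assoc, ← exp_add]
  refine mul_le_mul (hC _) (exp_le_exp.2 ?_) (exp_pos _).le ((abs_nonneg _).trans (hC 0))
  simpa using hf.bound (m := m) (a := a) h h y

theorem int_wt (hf : Pot f) (h : ℝ) : Integrable (fun y => exp (m * f (h + √a * y))) γ₁ := by
  simpa using int_num (m := m) (a := a) hf (continuous_const (y := (1 : ℝ))) (C := 1) (by simp) h

theorem den_pos (hf : Pot f) (h : ℝ) : 0 < den m a f h :=
  integral_exp_pos (int_wt hf h)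

theorem num_one (h : ℝ) : num m a f (fun _ => 1) h = den m a f h := by simp [num, den]

theorem tE_const (hf : Pot f) (c h : ℝ) : tE m a f (fun _ => c) h = c := by
  simp only [tE, num, den, integral_const_mul]
  exact mul_div_cancel_right₀ c (den_pos hf h).ne'

theorem tE_add (hf : Pot f) {φ ψ : ℝ → ℝ} {C D : ℝ} {i j : ℕ} (hφ : Bd i C φ) (hψ : Bd j D ψ) (h : ℝ) :
    tE m a f (fun x => φ x + ψ x) h = tE m a f φ h + tE m a f ψ h := by
  simp only [tE, num, add_mul]
  rw [integral_add (int_num hf hφ.cont hφ.abs_le h) (int_num hf hψ.cont hψ.abs_le h), add_div]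

theorem tE_const_mul (c : ℝ) (φ : ℝ → ℝ) (h : ℝ) :
    tE m a f (fun x => c * φ x) h = c * tE m a f φ h := by
  simp only [tE, num, mul_assoc, integral_const_mul, mul_div_assoc]

theorem tE_sum (hf : Pot f) {ι : Type} (S : Finset ι) {φ : ι → ℝ → ℝ}
    (hφ : ∀ i ∈ S, ∃ C, Bd 0 C (φ i)) (h : ℝ) :
    tE m a f (fun x => ∑ i ∈ S, φ i x) h = ∑ i ∈ S, tE m a f (φ i) h := by
  simp only [tE, num, Finset.sum_mul]
  rw [integral_finsetSum _ fun i hi => ?_, Finset.sum_div]
  obtain ⟨C, hC⟩ := hφ i hi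
  exact int_num hf hC.cont hC.abs_le h

theorem tE_mono (hf : Pot f) {φ ψ : ℝ → ℝ} {C D : ℝ} {i j : ℕ} (hφ : Bd i C φ) (hψ : Bd j D ψ)
    (hle : ∀ x, φ x ≤ ψ x) (h : ℝ) : tE m a f φ h ≤ tE m a f ψ h :=
  div_le_div_of_nonneg_right (integral_mono (int_num hf hφ.cont hφ.abs_le h)
    (int_num hf hψ.cont hψ.abs_le h) fun y => mul_le_mul_of_nonneg_right (hle _) (exp_pos _).le)
    (den_pos hf h).le

theorem abs_tE_le (hf : Pot f) {φ : ℝ → ℝ} {C : ℝ} (hc : Continuous φ) (hC : ∀ x, |φ x| ≤ C) (h : ℝ) :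
    |tE m a f φ h| ≤ C := by
  rw [tE, abs_div, abs_of_pos (den_pos hf h), div_le_iff₀ (den_pos hf h), den, ← integral_const_mul]
  refine (abs_integral_le_integral_abs).trans (integral_mono (int_num hf hc hC h).abs
    ((int_wt hf h).const_mul C) fun y => ?_)
  simp only [abs_mul, Real.abs_exp]
  exact mul_le_mul_of_nonneg_right (hC _) (exp_pos _).le

theorem hasDerivAt_num (hf : Pot f) {φ : ℝ → ℝ} {C : ℝ} (hφ : Bd 1 C φ) (h : ℝ) :
    HasDerivAt (num m a f φ) (num m a f (fun x => deriv φ x + m * (φ x * deriv f x)) h) h := by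
  have hfc := hf.diff.continuous
  have hdc := hf.dcont
  have hpc := hφ.cont
  have hdp : Continuous (deriv φ) := hφ.2.2.cont
  have hb : ∀ x, |deriv φ x + m * (φ x * deriv f x)| ≤ C + |m| * C := fun x => by
    refine (abs_add_le _ _).trans (add_le_add (hφ.2.2.abs_le x) ?_)
    rw [abs_mul, abs_mul]
    refine mul_le_mul_of_nonneg_left ?_ (abs_nonneg m)
    exact (mul_le_mul (hφ.abs_le x) (hf.dle x) (abs_nonneg _) hφ.nonneg).trans_eq (mul_one C)
  exact (hasDerivAt_integral_of_dominated_loc_of_deriv_le (μ := γ₁) (x₀ := h) (s := Metric.ball h 1)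
    (F := fun h' y => φ (h' + √a * y) * exp (m * f (h' + √a * y)))
    (F' := fun h' y => (deriv φ (h' + √a * y) + m * (φ (h' + √a * y) * deriv f (h' + √a * y)))
      * exp (m * f (h' + √a * y)))
    (bound := fun y => (C + |m| * C) * exp (|m| * (|f h| + 1)) * exp (|m| * √a * |y|))
    (Metric.ball_mem_nhds h one_pos)
    (Eventually.of_forall fun h' => (by fun_prop : Continuous fun y =>
      φ (h' + √a * y) * exp (m * f (h' + √a * y))).aestronglyMeasurable)
    (int_num hf hpc hφ.abs_le h) (by fun_prop : Continuous fun y => (deriv φ (h + √a * y)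
      + m * (φ (h + √a * y) * deriv f (h + √a * y))) * exp (m * f (h + √a * y))).aestronglyMeasurable
    (ae_of_all _ fun y h' hh => by
      rw [Real.norm_eq_abs, abs_mul, Real.abs_exp, mul_assoc _ (exp _) (exp _), ← exp_add]
      refine mul_le_mul (hb _) (exp_le_exp.2 ((hf.bound (m := m) (a := a) h h' y).trans ?_))
        (exp_pos _).le ((abs_nonneg _).trans (hb 0))
      have : |h' - h| ≤ 1 := by
        rw [Metric.mem_ball, Real.dist_eq] at hh; linarith
      have := mul_le_mul_of_nonneg_left this (abs_nonneg m)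
      linarith)
    ((int_exp_abs _).const_mul _)
    (ae_of_all _ fun y h' _ => by
      have h1 : HasDerivAt (fun t => t + √a * y) 1 h' := (hasDerivAt_id h').add_const _
      have h2 := (hφ.1 _).hasDerivAt.comp h' h1
      have h3 := (((hf.diff _).hasDerivAt.comp h' h1).const_mul m).exp
      exact (h2.mul h3).congr_deriv (by simp only [Function.comp_apply]; ring))).2

theorem hasDerivAt_den (hf : Pot f) (h : ℝ) :
    HasDerivAt (den m a f) (m * num m a f (deriv f) h) h := by
  have h1 := hasDerivAt_num (m := m) (a := a) hf ((Bd.const 1 1)) h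
  rw [show num m a f (fun _ => 1) = den m a f from funext num_one] at h1
  refine h1.congr_deriv ?_
  simp only [num, ← integral_const_mul]
  exact integral_congr_ae (ae_of_all _ fun y => by simp; ring)

theorem hasDerivAt_tE (hf : Pot f) {φ : ℝ → ℝ} {C : ℝ} (hφ : Bd 1 C φ) (h : ℝ) :
    HasDerivAt (tE m a f φ)
      (tE m a f (deriv φ) h + m * tC m a f φ (deriv f) h) h := by
  have h1 := (hasDerivAt_num (m := m) (a := a) hf hφ h).div (hasDerivAt_den (m := m) (a := a) hf h)
    (den_pos hf h).ne'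
  refine h1.congr_deriv ?_
  have hu : ∀ x, |φ x * deriv f x| ≤ C := fun x => by
    rw [abs_mul]
    exact (mul_le_mul (hφ.abs_le x) (hf.dle x) (abs_nonneg _) hφ.nonneg).trans_eq (mul_one C)
  have e : num m a f (fun x => deriv φ x + m * (φ x * deriv f x)) h
      = num m a f (deriv φ) h + m * num m a f (fun x => φ x * deriv f x) h := by
    simp only [num, add_mul, mul_assoc m]
    rw [integral_add (int_num hf hφ.2.2.cont hφ.2.2.abs_le h)
      ((int_num hf (hφ.cont.fun_mul hf.dcont) hu h).const_mul m), integral_const_mul]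
  simp only [tC, tE, e]
  field_simp [(den_pos (m := m) (a := a) hf h).ne']
  ring

theorem hasDerivAt_hT (hf : Pot f) (hm : m ≠ 0) (h : ℝ) :
    HasDerivAt (hT m a f) (tE m a f (deriv f) h) h := by
  refine (((hasDerivAt_den (m := m) (a := a) hf h).log (den_pos hf h).ne').div_const m).congr_deriv ?_
  rw [tE]; field_simp

theorem deriv_hT (hf : Pot f) (hm : m ≠ 0) : deriv (hT m a f) = tE m a f (deriv f) :=
  funext fun h => (hasDerivAt_hT hf hm h).deriv

theorem deriv_tE (hf : Pot f) {φ : ℝ → ℝ} {C : ℝ} (hφ : Bd 1 C φ) :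
    deriv (tE m a f φ) = fun h => tE m a f (deriv φ) h + m * tC m a f φ (deriv f) h :=
  funext fun h => (hasDerivAt_tE hf hφ h).deriv

theorem continuous_tE (hf : Pot f) {φ : ℝ → ℝ} {C : ℝ} (hc : Continuous φ) (hC : ∀ x, |φ x| ≤ C) :
    Continuous (tE m a f φ) := by
  refine Continuous.div ?_ ?_ fun h => (den_pos hf h).ne'
  · refine continuous_iff_continuousAt.2 fun h => ?_
    refine continuousAt_of_dominated
      (bound := fun y => C * exp (|m| * (|f h| + 1)) * exp (|m| * √a * |y|))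
      (Eventually.of_forall fun h' => (int_num hf hc hC h').aestronglyMeasurable) ?_
      ((int_exp_abs _).const_mul _) (ae_of_all _ fun y => ?_)
    · filter_upwards [Metric.ball_mem_nhds h one_pos] with h' hh
      refine ae_of_all _ fun y => ?_
      rw [Real.norm_eq_abs, abs_mul, Real.abs_exp, mul_assoc _ (exp _) (exp _), ← exp_add]
      refine mul_le_mul (hC _) (exp_le_exp.2 ((hf.bound (m := m) (a := a) h h' y).trans ?_))
        (exp_pos _).le ((abs_nonneg _).trans (hC 0))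
      have : |h' - h| ≤ 1 := by
        rw [Metric.mem_ball, Real.dist_eq] at hh; linarith
      have := mul_le_mul_of_nonneg_left this (abs_nonneg m)
      linarith
    · have := hf.diff.continuous
      exact (by fun_prop : Continuous fun h' : ℝ => φ (h' + √a * y) * exp (m * f (h' + √a * y))).continuousAt
  · exact continuous_iff_continuousAt.2 fun h => (hasDerivAt_den hf h).continuousAt

/-- Tilted averages of functions with bounded derivatives have bounded derivatives. -/
theorem bd_tE : ∀ (n : ℕ) (C : ℝ), ∃ D, ∀ (m a : ℝ) (f φ : ℝ → ℝ), |m| ≤ 1 → Pot f →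
    Bd n C (deriv f) → Bd n C φ → Bd n D (tE m a f φ) := by
  intro n
  induction n with
  | zero =>
    intro C
    exact ⟨C, fun m a f φ _ hf _ hφ => ⟨continuous_tE hf hφ.1 hφ.2, abs_tE_le hf hφ.1 hφ.2⟩⟩
  | succ n ih =>
    intro C
    obtain ⟨D₁, h₁⟩ := ih (max C (2 ^ n * (C * C)))
    set E := D₁ + 2 ^ n * (1 * (D₁ + 2 ^ n * (2 ^ n * (D₁ * D₁)))) with hE
    refine ⟨max C E, fun m a f φ hm hf hu hφ => ?_⟩
    have hφ1 : Bd 1 C φ := hφ.le_deg (by omega)
    refine ⟨fun h => (hasDerivAt_tE hf hφ1 h).differentiableAt,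
      fun x => (abs_tE_le hf hφ.cont hφ.abs_le x).trans (le_max_left _ _), ?_⟩
    rw [deriv_tE hf hφ1]
    have hb : ∀ {ψ : ℝ → ℝ}, Bd n (max C (2 ^ n * (C * C))) ψ → Bd n D₁ (tE m a f ψ) :=
      fun hψ => h₁ m a f _ hm hf (hu.down.mono (le_max_left _ _)) hψ
    have a1 := hb (hφ.2.2.mono (le_max_left _ _))
    have a2 := hb ((hφ.down.mul hu.down).mono (le_max_right _ _))
    have a3 := hb (hφ.down.mono (le_max_left _ _))
    have a4 := hb (hu.down.mono (le_max_left _ _))
    exact ((a1.add (((Bd.const n m).mono hm).mul (a2.sub (a3.mul a4)))).mono (le_max_right _ _))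

theorem heat (hf : Pot f) {φ : ℝ → ℝ} {C : ℝ} (hφ : Bd 2 C φ) (hu : Bd 1 C (deriv f)) (hm : m ≠ 0)
    (h : ℝ) :
    1 / 2 * deriv (deriv (tE m a f φ)) h + m * deriv (hT m a f) h * deriv (tE m a f φ) h
      = 1 / 2 * tE m a f (deriv (deriv φ)) h + m * tE m a f (fun x => deriv f x * deriv φ x) h
        + m / 2 * tC m a f φ (fun x => deriv (deriv f) x + m * deriv f x ^ 2) h := by
  have h1 : Bd 1 C φ := hφ.down
  have hp : Bd 1 C (deriv φ) := hφ.2.2
  have hpu := h1.mul hu
  rw [deriv_tE hf h1, deriv_hT hf hm]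
  have d1 := hasDerivAt_tE (m := m) (a := a) hf hp h
  have d2 := hasDerivAt_tE (m := m) (a := a) hf hpu h
  have d3 := hasDerivAt_tE (m := m) (a := a) hf h1 h
  have d4 := hasDerivAt_tE (m := m) (a := a) hf hu h
  have dd := d1.fun_add ((d2.fun_sub (d3.fun_mul d4)).const_mul m)
  have e : deriv (fun x => φ x * deriv f x) = fun x => deriv f x * deriv φ x + φ x * deriv (deriv f) x := by
    funext x; rw [deriv_fun_mul (hφ.1 x) (hu.1 x)]; ring
  have hA : Bd 0 _ fun x => deriv f x * deriv φ x := (hu.le_deg (Nat.zero_le 1)).mul (hp.le_deg (Nat.zero_le 1))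
  have hB : Bd 0 _ fun x => φ x * deriv (deriv f) x := (h1.le_deg (Nat.zero_le 1)).mul hu.2.2
  have hU : Bd 0 _ fun x => m * (deriv f x * deriv f x) :=
    (Bd.const 0 m).mul ((hu.le_deg (Nat.zero_le 1)).mul (hu.le_deg (Nat.zero_le 1)))
  have hPU : Bd 0 _ fun x => φ x * (m * (deriv f x * deriv f x)) := (h1.le_deg (Nat.zero_le 1)).mul hU
  have ea : tE m a f (deriv fun x => φ x * deriv f x) h
      = tE m a f (fun x => deriv f x * deriv φ x) h + tE m a f (fun x => φ x * deriv (deriv f) x) h := by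
    rw [e]; exact tE_add hf hA hB h
  have eb : tE m a f (fun x => φ x * (deriv (deriv f) x + m * deriv f x ^ 2)) h
      = tE m a f (fun x => φ x * deriv (deriv f) x) h
        + m * tE m a f (fun x => φ x * deriv f x * deriv f x) h := by
    rw [← tE_const_mul]
    simp only [sq, mul_add]
    rw [tE_add hf hB hPU]
    congr 2; funext x; ring
  have ec : tE m a f (fun x => deriv (deriv f) x + m * deriv f x ^ 2) h
      = tE m a f (deriv (deriv f)) h + m * tE m a f (fun x => deriv f x * deriv f x) h := by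
    rw [← tE_const_mul]
    simp only [sq]
    exact tE_add hf hu.2.2 hU h
  have ed : tE m a f (fun x => deriv φ x * deriv f x) h = tE m a f (fun x => deriv f x * deriv φ x) h := by
    simp only [mul_comm]
  have e2 : (fun h => tE m a f (deriv φ) h + m * tC m a f φ (deriv f) h) = fun h =>
      tE m a f (deriv φ) h + m * (tE m a f (fun x => φ x * deriv f x) h
        - tE m a f φ h * tE m a f (deriv f) h) := rfl
  rw [e2, dd.deriv]
  simp only [tC, ea, eb, ec, ed]
  ring

end

end Vale.Agent.P157.Cube2
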