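import Vale.Agent.P157.Cube2.Spin

/-!
# P157: the derivative of the single-spin overlaps along a line of variances

The coefficient `coef i l j` is the rate at which the level-`j` average of the squared magnetisation
of level `l` changes with `r i`, apart from the term carried by `r j` itself.
-/

open MeasureTheory ProbabilityTheory Real Filter Topology Finset
open Vale.Agent.P157.Rsb (lev mass)

namespace Vale.Agent.P157.Cube2

variable {k : ℕ} {r : ℕ → ℝ}

section

variable {m a : ℝ} {f : ℝ → ℝ}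

theorem tC_add (hf : Pot f) {φ ψ χ : ℝ → ℝ} {C D E : ℝ} (hφ : Bd 0 C φ) (hψ : Bd 0 D ψ)
    (hχ : Bd 0 E χ) (h : ℝ) :
    tC m a f φ (fun x => ψ x + χ x) h = tC m a f φ ψ h + tC m a f φ χ h := by
  simp only [tC, mul_add]
  rw [tE_add hf (hφ.mul hψ) (hφ.mul hχ), tE_add hf hψ hχ]
  ring

theorem tC_const_mul (c : ℝ) (φ ψ : ℝ → ℝ) (h : ℝ) :
    tC m a f φ (fun x => c * ψ x) h = c * tC m a f φ ψ h := by
  simp only [tC, mul_left_comm (φ _) c, tE_const_mul]
  ring

theorem tC_const (hf : Pot f) (c : ℝ) (φ : ℝ → ℝ) (h : ℝ) : tC m a f φ (fun _ => c) h = 0 := by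
  simp only [tC, tE_const hf, mul_comm _ c, tE_const_mul]
  ring

theorem tC_sum (hf : Pot f) {ι : Type} (S : Finset ι) {φ : ℝ → ℝ} {C : ℝ} (hφ : Bd 0 C φ)
    {ψ : ι → ℝ → ℝ} (hψ : ∀ i ∈ S, ∃ D, Bd 0 D (ψ i)) (h : ℝ) :
    tC m a f φ (fun x => ∑ i ∈ S, ψ i x) h = ∑ i ∈ S, tC m a f φ (ψ i) h := by
  simp only [tC, mul_sum]
  rw [tE_sum hf S (fun i hi => ?_), tE_sum hf S hψ, mul_sum, sum_sub_distrib]
  obtain ⟨D, hD⟩ := hψ i hi
  exact ⟨_, hφ.mul hD⟩

theorem bd0_tE (hf : Pot f) {φ : ℝ → ℝ} {C : ℝ} (hφ : Bd 0 C φ) : Bd 0 C (tE m a f φ) :=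
  ⟨continuous_tE hf hφ.1 hφ.2, abs_tE_le hf hφ.1 hφ.2⟩

theorem bd0_sum {ι : Type} (S : Finset ι) {φ : ι → ℝ → ℝ} {C : ι → ℝ}
    (h : ∀ i ∈ S, Bd 0 (C i) (φ i)) : Bd 0 (∑ i ∈ S, C i) fun x => ∑ i ∈ S, φ i x :=
  ⟨continuous_finsetSum _ fun i hi => (h i hi).1,
    fun x => (abs_sum_le_sum_abs _ _).trans (sum_le_sum fun i hi => (h i hi).2 x)⟩

theorem bd0_tC (hf : Pot f) {φ ψ : ℝ → ℝ} {C D : ℝ} (hφ : Bd 0 C φ) (hψ : Bd 0 D ψ) :
    Bd 0 (2 * (C * D)) (tC m a f φ ψ) :=
  ((bd0_tE hf (hφ.mul hψ)).sub ((bd0_tE hf hφ).mul (bd0_tE hf hψ))).mono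
    (le_of_eq (by simp; ring))

end

/-- The coefficients after `d` steps. -/
noncomputable def coefN (k : ℕ) (r : ℕ → ℝ) (i l : ℕ) : ℕ → ℝ → ℝ
  | 0 => if l < i then fun h => -mass k * (spinU k r l h * deriv (spinW k r i l) h)
      else if i = l then fun h => deriv (spinU k r l) h ^ 2 else fun _ => 0
  | d + 1 =>
    if i < l - d then fun _ => 0
    else fun h =>
      tE (lev k (l - d)) (r (l - d) - r (l - d - 1)) (spinF k r (l - d)) (coefN k r i l d) h
        + -(mass k * lev k (l - d) / 2) *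
          tC (lev k (l - d)) (r (l - d) - r (l - d - 1)) (spinF k r (l - d))
            (spinW k r i (l - d)) (spinW k r l (l - d)) h
        + (if i = l - d then -mass k else 0) *
          tE (lev k (l - d)) (r (l - d) - r (l - d - 1)) (spinF k r (l - d))
            (fun x => spinU k r (l - d) x * deriv (spinW k r l (l - d)) x) h

/-- The coefficient of `r i` in the level-`j` average for level `l`. -/
noncomputable def coef (k : ℕ) (r : ℕ → ℝ) (i l j : ℕ) : ℝ → ℝ := coefN k r i l (l - j)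

theorem coef_self (i l : ℕ) : coef k r i l l
    = if l < i then fun h => -mass k * (spinU k r l h * deriv (spinW k r i l) h)
      else if i = l then fun h => deriv (spinU k r l) h ^ 2 else fun _ => 0 := by
  simp [coef, coefN]

theorem coef_step {i l j : ℕ} (hj : 1 ≤ j) (hjl : j ≤ l) : coef k r i l (j - 1) =
    if i < j then fun _ => 0
    else fun h => tE (lev k j) (r j - r (j - 1)) (spinF k r j) (coef k r i l j) h
        + -(mass k * lev k j / 2) *
          tC (lev k j) (r j - r (j - 1)) (spinF k r j) (spinW k r i j) (spinW k r l j) h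
        + (if i = j then -mass k else 0) *
          tE (lev k j) (r j - r (j - 1)) (spinF k r j)
            (fun x => spinU k r j x * deriv (spinW k r l j) x) h := by
  simp only [coef, show l - (j - 1) = (l - j) + 1 by omega, coefN, show l - (l - j) = j by omega]

theorem coef_below {i l j : ℕ} (hij : i ≤ j) (hjl : j < l) : coef k r i l j = fun _ => 0 := by
  rw [show coef k r i l j = coef k r i l (j + 1 - 1) by simp, coef_step (by omega) (by omega),
    if_pos (by omega)]

theorem coef_low {i l j : ℕ} (hij : i < j) (hjl : j ≤ l) : coef k r i l j = fun _ => 0 := by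
  rcases hjl.lt_or_eq with h | h
  · exact coef_below hij.le h
  · subst h; rw [coef_self, if_neg (by omega), if_neg (by omega)]

theorem bd_coef {i l j : ℕ} (hjl : j ≤ l) (hl : l ≤ k) (hi : i ≤ k) :
    ∃ C, ∀ r, Bd 0 C (coef k r i l j) := by
  induction hd : l - j generalizing j with
  | zero =>
    have : j = l := by omega
    subst this
    obtain ⟨Cu, hu⟩ := bd_spinU (k := k) 1 hl
    by_cases h1 : j < i
    · obtain ⟨Cw, hw⟩ := bd_spinW (k := k) 1 h1.le hi
      exact ⟨_, fun r => by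
        rw [coef_self, if_pos h1]
        exact (Bd.const 0 (-mass k)).mul ((hu r).down.mul (hw r).2.2)⟩
    · by_cases h2 : i = j
      · exact ⟨Cu * Cu, fun r => by
          rw [coef_self, if_neg h1, if_pos h2]
          simpa only [sq, pow_zero, one_mul] using (hu r).2.2.mul (hu r).2.2⟩
      · exact ⟨_, fun r => by rw [coef_self, if_neg h1, if_neg h2]; exact Bd.const 0 0⟩
  | succ d ih =>
    by_cases h1 : i < j + 1
    · exact ⟨_, fun r => by
        rw [show coef k r i l j = coef k r i l (j + 1 - 1) by simp, coef_step (by omega) (by omega),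
          if_pos h1]
        exact Bd.const 0 0⟩
    · obtain ⟨C, hC⟩ := ih (j := j + 1) (by omega) (by omega)
      obtain ⟨Cu, hu⟩ := bd_spinU (k := k) 1 (show j + 1 ≤ k by omega)
      obtain ⟨Ci, hwi⟩ := bd_spinW (k := k) 1 (show j + 1 ≤ i by omega) hi
      obtain ⟨Cl, hwl⟩ := bd_spinW (k := k) 1 (show j + 1 ≤ l by omega) hl
      exact ⟨_, fun r => by
        rw [show coef k r i l j = coef k r i l (j + 1 - 1) by simp, coef_step (by omega) (by omega),
          if_neg h1]
        have hf := pot_spinF (r := r) (show j + 1 ≤ k by omega)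
        exact ((bd0_tE hf (hC r)).add ((Bd.const 0 _).mul (bd0_tC hf (hwi r).down (hwl r).down))).add
          ((Bd.const 0 _).mul (bd0_tE hf ((hu r).down.mul (hwl r).2.2)))⟩

/-- The extra rate of an observable carried by `r j`. -/
noncomputable def eOp (k : ℕ) (r : ℕ → ℝ) (j : ℕ) (φ : ℝ → ℝ) (h : ℝ) : ℝ :=
  -(1 / 2 * deriv (deriv φ) h + lev k (j + 1) * (spinU k r j h * deriv φ h))

/-- The rate of the value at level `j`. -/
noncomputable def rateF (k : ℕ) (r d : ℕ → ℝ) (j : ℕ) (h : ℝ) : ℝ :=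
  d k / 2 + -(mass k / 2) * ∑ i ∈ Ioc j k, d i * spinW k r i j h
    + -(d j / 2) * (deriv (spinU k r j) h + lev k (j + 1) * spinU k r j h ^ 2)

/-- The rate of the magnetisation at level `j`. -/
noncomputable def rateU (k : ℕ) (r d : ℕ → ℝ) (j : ℕ) (h : ℝ) : ℝ :=
  -(mass k / 2) * ∑ i ∈ Ioc j k, d i * deriv (spinW k r i j) h + d j * eOp k r j (spinU k r j) h

/-- The rate of the level-`j` average for level `l`. -/
noncomputable def rateW (k : ℕ) (r d : ℕ → ℝ) (l j : ℕ) (h : ℝ) : ℝ :=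
  ∑ i ∈ Icc 1 k, d i * coef k r i l j h + d j * eOp k r j (spinW k r l j) h

theorem bd_eOp {j : ℕ} (hj : j ≤ k) (C : ℝ) :
    ∃ D, ∀ r φ, Bd 2 C φ → Bd 0 D (eOp k r j φ) := by
  obtain ⟨Cu, hu⟩ := bd_spinU (k := k) 0 hj
  refine ⟨1 * (|(1 / 2 : ℝ)| * C + |lev k (j + 1)| * (Cu * C)), fun r φ hφ => ?_⟩
  refine ⟨?_, fun x => ?_⟩
  · have := hφ.2.2.2.2.cont; have := hφ.2.2.cont; have := (hu r).cont
    unfold eOp; fun_prop
  · simp only [eOp, abs_neg, one_mul]
    refine (abs_add_le _ _).trans (add_le_add ?_ ?_)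
    · rw [abs_mul]; exact mul_le_mul_of_nonneg_left (hφ.2.2.2.2.abs_le x) (abs_nonneg _)
    · rw [abs_mul, abs_mul]
      exact mul_le_mul_of_nonneg_left (mul_le_mul ((hu r).abs_le x) (hφ.2.2.abs_le x) (abs_nonneg _)
        (hu r).nonneg) (abs_nonneg _)

theorem bd_rates (d : ℕ → ℝ) {j : ℕ} (hj : j ≤ k) :
    ∃ D, ∀ r, Bd 0 D (rateF k r d j) ∧ Bd 0 D (rateU k r d j) := by
  obtain ⟨Cu, hu⟩ := bd_spinU (k := k) 2 hj
  have hw : ∀ i : ℕ, ∃ C, ∀ r, j < i → i ≤ k → Bd 1 C (spinW k r i j) := fun i => by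
    by_cases h : j < i ∧ i ≤ k
    · obtain ⟨C, hC⟩ := bd_spinW (k := k) 1 h.1.le h.2
      exact ⟨C, fun r _ _ => hC r⟩
    · exact ⟨0, fun r h1 h2 => absurd ⟨h1, h2⟩ h⟩
  choose C hC using hw
  obtain ⟨E, hE⟩ := bd_eOp hj Cu
  set S := ∑ i ∈ Ioc j k, |d i| * C i with hS
  refine ⟨max (|d k / 2| + |-(mass k / 2)| * S + |-(d j / 2)| * (Cu + |lev k (j + 1)| * (Cu * Cu)))
    (|-(mass k / 2)| * S + |d j| * E), fun r => ⟨?_, ?_⟩⟩
  · refine Bd.mono ?_ (le_max_left _ _)
    have hs : Bd 0 S fun h => ∑ i ∈ Ioc j k, d i * spinW k r i j h :=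
      bd0_sum _ fun i hi => by
        simpa using (Bd.const 0 (d i)).mul (hC i r (mem_Ioc.1 hi).1 (mem_Ioc.1 hi).2).down
    have h0 := ((Bd.const 0 (d k / 2)).add ((Bd.const 0 (-(mass k / 2))).mul hs)).add
      ((Bd.const 0 (-(d j / 2))).mul ((hu r).2.2.down.add ((Bd.const 0 (lev k (j + 1))).mul
        ((hu r).down.down.mul (hu r).down.down))))
    simp only [pow_zero, one_mul, ← sq] at h0
    rw [sq Cu] at h0
    exact h0
  · refine Bd.mono ?_ (le_max_right _ _)
    have hs : Bd 0 S fun h => ∑ i ∈ Ioc j k, d i * deriv (spinW k r i j) h :=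
      bd0_sum _ fun i hi => by
        simpa using (Bd.const 0 (d i)).mul (hC i r (mem_Ioc.1 hi).1 (mem_Ioc.1 hi).2).2.2
    have h0 := ((Bd.const 0 (-(mass k / 2))).mul hs).add ((Bd.const 0 (d j)).mul (hE r _ (hu r)))
    simp only [pow_zero, one_mul] at h0
    exact h0

theorem bd_rateW (d : ℕ → ℝ) {l j : ℕ} (hjl : j ≤ l) (hl : l ≤ k) :
    ∃ D, ∀ r, Bd 0 D (rateW k r d l j) := by
  have hc : ∀ i : ℕ, ∃ C, ∀ r, i ≤ k → Bd 0 C (coef k r i l j) := fun i => by
    by_cases h : i ≤ k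
    · obtain ⟨C, hC⟩ := bd_coef hjl hl h
      exact ⟨C, fun r _ => hC r⟩
    · exact ⟨0, fun r h' => absurd h' h⟩
  choose C hC using hc
  obtain ⟨Cw, hw⟩ := bd_spinW (k := k) 2 hjl hl
  obtain ⟨E, hE⟩ := bd_eOp (k := k) (hjl.trans hl) Cw
  refine ⟨∑ i ∈ Icc 1 k, |d i| * C i + |d j| * E, fun r => ?_⟩
  have hs : Bd 0 (∑ i ∈ Icc 1 k, |d i| * C i) fun h => ∑ i ∈ Icc 1 k, d i * coef k r i l j h :=
    bd0_sum _ fun i hi => by
      simpa using (Bd.const 0 (d i)).mul (hC i r (mem_Icc.1 hi).2)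
  have h0 := hs.add ((Bd.const 0 (d j)).mul (hE r _ (hw r)))
  simp only [pow_zero, one_mul] at h0
  exact h0

/-- The variances along a line. -/
def line (r₀ d : ℕ → ℝ) (s : ℝ) (l : ℕ) : ℝ := r₀ l + s * d l

variable {r₀ d : ℕ → ℝ} {s₀ ε : ℝ}

/-- All increments are positive near the parameter. -/
def PosNear (k : ℕ) (r₀ d : ℕ → ℝ) (s₀ ε : ℝ) : Prop :=
  0 < ε ∧ ∀ s, |s - s₀| < ε → ∀ j, 1 ≤ j → j ≤ k → line r₀ d s (j - 1) < line r₀ d s j

theorem mk_move {j : ℕ} (hj : 1 ≤ j) (hjk : j ≤ k) (hP : PosNear k r₀ d s₀ ε)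
    (hF : ∀ s, |s - s₀| < ε → ∀ h,
      HasDerivAt (fun t => spinF k (line r₀ d t) j h) (rateF k (line r₀ d s) d j h) s)
    {φt dφ : ℝ → ℝ → ℝ} {C E : ℝ} (hφ : ∀ s, Bd 0 C (φt s)) (hdφ : ∀ s, Bd 0 E (dφ s))
    (hd : ∀ s, |s - s₀| < ε → ∀ h, HasDerivAt (fun t => φt t h) (dφ s h) s) :
    ∃ D, Move (fun s => spinF k (line r₀ d s) j) φt (fun s => rateF k (line r₀ d s) d j) dφ
      (fun s => line r₀ d s j - line r₀ d s (j - 1)) (fun _ => d j - d (j - 1)) s₀ ε D := by
  obtain ⟨B, hB⟩ := bd_rates (k := k) d hjk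
  refine ⟨max (max C E) (max B |d j - d (j - 1)|), hP.1, fun s _ => pot_spinF hjk,
    fun s _ => (hφ s).cont, fun s _ x => ((hφ s).abs_le x).trans
      ((le_max_left _ _).trans (le_max_left _ _)), hF, hd, (hB _).1.cont, (hdφ s₀).cont,
    fun s _ x => ((hB _).1.abs_le x).trans ((le_max_left _ _).trans (le_max_right _ _)),
    fun s _ x => ((hdφ s).abs_le x).trans ((le_max_right _ _).trans (le_max_left _ _)),
    fun s _ => ?_, fun _ _ => (le_max_right _ _).trans (le_max_right _ _), ?_⟩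
  · unfold line
    exact ((((hasDerivAt_id s).mul_const (d j)).const_add (r₀ j)).fun_sub
      (((hasDerivAt_id s).mul_const (d (j - 1))).const_add (r₀ (j - 1)))).congr_deriv (by simp)
  · have := hP.2 s₀ (by simpa using hP.1) j hj hjk
    linarith

theorem sum_Icc_eq {j k : ℕ} (hjk : j ≤ k) (g : ℕ → ℝ) :
    ∑ i ∈ Icc j k, g i = g j + ∑ i ∈ Ioc j k, g i := by
  rw [← Finset.Ioc_insert_left hjk, sum_insert (by simp)]

theorem Ioc_pred {j k : ℕ} (hj : 1 ≤ j) : Ioc (j - 1) k = Icc j k := by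
  ext i; simp; omega

theorem rate_step {j : ℕ} (hj : 1 ≤ j) (hjk : j ≤ k) {φ A : ℝ → ℝ} {C E : ℝ} (hφ : Bd 2 C φ)
    (hA : Bd 0 E A) (h : ℝ) :
    let m := lev k j
    let a := r j - r (j - 1)
    let f := spinF k r j
    tE m a f (fun x => A x + d j * eOp k r j φ x) h + m * tC m a f φ (rateF k r d j) h
        + (d j - d (j - 1)) / 2 * (tE m a f (deriv (deriv φ)) h
          + 2 * m * tE m a f (fun x => spinU k r j x * deriv φ x) h
          + m * tC m a f φ (fun x => deriv (spinU k r j) x + m * spinU k r j x ^ 2) h)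
      = tE m a f A h + -(mass k * m / 2) * ∑ i ∈ Icc j k, d i * tC m a f φ (spinW k r i j) h
        + -(mass k * d j) * tE m a f (fun x => spinU k r j x * deriv φ x) h
        + d (j - 1) * eOp k r (j - 1) (tE m a f φ) h := by
  intro m a f
  have hf : Pot f := pot_spinF hjk
  obtain ⟨Cu, hu⟩ := bd2_u (r := r) hjk
  have hm : m ≠ 0 := levK_ne hj
  have hh := heat (m := m) (a := a) hf (C := max C Cu) (hφ.mono (le_max_left _ _))
    ((hu.down).mono (le_max_right _ _)) hm h
  have hU : deriv (hT m a f) = spinU k r (j - 1) := by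
    rw [spinU_step hj hjk, deriv_hT hf hm]; rfl
  rw [hU] at hh
  have p0 : Bd 0 _ φ := hφ.down.down
  have q0 : Bd 0 _ (deriv (spinU k r j)) := hu.2.2.down
  have q1 : Bd 0 _ fun x => spinU k r j x * deriv φ x := hu.down.down.mul hφ.2.2.down
  have q2 : Bd 0 (2 ^ 0 * (Cu * Cu)) fun x => spinU k r j x ^ 2 := by
    simpa only [sq] using hu.down.down.mul hu.down.down
  have hW : ∀ i ∈ Icc j k, ∃ D, Bd 0 D (spinW k r i j) := fun i hi => by
    obtain ⟨D, hD⟩ := bd2_w (r := r) (mem_Icc.1 hi).1 (mem_Icc.1 hi).2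
    exact ⟨D, hD.down.down⟩
  choose! W hW using hW
  have hS : Bd 0 _ fun x => ∑ i ∈ Ioc j k, d i * spinW k r i j x := bd0_sum _
    (C := fun i => 2 ^ 0 * (|d i| * W i)) fun i hi =>
      (Bd.const 0 (d i)).mul (hW i (Ioc_subset_Icc_self hi))
  have e1 : tE m a f (fun x => A x + d j * eOp k r j φ x) h = tE m a f A h
      + d j * (-(1 / 2) * tE m a f (deriv (deriv φ)) h
        + -lev k (j + 1) * tE m a f (fun x => spinU k r j x * deriv φ x) h) := by
    simp only [← tE_const_mul]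
    rw [← tE_add hf ((Bd.const 0 (-(1 / 2))).mul hφ.2.2.2.2) ((Bd.const 0 (-lev k (j + 1))).mul q1),
      ← tE_const_mul, ← tE_add hf hA ((Bd.const 0 (d j)).mul
        (((Bd.const 0 (-(1 / 2))).mul hφ.2.2.2.2).add ((Bd.const 0 (-lev k (j + 1))).mul q1)))]
    congr 1; funext x; simp only [eOp]; ring
  have e2 : tC m a f φ (rateF k r d j) h
      = -(mass k / 2) * ∑ i ∈ Ioc j k, d i * tC m a f φ (spinW k r i j) h
        + -(d j / 2) * (tC m a f φ (deriv (spinU k r j)) h
          + lev k (j + 1) * tC m a f φ (fun x => spinU k r j x ^ 2) h) := by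
    rw [show rateF k r d j = fun x => d k / 2 + -(mass k / 2) * ∑ i ∈ Ioc j k, d i * spinW k r i j x
      + -(d j / 2) * (deriv (spinU k r j) x + lev k (j + 1) * spinU k r j x ^ 2) from rfl,
      tC_add hf p0 ((Bd.const 0 _).add ((Bd.const 0 _).mul hS))
        ((Bd.const 0 _).mul (q0.add ((Bd.const 0 _).mul q2))),
      tC_add hf p0 (Bd.const 0 _) ((Bd.const 0 _).mul hS), tC_const hf, tC_const_mul, tC_const_mul,
      tC_add hf p0 q0 ((Bd.const 0 _).mul q2), tC_const_mul,
      tC_sum hf _ p0 (fun i hi => ?_)]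
    · simp only [tC_const_mul, zero_add]
    · exact ⟨_, (Bd.const 0 (d i)).mul (hW i (Ioc_subset_Icc_self hi))⟩
  have e3 : tC m a f φ (fun x => deriv (spinU k r j) x + m * spinU k r j x ^ 2) h
      = tC m a f φ (deriv (spinU k r j)) h + m * tC m a f φ (fun x => spinU k r j x ^ 2) h := by
    rw [tC_add hf p0 q0 ((Bd.const 0 m).mul q2), tC_const_mul]
  have e4 : eOp k r (j - 1) (tE m a f φ) h = -(1 / 2 * tE m a f (deriv (deriv φ)) h
      + m * tE m a f (fun x => spinU k r j x * deriv φ x) h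
      + m / 2 * tC m a f φ (fun x => deriv (spinU k r j) x + m * spinU k r j x ^ 2) h) := by
    rw [eOp, show j - 1 + 1 = j by omega, ← mul_assoc]
    exact congrArg Neg.neg hh
  rw [e1, e2, e4, e3, sum_Icc_eq hjk, spinW_self, levK_succ]
  ring

theorem deriv_spinF (hP : PosNear k r₀ d s₀ ε) {j : ℕ} (hjk : j ≤ k) :
    ∀ s, |s - s₀| < ε → ∀ h,
      HasDerivAt (fun t => spinF k (line r₀ d t) j h) (rateF k (line r₀ d s) d j h) s := by
  refine spinF_induction (P := fun j => ∀ s, |s - s₀| < ε → ∀ h,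
    HasDerivAt (fun t => spinF k (line r₀ d t) j h) (rateF k (line r₀ d s) d j h) s) ?_ ?_ hjk
  · intro s _ h
    simp only [rateF, spinU, spinF_top, deriv_logcosh, (hasDerivAt_tanh' h).deriv, levK_top,
      Ioc_self, sum_empty, mul_zero, add_zero, one_mul, sub_add_cancel, mul_one]
    rw [show d k / 2 + -(d k / 2) = (0 : ℝ) by ring]
    exact hasDerivAt_const _ _
  · intro j hj hjk hF s hs h
    set r := line r₀ d s with hr
    have hP' : PosNear k r₀ d s (ε - |s - s₀|) := ⟨by linarith, fun t ht => hP.2 t (by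
      linarith [abs_sub_le t s s₀])⟩
    have hb : ∀ t, |t - s| < ε - |s - s₀| → |t - s₀| < ε := fun t ht => by
      linarith [abs_sub_le t s s₀]
    obtain ⟨D, hM⟩ := mk_move hj hjk hP' (fun t ht => hF t (hb t ht))
      (φt := fun _ _ => 1) (dφ := fun _ _ => 0) (fun _ => Bd.const 0 1) (fun _ => Bd.const 0 0)
      (fun _ _ _ => hasDerivAt_const _ _)
    obtain ⟨Cu, hu⟩ := bd2_u (r := r) hjk
    have hm := levK_ne (k := k) hj
    have hd := hasDerivAt_hT_param hM hm (C := Cu) hu.down h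
    have hfun : (fun t => spinF k (line r₀ d t) (j - 1) h)
        = fun t => hT (lev k j) (line r₀ d t j - line r₀ d t (j - 1)) (spinF k (line r₀ d t) j) h :=
      funext fun t => by rw [spinF_step hj hjk]
    rw [hfun]
    refine hd.congr_deriv ?_
    have hf : Pot (spinF k r j) := pot_spinF hjk
    have q0 : Bd 0 _ (deriv (spinU k r j)) := hu.2.2.down
    have q2 : Bd 0 (2 ^ 0 * (Cu * Cu)) fun x => spinU k r j x ^ 2 := by
      simpa only [sq] using hu.down.down.mul hu.down.down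
    have hWi : ∀ i ∈ Ioc j k, ∃ E, Bd 0 E fun x => d i * spinW k r i j x := fun i hi => by
      obtain ⟨E, hE⟩ := bd2_w (r := r) (mem_Ioc.1 hi).1.le (mem_Ioc.1 hi).2
      exact ⟨_, (Bd.const 0 (d i)).mul hE.down.down⟩
    choose! E hE using hWi
    have hS : Bd 0 _ fun x => ∑ i ∈ Ioc j k, d i * spinW k r i j x := bd0_sum _ hE
    set a := r j - r (j - 1)
    set T := tE (lev k j) a (spinF k r j) with hT
    have e1 : T (rateF k r d j) h = d k / 2 + -(mass k / 2) * (∑ i ∈ Ioc j k, d i * T (spinW k r i j) h)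
        + -(d j / 2) * (T (deriv (spinU k r j)) h
          + lev k (j + 1) * T (fun x => spinU k r j x ^ 2) h) := by
      rw [show rateF k r d j = fun x => d k / 2 + -(mass k / 2) * ∑ i ∈ Ioc j k, d i * spinW k r i j x
        + -(d j / 2) * (deriv (spinU k r j) x + lev k (j + 1) * spinU k r j x ^ 2) from rfl, hT]
      rw [tE_add hf ((Bd.const 0 _).add ((Bd.const 0 _).mul hS))
          ((Bd.const 0 _).mul (q0.add ((Bd.const 0 _).mul q2))),
        tE_add hf (Bd.const 0 _) ((Bd.const 0 _).mul hS), tE_const hf, tE_const_mul, tE_const_mul,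
        tE_add hf q0 ((Bd.const 0 _).mul q2), tE_const_mul, tE_sum hf _ (fun i hi => ⟨_, hE i hi⟩)]
      simp only [tE_const_mul]
    have e2 : T (fun x => deriv (spinU k r j) x + lev k j * spinU k r j x ^ 2) h
        = T (deriv (spinU k r j)) h + lev k j * T (fun x => spinU k r j x ^ 2) h := by
      rw [hT, tE_add hf q0 ((Bd.const 0 _).mul q2), tE_const_mul]
    have e3 : T (deriv (spinU k r j)) h + lev k j * T (fun x => spinU k r j x ^ 2) h
        = deriv (spinU k r (j - 1)) h + lev k j * spinU k r (j - 1) h ^ 2 := by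
      rw [spinU_deriv_step hj hjk, spinU_step hj hjk, hT]
      simp only [tC, sq]
      ring
    show T (rateF k r d j) h + (d j - d (j - 1)) / 2
      * T (fun x => deriv (spinU k r j) x + lev k j * spinU k r j x ^ 2) h = rateF k r d (j - 1) h
    rw [e1, e2]
    simp only [rateF]
    rw [Ioc_pred hj, sum_Icc_eq hjk, show j - 1 + 1 = j by omega, ← e3, levK_succ]
    have e4 : spinW k r j (j - 1) h = T (fun x => spinU k r j x ^ 2) h := by
      rw [spinW_step hj le_rfl, spinW_self]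
    have e5 : ∑ i ∈ Ioc j k, d i * spinW k r i (j - 1) h = ∑ i ∈ Ioc j k, d i * T (spinW k r i j) h :=
      sum_congr rfl fun i hi => by rw [spinW_step hj (mem_Ioc.1 hi).1.le]
    rw [e4, e5]
    ring

theorem deriv_spinU (hP : PosNear k r₀ d s₀ ε) {j : ℕ} (hjk : j ≤ k) :
    ∀ s, |s - s₀| < ε → ∀ h,
      HasDerivAt (fun t => spinU k (line r₀ d t) j h) (rateU k (line r₀ d s) d j h) s := by
  refine spinF_induction (P := fun j => ∀ s, |s - s₀| < ε → ∀ h,
    HasDerivAt (fun t => spinU k (line r₀ d t) j h) (rateU k (line r₀ d s) d j h) s) ?_ ?_ hjk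
  · intro s _ h
    have e2 : deriv (deriv tanh) h = -2 * (tanh h * (1 - tanh h ^ 2)) := by
      rw [show deriv tanh = fun x => 1 - tanh x ^ 2 from funext fun x => (hasDerivAt_tanh' x).deriv,
        (((hasDerivAt_tanh' h).fun_pow 2).const_sub 1).deriv]
      push_cast; ring
    simp only [rateU, spinU, spinF_top, deriv_logcosh, Ioc_self, sum_empty, mul_zero, zero_add, eOp,
      e2, levK_top, (hasDerivAt_tanh' h).deriv]
    rw [show d k * -(1 / 2 * (-2 * (tanh h * (1 - tanh h ^ 2))) + 1 * (tanh h * (1 - tanh h ^ 2)))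
      = (0 : ℝ) by ring]
    exact hasDerivAt_const _ _
  · intro j hj hjk ih s hs h
    set r := line r₀ d s with hr
    have hP' : PosNear k r₀ d s (ε - |s - s₀|) := ⟨by linarith, fun t ht => hP.2 t (by
      linarith [abs_sub_le t s s₀])⟩
    have hb : ∀ t, |t - s| < ε - |s - s₀| → |t - s₀| < ε := fun t ht => by
      linarith [abs_sub_le t s s₀]
    obtain ⟨Cu, hu⟩ := bd_spinU (k := k) 2 hjk
    obtain ⟨B, hB⟩ := bd_rates (k := k) d hjk
    obtain ⟨D, hM⟩ := mk_move hj hjk hP' (fun t ht => deriv_spinF hP hjk t (hb t ht))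
      (φt := fun t => spinU k (line r₀ d t) j) (dφ := fun t => rateU k (line r₀ d t) d j)
      (fun t => (hu _).down.down) (fun t => (hB _).2) (fun t ht => ih t (hb t ht))
    have hd := hasDerivAt_tE_param (m := lev k j) hM (C := Cu) (hu _) (hu _).down h
    rw [show (fun t => spinU k (line r₀ d t) (j - 1) h) = fun t =>
      tE (lev k j) (line r₀ d t j - line r₀ d t (j - 1)) (spinF k (line r₀ d t) j)
        (spinU k (line r₀ d t) j) h from funext fun t => by rw [spinU_step hj hjk]]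
    refine hd.congr_deriv ?_
    have hWi : ∀ i ∈ Ioc j k, ∃ E, Bd 0 E fun x => d i * deriv (spinW k r i j) x := fun i hi => by
      obtain ⟨E, hE⟩ := bd2_w (r := r) (mem_Ioc.1 hi).1.le (mem_Ioc.1 hi).2
      exact ⟨_, (Bd.const 0 (d i)).mul hE.2.2.down⟩
    choose! E hE using hWi
    have hS : Bd 0 _ fun x => -(mass k / 2) * ∑ i ∈ Ioc j k, d i * deriv (spinW k r i j) x :=
      (Bd.const 0 _).mul (bd0_sum _ hE)
    have key := rate_step (r := r) (d := d) hj hjk (φ := spinU k r j) (hu r) hS h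
    simp only at key
    refine key.trans ?_
    have hf : Pot (spinF k r j) := pot_spinF hjk
    simp only [rateU]
    rw [Ioc_pred hj, sum_Icc_eq hjk, sum_Icc_eq hjk, spinU_step hj hjk, tE_const_mul,
      tE_sum hf _ (fun i hi => ⟨_, hE i hi⟩)]
    have e1 : ∀ i, j ≤ i → i ≤ k → deriv (spinW k r i (j - 1)) h
        = tE (lev k j) (r j - r (j - 1)) (spinF k r j) (deriv (spinW k r i j)) h
          + lev k j * tC (lev k j) (r j - r (j - 1)) (spinF k r j) (spinU k r j) (spinW k r i j) h :=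
      fun i h1 h2 => by
        obtain ⟨C, hC⟩ := bd2_w (r := r) h1 h2
        rw [spinW_step hj h1, (hasDerivAt_tE hf hC.down h).deriv, tC_comm]
        rfl
    have e2 : tE (lev k j) (r j - r (j - 1)) (spinF k r j) (deriv (spinW k r j j)) h
        = 2 * tE (lev k j) (r j - r (j - 1)) (spinF k r j)
            (fun x => spinU k r j x * deriv (spinU k r j) x) h := by
      rw [← tE_const_mul]; congr 1; funext x
      rw [spinW_self, deriv_fun_pow ((hu r).1 x)]; push_cast; ring
    rw [sum_congr rfl fun i hi => congrArg (d i * ·) (e1 i (mem_Ioc.1 hi).1.le (mem_Ioc.1 hi).2),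
      e1 j le_rfl hjk, e2]
    simp only [tE_const_mul, mul_add, sum_add_distrib, mul_left_comm (d _) (lev k j), ← mul_sum]
    ring

theorem coef_sum_at (l : ℕ) (hl1 : 1 ≤ l) (hlk : l ≤ k) (h : ℝ) :
    ∑ i ∈ Icc 1 k, d i * coef k r i l l h
      = -(mass k) * (spinU k r l h * ∑ i ∈ Ioc l k, d i * deriv (spinW k r i l) h)
        + d l * deriv (spinU k r l) h ^ 2 := by
  have e : ∀ i ∈ Icc 1 k, d i * coef k r i l l h
      = (if i ∈ Ioc l k then -(mass k) * (spinU k r l h * (d i * deriv (spinW k r i l) h)) else 0)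
        + if i = l then d l * deriv (spinU k r l) h ^ 2 else 0 := fun i hi => by
    have hik := (mem_Icc.1 hi).2
    rw [coef_self]
    by_cases h1 : l < i
    · rw [if_pos h1, if_pos (mem_Ioc.2 ⟨h1, hik⟩), if_neg (by omega), add_zero]
      ring
    · rw [if_neg h1, if_neg (show i ∉ Ioc l k by simp; omega), zero_add]
      by_cases h2 : i = l
      · rw [if_pos h2, if_pos h2, h2]
      · rw [if_neg h2, if_neg h2, mul_zero]
  rw [sum_congr rfl e, sum_add_distrib, ← sum_filter, sum_ite_eq',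
    if_pos (mem_Icc.2 ⟨hl1, hlk⟩)]
  congr 1
  rw [show filter (fun i => i ∈ Ioc l k) (Icc 1 k) = Ioc l k by ext i; simp; omega, mul_sum, mul_sum]

theorem coef_sum_step {l j : ℕ} (hj : 1 ≤ j) (hjl : j ≤ l) (hlk : l ≤ k) (h : ℝ) :
    let T := tE (lev k j) (r j - r (j - 1)) (spinF k r j)
    ∑ i ∈ Icc 1 k, d i * coef k r i l (j - 1) h
      = T (fun x => ∑ i ∈ Icc 1 k, d i * coef k r i l j x) h
        + -(mass k * lev k j / 2) * ∑ i ∈ Icc j k,
            d i * tC (lev k j) (r j - r (j - 1)) (spinF k r j) (spinW k r i j) (spinW k r l j) h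
        + -(mass k * d j) * T (fun x => spinU k r j x * deriv (spinW k r l j) x) h := by
  intro T
  have hf : Pot (spinF k r j) := pot_spinF (hjl.trans hlk)
  have e : ∀ i ∈ Icc 1 k, d i * coef k r i l (j - 1) h = T (fun x => d i * coef k r i l j x) h
      + ((if i ∈ Icc j k then -(mass k * lev k j / 2)
            * (d i * tC (lev k j) (r j - r (j - 1)) (spinF k r j) (spinW k r i j) (spinW k r l j) h)
          else 0)
        + if i = j then -(mass k * d j) * T (fun x => spinU k r j x * deriv (spinW k r l j) x) h else 0) :=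
    fun i hi => by
    rw [coef_step hj hjl]
    simp only [T, tE_const_mul]
    by_cases h1 : i < j
    · rw [if_pos h1, coef_low h1 hjl, tE_const hf, if_neg (show i ∉ Icc j k by simp; omega),
        if_neg (by omega)]
      ring
    · rw [if_neg h1, if_pos (mem_Icc.2 ⟨by omega, (mem_Icc.1 hi).2⟩)]
      by_cases h2 : i = j
      · subst h2; rw [if_pos rfl, if_pos rfl]; ring
      · rw [if_neg h2, if_neg h2]; ring
  have hc : ∀ i ∈ Icc 1 k, ∃ C, Bd 0 C fun x => d i * coef k r i l j x := fun i hi => by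
    obtain ⟨C, hC⟩ := bd_coef (k := k) hjl hlk (mem_Icc.1 hi).2
    exact ⟨_, (Bd.const 0 (d i)).mul (hC r)⟩
  rw [sum_congr rfl e, sum_add_distrib, sum_add_distrib, ← sum_filter, sum_ite_eq',
    if_pos (mem_Icc.2 ⟨hj, hjl.trans hlk⟩)]
  simp only [T]
  rw [tE_sum hf _ hc,
    show filter (fun i => i ∈ Icc j k) (Icc 1 k) = Icc j k by ext i; simp; omega, mul_sum, add_assoc]

theorem deriv_spinW (hP : PosNear k r₀ d s₀ ε) {l j : ℕ} (hl1 : 1 ≤ l) (hjl : j ≤ l) (hlk : l ≤ k) :
    ∀ s, |s - s₀| < ε → ∀ h,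
      HasDerivAt (fun t => spinW k (line r₀ d t) l j h) (rateW k (line r₀ d s) d l j h) s := by
  induction hd : l - j generalizing j with
  | zero =>
    rw [show j = l by omega]
    intro s hs h
    obtain ⟨Cu, hu⟩ := bd2_u (r := line r₀ d s) hlk
    rw [show (fun t => spinW k (line r₀ d t) l l h) = fun t => spinU k (line r₀ d t) l h ^ 2 from
      funext fun t => by rw [spinW_self]]
    refine ((deriv_spinU hP hlk s hs h).fun_pow 2).congr_deriv ?_
    simp only [rateW, rateU, coef_sum_at l hl1 hlk, eOp, spinW_self]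
    have e1 : deriv (fun x => spinU k (line r₀ d s) l x ^ 2)
        = fun x => 2 * (spinU k (line r₀ d s) l x * deriv (spinU k (line r₀ d s) l) x) := funext fun x => by
      rw [deriv_fun_pow (hu.1 x)]; push_cast; ring
    rw [e1, deriv_const_mul _ ((hu.1 h).fun_mul (hu.2.2.1 h)), deriv_fun_mul (hu.1 h) (hu.2.2.1 h)]
    push_cast
    ring
  | succ n ih =>
    intro s hs h
    have hjk : j + 1 ≤ k := by omega
    have hj : 1 ≤ j + 1 := by omega
    have hjl' : j + 1 ≤ l := by omega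
    set r := line r₀ d s with hr
    have hP' : PosNear k r₀ d s (ε - |s - s₀|) := ⟨by linarith, fun t ht => hP.2 t (by
      linarith [abs_sub_le t s s₀])⟩
    have hb : ∀ t, |t - s| < ε - |s - s₀| → |t - s₀| < ε := fun t ht => by
      linarith [abs_sub_le t s s₀]
    obtain ⟨Cu, hu⟩ := bd_spinU (k := k) 2 hjk
    obtain ⟨Cw, hw⟩ := bd_spinW (k := k) 2 hjl' hlk
    obtain ⟨B, hB⟩ := bd_rateW (k := k) d hjl' hlk
    obtain ⟨D, hM⟩ := mk_move hj hjk hP' (fun t ht => deriv_spinF hP hjk t (hb t ht))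
      (φt := fun t => spinW k (line r₀ d t) l (j + 1)) (dφ := fun t => rateW k (line r₀ d t) d l (j + 1))
      (fun t => (hw _).down.down) (fun t => hB _) (fun t ht => ih (j := j + 1) hjl' (by omega) t (hb t ht))
    have hd := hasDerivAt_tE_param (m := lev k (j + 1)) hM (C := max Cw Cu)
      ((hw _).mono (le_max_left _ _)) ((hu _).down.mono (le_max_right _ _)) h
    have hjp : spinW k r l j = spinW k r l (j + 1 - 1) := by simp
    rw [show (fun t => spinW k (line r₀ d t) l j h) = fun t =>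
      tE (lev k (j + 1)) (line r₀ d t (j + 1) - line r₀ d t (j + 1 - 1)) (spinF k (line r₀ d t) (j + 1))
        (spinW k (line r₀ d t) l (j + 1)) h from funext fun t => by
          rw [show spinW k (line r₀ d t) l j = spinW k (line r₀ d t) l (j + 1 - 1) by simp,
            spinW_step hj hjl']]
    refine hd.congr_deriv ?_
    have hci : ∀ i ∈ Icc 1 k, ∃ E, Bd 0 E fun x => d i * coef k r i l (j + 1) x := fun i hi => by
      obtain ⟨E, hE⟩ := bd_coef (k := k) hjl' hlk (mem_Icc.1 hi).2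
      exact ⟨_, (Bd.const 0 (d i)).mul (hE r)⟩
    choose! E hE using hci
    have key := rate_step (r := r) (d := d) hj hjk (φ := spinW k r l (j + 1)) (hw r) (bd0_sum _ hE) h
    simp only at key
    refine key.trans ?_
    have hc := coef_sum_step (r := r) (d := d) hj hjl' hlk h
    simp only [Nat.add_sub_cancel] at hc hjp ⊢
    simp only [rateW]
    rw [hc, show spinW k r l j = tE (lev k (j + 1)) (r (j + 1) - r j) (spinF k r (j + 1))
      (spinW k r l (j + 1)) by simpa using spinW_step (r := r) hj hjl']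
    simp only [tC_comm (φ := spinW k r l (j + 1))]

end Vale.Agent.P157.Cube2
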