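import Vale.Agent.P157.Rsb.Approx
import Vale.Agent.P157.Cube2.Intf

/-!
# P157: the pressure on the cube is Lipschitz in the potential
-/

open MeasureTheory ProbabilityTheory Real
open Vale.Agent.P157.Rsb

namespace Vale.Agent.P157.Cube2

theorem cubeLipStmt : CubeLipStmt := by
  intro f h L hf hh hfL hhL α N hα
  set c := ∫ u, |f u - h u| ∂gaussianReal 0 1
  have hc : 0 ≤ c := integral_nonneg fun _ => abs_nonneg _
  have hL0 : 0 ≤ L := (abs_nonneg _).trans (hfL 0)
  rcases Nat.eq_zero_or_pos N with rfl | hN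
  · simp [pressureCube]; positivity
  have key := lz_many (μ := cubeLaw N) (measurable_cubeField N) (cubeField_unit hN) hf hh hfL hhL
    ⌊α * N⌋₊ (fun _ => 1) 0 ⟨measurable_const, by simp⟩
  have eq : ∀ e : ℝ → ℝ, pressureCube e α N = (∫ G : Fin ⌊α * N⌋₊ → Fin N → ℝ,
      lz (cubeLaw N) (fun _ => 1) (fun x => ∑ a, e (dot (G a) (cubeField N x)))
        ∂Measure.pi (fun _ => gauss (Fin N))) / N := by
    intro e
    simp only [pressureCube, lz, one_mul, integral_cubeLaw, patterns, gauss]
    congr 2
    funext g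
    congr 2
    refine Finset.sum_congr rfl fun x _ => ?_
    congr 1
    refine Finset.sum_congr rfl fun a _ => ?_
    congr 1
    simp only [dot, cubeField, Finset.sum_div]
    exact Finset.sum_congr rfl fun i _ => by ring
  rw [eq f, eq h, ← sub_div, abs_div, abs_of_pos (show (0 : ℝ) < N by exact_mod_cast hN),
    div_le_iff₀ (by exact_mod_cast hN)]
  refine key.trans ?_
  calc (⌊α * N⌋₊ : ℝ) * (exp (2 * L) * c) ≤ α * N * (exp (8 * L) * c) :=
        mul_le_mul (Nat.floor_le (by positivity))
          (mul_le_mul_of_nonneg_right (exp_le_exp.2 (by linarith)) hc) (by positivity) (by positivity)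
    _ = α * exp (8 * L) * c * N := by ring

end Vale.Agent.P157.Cube2
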