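import Vale.Agent.P157.Cube2.LowTools
import Vale.Agent.P157.Cube2.Final
import Vale.Agent.P157.Rsb.Lower

/-!
# P157: the lower bound on the cube

`cube_lower : CubeLowerStmt` from the other interface statements.  One more spin gains at least the
variational value: by consistency the cumulative variances seen by the new spin nearly solve the
one-spin problem of the overlap path, and that problem is concave.
-/

open MeasureTheory ProbabilityTheory Real Finset
open Vale.Agent.P157.Rsb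

namespace Vale.Agent.P157.Cube2.Low

variable {k : ℕ} {f : ℝ → ℝ}

/-- The box average of the root of a bounded error. -/
theorem root_avg {τ : (Fin k → ℝ) → ℝ} {a : Fin k → ℝ} {δ S : ℝ} (hδ : 0 < δ) (hm : Measurable τ)
    (h0 : ∀ y, 0 ≤ τ y) (hb : ∀ y, τ y ≤ 2) (hS : ∫ y, τ y ∂boxP a δ ≤ S) :
    Integrable (fun y => √(τ y + mass k)) (boxP a δ) ∧
      ∫ y, √(τ y + mass k) ∂boxP a δ ≤ √(S + mass k) := by
  obtain ⟨hp, -⟩ := boxP_facts a hδ
  have hm0 : (0 : ℝ) < mass k := by unfold mass; positivity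
  have hi : Integrable τ (boxP a δ) :=
    Integrable.of_bound hm.aestronglyMeasurable 2 (ae_of_all _ fun y => by
      rw [Real.norm_eq_abs, abs_of_nonneg (h0 y)]; exact hb y)
  have hroot : Integrable (fun y => √(τ y + mass k)) (boxP a δ) := by
    refine Integrable.of_bound (hm.add_const _).sqrt.aestronglyMeasurable √(2 + mass k)
      (ae_of_all _ fun y => ?_)
    rw [Real.norm_eq_abs, abs_of_nonneg (sqrt_nonneg _)]
    exact Real.sqrt_le_sqrt (by linarith [hb y])
  refine ⟨hroot, ?_⟩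
  have hI0 : 0 ≤ ∫ y, τ y ∂boxP a δ := integral_nonneg h0
  set s := √(S + mass k) with hs
  have hs0 : 0 < s := Real.sqrt_pos.2 (by linarith)
  have hpt : ∀ y, √(τ y + mass k) ≤ (τ y + mass k) / (2 * s) + s / 2 := fun y => by
    rw [div_add_div _ _ (by positivity) (by norm_num), le_div_iff₀ (by positivity)]
    nlinarith [sq_nonneg (√(τ y + mass k) - s), Real.sq_sqrt (show 0 ≤ τ y + mass k by linarith [h0 y])]
  have hi' : Integrable (fun y => (τ y + mass k) / (2 * s)) (boxP a δ) :=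
    (hi.add (integrable_const _)).div_const _
  have hint := integral_mono hroot (hi'.add (integrable_const _)) hpt
  simp only [Pi.add_apply] at hint
  rw [integral_add hi' (integrable_const _), integral_div,
    integral_add hi (integrable_const _), integral_const, integral_const, probReal_univ, one_smul,
    one_smul] at hint
  refine hint.trans ?_
  have h2 : (∫ y, τ y ∂boxP a δ + mass k) / (2 * s) ≤ s / 2 := by
    rw [div_le_iff₀ (by positivity), hs]
    nlinarith [Real.sq_sqrt (show 0 ≤ S + mass k by linarith)]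
  linarith

/-- Averages are Lipschitz in the number of patterns. -/
theorem cube_avg_lip {A δ : ℝ} {bx : Fin k → ℝ} (hδ : 0 < δ)
    (hint : ∀ N M, Integrable (fun y => cubeFree f N M k (lift y)) (boxP bx δ))
    (hclose : ∀ (N M : ℕ) σ,
      |((N : ℝ) + 1) * cubeFree f N (M + 1) k σ - ((N : ℝ) + 1) * cubeFree f N M k σ| ≤ A)
    (n M M' : ℕ) (hn : 1 ≤ n) :
    |(n : ℝ) * boxAvg k bx δ (cubeFree f (n - 1) M k)
      - (n : ℝ) * boxAvg k bx δ (cubeFree f (n - 1) M' k)| ≤ A * |(M : ℝ) - M'| := by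
  obtain ⟨hbp, -⟩ := boxP_facts bx hδ
  obtain ⟨N, rfl⟩ : ∃ N, n = N + 1 := ⟨n - 1, by omega⟩
  simp only [Nat.add_sub_cancel]
  have h1 : ∀ d M, |((N + 1 : ℕ) : ℝ) * boxAvg k bx δ (cubeFree f N (M + d) k)
      - ((N + 1 : ℕ) : ℝ) * boxAvg k bx δ (cubeFree f N M k)| ≤ A * d := by
    intro d
    induction d with
    | zero => intro M; simp
    | succ d ih =>
      intro M
      refine (abs_sub_le _ (((N + 1 : ℕ) : ℝ) * boxAvg k bx δ (cubeFree f N (M + d) k)) _).trans ?_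
      have h2 : |((N + 1 : ℕ) : ℝ) * boxAvg k bx δ (cubeFree f N (M + d + 1) k)
          - ((N + 1 : ℕ) : ℝ) * boxAvg k bx δ (cubeFree f N (M + d) k)| ≤ A := by
        simp only [boxAvg_eq]
        rw [← mul_sub, ← integral_sub (hint _ _) (hint _ _), ← integral_const_mul,
          ← Real.norm_eq_abs]
        refine (norm_integral_le_of_norm_le_const (C := A) (ae_of_all _ fun y => ?_)).trans_eq
          (by rw [probReal_univ, mul_one])
        rw [Real.norm_eq_abs, mul_sub]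
        push_cast
        exact hclose N (M + d) (lift y)
      have := ih M
      push_cast at this h2 ⊢
      rw [add_assoc M d 1] at h2
      linarith
  rcases le_total M M' with h | h
  · obtain ⟨d, rfl⟩ := Nat.exists_eq_add_of_le h
    rw [abs_sub_comm, abs_sub_comm (M : ℝ)]
    simpa using h1 d M
  · obtain ⟨d, rfl⟩ := Nat.exists_eq_add_of_le h
    simpa using h1 d M'

/-- Combining one step of the dimension with the patterns added along it. -/
theorem step_abs {α θ V n n' Cp Dp : ℝ} {a : ℕ} {F0 F1 φ τ E : ℕ → ℝ} (hα : α = a + θ)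
    (hθ0 : 0 ≤ θ) (hθ1 : θ ≤ 1) (hCp : 0 ≤ Cp) (hDp : 0 ≤ Dp) (hτ : ∀ b, 0 ≤ τ b)
    (hE : ∀ b, 0 ≤ E b)
    (hinc : ∀ b ≤ a, φ b - Cp * τ b ≤ n * (F0 (b + 1) - F0 b))
    (hphi : ∀ b ≤ a, |φ (b + 1) - φ b| ≤ Dp * τ b)
    (hcav : ∀ b ≤ a + 1, V - α * φ b - E b ≤ n' * F1 b - n * F0 b) :
    V - ∑ b ∈ range (a + 2), E b - (Cp + (α + a + 1) * Dp) * ∑ b ∈ range (a + 2), τ b
      ≤ (1 - θ) * (n' * F1 a) + θ * (n' * F1 (a + 1)) - n * F0 0 := by
  set U := ∑ b ∈ range (a + 2), τ b with hU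
  have hU0 : 0 ≤ U := sum_nonneg fun b _ => hτ b
  have hUb : ∀ b ≤ a + 2, ∑ i ∈ range b, τ i ≤ U := fun b hb =>
    sum_le_sum_of_subset_of_nonneg (range_mono hb) fun i _ _ => hτ i
  have hd : ∀ b ≤ a + 1, |φ b - φ 0| ≤ Dp * U := by
    intro b hb
    refine le_trans ?_ (mul_le_mul_of_nonneg_left (hUb b (by omega)) hDp)
    induction b with
    | zero => simp
    | succ b ih =>
      rw [sum_range_succ, mul_add]
      refine (abs_sub_le _ (φ b) _).trans ?_
      linarith [ih (by omega), hphi b (by omega)]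
  have hpat : ∀ b ≤ a + 1,
      (b : ℝ) * φ 0 - b * (Dp * U) - Cp * ∑ i ∈ range b, τ i ≤ n * (F0 b - F0 0) := by
    intro b
    induction b with
    | zero => intro _; simp
    | succ b ih =>
      intro hb
      rw [sum_range_succ]
      push_cast
      linarith [ih (by omega), hinc b (by omega), (abs_le.1 (hd b (by omega))).1]
  have hα0 : 0 ≤ α := by rw [hα]; positivity
  have hstep : ∀ b ≤ a + 1,
      V + ((b : ℝ) - α) * φ 0 - ∑ i ∈ range (a + 2), E i - (Cp + (α + a + 1) * Dp) * U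
        ≤ n' * F1 b - n * F0 0 := by
    intro b hb
    have h1 := single_le_sum (f := E) (fun i _ => hE i) (mem_range.2 (show b < a + 2 by omega))
    have h2 := mul_le_mul_of_nonneg_left (hUb b (by omega)) hCp
    have h3 := mul_le_mul_of_nonneg_left (abs_le.1 (hd b hb)).2 hα0
    have hbr : (b : ℝ) ≤ a + 1 := by exact_mod_cast hb
    have h4 := mul_le_mul_of_nonneg_right hbr (mul_nonneg hDp hU0)
    linarith [hpat b hb, hcav b hb]
  have s0 := mul_le_mul_of_nonneg_left (hstep a (by omega)) (show 0 ≤ 1 - θ by linarith)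
  have s1 := mul_le_mul_of_nonneg_left (hstep (a + 1) le_rfl) hθ0
  push_cast at s0 s1
  rw [hα] at s0 s1 ⊢
  linarith

/-- One added pattern moves the path by at most the overlap error. -/
theorem cube_path_step (hP : CubePathStmt) {L : ℝ} (hm : Measurable f) (hL : ∀ u, |f u| ≤ L)
    {Cp : ℝ} (hCp : 0 ≤ Cp)
    (htilt : ∀ (n M k : ℕ) (S : Leaf n) (N : ℝ) (σ β : ℕ → ℝ) (q : ℕ → ℝ), 0 < N → IsPath k q →
      (∀ x, sdot (S.pat x) (S.pat x) = 1) →
      ∀ j ≤ k, ∀ (ψ : S.X → S.X → ℝ) (R : ℝ), (∀ x y, 0 ≤ ψ x y ∧ ψ x y ≤ R) →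
        Measurable (Function.uncurry ψ) →
        gibPair (k := k) S f (M + 1) N σ β j (fun _ x y => ψ x y)
          ≤ Cp * gibPair (k := k) S f M N σ β j (fun _ x y => ψ x y))
    (N M : ℕ) (σ : ℕ → ℝ) :
    mass k * ∑ j ∈ Finset.Icc 1 k, |cubeQ f N (M + 1) k σ j - cubeQ f N M k σ j|
      ≤ Cp * cubeTotErr f N M k σ := by
  set q := cubeQ f N M k σ with hq
  have hqp : IsPath k q := hP f L hm hL N M k σ
  have hj : ∀ j ∈ Finset.Icc 1 k,
      |cubeQ f N (M + 1) k σ j - q j| ≤ Cp * cubeErr f N M k σ q j := fun j hj => by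
    rw [Finset.mem_Icc] at hj
    refine (gen_dist (S := cubeLeaf N) (k := k) (M := M + 1) (N := (N : ℝ) + 1) (cube_unitLeaf N)
      (by positivity) hm hL σ (q j) hj.1).trans ?_
    refine htilt (N + 1) M k (cubeLeaf N) ((N : ℝ) + 1) σ (fun _ => 0) q (by positivity) hqp
      (cube_unitLeaf N).unit j hj.2
      (fun x y => |sdot ((cubeLeaf N).fld x) ((cubeLeaf N).fld y) - q j|) (1 + |q j|)
      (fun x y => ⟨abs_nonneg _, (abs_sub _ _).trans
        (add_le_add (Gen.abs_sdot_fld_le (cube_unitLeaf N) x y) le_rfl)⟩) ?_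
    refine ((Finset.measurable_sum _ fun i _ => ?_).sub_const _).abs
    exact (((measurable_pi_apply i).comp ((cubeLeaf N).fld_meas.comp measurable_fst))).mul
      ((measurable_pi_apply i).comp ((cubeLeaf N).fld_meas.comp measurable_snd))
  refine (mul_le_mul_of_nonneg_left (sum_le_sum hj) (by unfold mass; positivity)).trans ?_
  rw [← mul_sum, cubeTotErr]
  have : ∑ j ∈ Finset.Icc 1 k, cubeErr f N M k σ q j ≤ ∑ j ∈ Finset.Icc 0 k, cubeErr f N M k σ q j :=
    sum_le_sum_of_subset_of_nonneg (Finset.Icc_subset_Icc_left zero_le_one)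
      fun j _ _ => cube_err_nonneg f N M k σ q j
  calc mass k * (Cp * ∑ j ∈ Finset.Icc 1 k, cubeErr f N M k σ q j)
      = Cp * (mass k * ∑ j ∈ Finset.Icc 1 k, cubeErr f N M k σ q j) := by ring
    _ ≤ _ := mul_le_mul_of_nonneg_left
        (mul_le_mul_of_nonneg_left this (by unfold mass; positivity)) hCp

/-- The change of the tails under one more spin, summed over the levels. -/
noncomputable def shiftSum (f : ℝ → ℝ) (N M k : ℕ) (σ : ℕ → ℝ) : ℝ :=
  ∑ j ∈ Finset.Icc 1 k, |tail k (cubeQ f (N + 1) M k σ) j - tail k (cubeQ f N M k σ) j|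

/-- One more spin gains at least the variational value. -/
theorem gain_value (hP : CubePathStmt) (hPhi : PhiStmt) (hSp : SpinStmt) {L : ℝ} (hm : Measurable f)
    (hL : ∀ u, |f u| ≤ L) (hf : Good f) {D α d R Rr T Cv C1 εc εb s β u : ℝ} {N M : ℕ}
    {σ : ℕ → ℝ} (hDer : ∀ x, |deriv f x| ≤ D) (hα : 0 ≤ α) (hd : 0 < d) (hd1 : d ≤ 1)
    (hcap : ∀ (q r : ℕ → ℝ), IsPath k q → IsVar k r → ∃ r' : ℕ → ℝ, IsVar k r' ∧ r' k ≤ R ∧
      spinObj k (fun l => (1 - d) * q l) r ≤ spinObj k q r' + d)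
    (hk : 1 ≤ k) (hσ : ∀ l ∈ Finset.Icc 1 k, 0 < σ l) (hcum : ∀ j ≤ k, cum σ j ≤ β)
    (hT : (M : ℝ) / (N + 1) ≤ T) (hRr : β + T * D ^ 2 ≤ Rr) (hR : 0 ≤ R) (hu : 0 ≤ u) (hs : 0 < s)
    (hεb : 0 ≤ εb)
    (hcav : |cubeGain f N M k σ 1 0
        - (spinG k (bump (rhoOf k f ((M : ℝ) / (N + 1)) σ (cubeQ f N M k σ)) 1 0)
          + mass k / 2 * ∑ l ∈ Finset.Icc 1 k,
            (rhoOf k f ((M : ℝ) / (N + 1)) σ (cubeQ f N M k σ) l - cum σ l) * cubeQ f N M k σ l)|
      ≤ Cv * u + εc)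
    (hcons : ∀ j ∈ Finset.Icc 1 k, |tail k (cubeQ f (N + 1) M k σ) j
        - spinTail k (rhoOf k f ((M : ℝ) / (N + 1)) σ (cubeQ f N M k σ)) j|
      ≤ C1 * ((u + εb) / s + √s)) :
    cubeVal k f α - α * phiK k f (cubeQ f N M k σ)
        - (d * (α * D ^ 2 + 1) + (R + Rr) / 2 * (|C1| * (εb / s + √s)) + β / 2 + εc)
        - ((Cv + (R + Rr) / 2 * (|C1| / s)) * u + (R + Rr) / 2 * shiftSum f N M k σ)
      ≤ ((N : ℝ) + 2) * cubeFree f (N + 1) M k σ - ((N : ℝ) + 1) * cubeFree f N M k σ := by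
  set q := cubeQ f N M k σ with hqdef
  set t := (M : ℝ) / (N + 1) with ht
  have hq : IsPath k q := hP f L hm hL N M k σ
  have ht0 : 0 ≤ t := by positivity
  have hphi := hPhi.1 f D hf hDer k q q hq hq
  set ρ := rhoOf k f t σ q with hρ
  have hvar : IsVar k ρ ∧ ∀ j < k, ρ j < ρ (j + 1) := by
    have key : ∀ j < k, ρ j < ρ (j + 1) := fun j hj => by
      have hσj := pow_pos (hσ (j + 1) (Finset.mem_Icc.2 ⟨by omega, hj⟩)) 2
      rcases Nat.eq_zero_or_pos j with h | h
      · subst h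
        simp only [hρ, rhoOf, if_pos, zero_add, one_ne_zero, if_false, Finset.Icc_self,
          Finset.sum_singleton]
        simp only [zero_add] at hσj
        linarith [mul_nonneg ht0 (hphi.2.2.1 1 hj).1]
      · simp only [hρ, rhoOf, if_neg h.ne', if_neg (Nat.succ_ne_zero j)]
        rw [Finset.sum_Icc_succ_top (by omega)]
        linarith [mul_le_mul_of_nonneg_left (hphi.2.2.2 j hj) ht0]
    exact ⟨⟨by simp [hρ, rhoOf], fun j hj => (key j hj).le⟩, key⟩
  have hρk : ρ k ≤ Rr := by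
    have hg := hphi.2.2.1 k le_rfl
    simp only [hρ, rhoOf, if_neg (show k ≠ 0 by omega)]
    have hc := hcum k le_rfl
    rw [cum] at hc
    linarith [mul_le_mul hT hg.2 hg.1 (ht0.trans hT)]
  have hρ0 : 0 ≤ ρ k := by
    simp only [hρ, rhoOf, if_neg (show k ≠ 0 by omega)]
    exact add_nonneg (sum_nonneg fun i _ => sq_nonneg _) (mul_nonneg ht0 (hphi.2.2.1 k le_rfl).1)
  -- the concave problem at the damped path
  set qd : ℕ → ℝ := fun l => (1 - d) * q l with hqd
  have hqdp : IsPath k qd := by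
    refine ⟨by simp [hqd, hq.1], fun j hj => mul_le_mul_of_nonneg_left (hq.2.1 j hj) (by linarith), ?_⟩
    exact (mul_le_of_le_one_left (path_mem hq le_rfl).1 (by linarith)).trans hq.2.2
  have hphid : phiK k f qd ≤ phiK k f q + D ^ 2 * d := by
    have h := (abs_le.1 (hPhi.1 f D hf hDer k qd q hqdp hq).1).2
    have h1 : mass k * ∑ j ∈ Finset.Icc 1 k, |qd j - q j| ≤ d := by
      have h2 : ∀ j ∈ Finset.Icc 1 k, |qd j - q j| ≤ d := fun j hj => by
        have hm' := path_mem hq (Finset.mem_Icc.1 hj).2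
        simp only [hqd, abs_le]
        have := mul_le_of_le_one_right hd.le hm'.2
        have := mul_nonneg hd.le hm'.1
        constructor <;> linarith
      have h3 := sum_le_sum h2
      rw [sum_const, Nat.card_Icc, nsmul_eq_mul] at h3
      refine (mul_le_mul_of_nonneg_left h3 (by unfold mass; positivity)).trans ?_
      rw [← mul_assoc]
      exact mul_le_of_le_one_left hd.le (by simpa using mass_card k)
    linarith [mul_le_mul_of_nonneg_left h1 (sq_nonneg D)]
  set e := |C1| * ((u + εb) / s + √s) + shiftSum f N M k σ with he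
  have hetail : ∀ j ∈ Finset.Icc 1 k, |tail k q j - spinTail k ρ j| ≤ e := fun j hj => by
    refine (abs_sub_le _ (tail k (cubeQ f (N + 1) M k σ) j) _).trans ?_
    have h1 : |tail k q j - tail k (cubeQ f (N + 1) M k σ) j| ≤ shiftSum f N M k σ := by
      rw [abs_sub_comm]
      exact single_le_sum
        (f := fun j => |tail k (cubeQ f (N + 1) M k σ) j - tail k (cubeQ f N M k σ) j|)
        (fun i _ => abs_nonneg _) hj
    have h2 := (hcons j hj).trans (mul_le_mul_of_nonneg_right (le_abs_self C1)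
      (by positivity : 0 ≤ (u + εb) / s + √s))
    linarith
  have hshift0 : 0 ≤ shiftSum f N M k σ := sum_nonneg fun _ _ => abs_nonneg _
  have he0 : 0 ≤ e := by positivity
  have hsup : spinSup k qd ≤ spinObj k q ρ + e / 2 * (R + Rr) + d := by
    refine csSup_le (hSp.2.1 k qd hqdp).1 ?_
    rintro _ ⟨r, hr, rfl⟩
    obtain ⟨r', hr', hr'R, hle⟩ := hcap q r hq hr
    have h1 := hSp.1 k q r' ρ e hr' hvar.1 hvar.2 hetail
    have h2 : e / 2 * (r' k + ρ k) ≤ e / 2 * (R + Rr) :=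
      mul_le_mul_of_nonneg_left (by linarith) (by positivity)
    linarith
  have hval : cubeVal k f α ≤ spinSup k qd + α * phiK k f qd :=
    csInf_le (valSet_ok hSp hPhi hm hL hα k).2 ⟨qd, hqdp, rfl⟩
  have hobj : spinG k ρ + mass k / 2 * ∑ l ∈ Finset.Icc 1 k, (ρ l - cum σ l) * q l
      = spinObj k q ρ - mass k / 2 * ∑ l ∈ Finset.Icc 1 k, cum σ l * q l := by
    rw [spinObj, add_sub_assoc, ← mul_sub, ← sum_sub_distrib]
    congr 2
    exact sum_congr rfl fun l _ => by ring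
  have hcq : mass k / 2 * ∑ l ∈ Finset.Icc 1 k, cum σ l * q l ≤ β / 2 := by
    have h1 : ∀ l ∈ Finset.Icc 1 k, cum σ l * q l ≤ β := fun l hl =>
      (mul_le_of_le_one_right (sum_nonneg fun i _ => sq_nonneg _)
        (path_mem hq (Finset.mem_Icc.1 hl).2).2).trans (hcum l (Finset.mem_Icc.1 hl).2)
    have h2 := sum_le_sum h1
    rw [sum_const, Nat.card_Icc, nsmul_eq_mul] at h2
    have hβ : 0 ≤ β := by simpa [cum] using hcum 0 (Nat.zero_le k)
    refine (mul_le_mul_of_nonneg_left h2 (by unfold mass; positivity)).trans ?_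
    have := mul_le_of_le_one_left hβ (mass_card k)
    simp only [Nat.add_sub_cancel]
    linarith
  rw [bump_zero, cubeGain_zero, hobj, abs_le] at hcav
  have h5 := mul_le_mul_of_nonneg_left hphid hα
  have g1 : spinObj k q ρ - β / 2 - Cv * u - εc
      ≤ ((N : ℝ) + 2) * cubeFree f (N + 1) M k σ - ((N : ℝ) + 1) * cubeFree f N M k σ := by
    linarith [hcav.1]
  have g2 : cubeVal k f α - α * phiK k f q - d * (α * D ^ 2 + 1) - e / 2 * (R + Rr)
      ≤ spinObj k q ρ := by linarith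
  have g3 : e / 2 * (R + Rr) = (R + Rr) / 2 * (|C1| * (εb / s + √s))
      + (R + Rr) / 2 * (|C1| / s) * u + (R + Rr) / 2 * shiftSum f N M k σ := by
    rw [he]; ring
  linarith only [g1, g2, g3]

/-- One step of the dimension averaged over the box. -/
theorem cube_box_step (hP : CubePathStmt) (hPhi : PhiStmt) (hR : CubeRegStmt) {L : ℝ}
    (hm : Measurable f) (hL : ∀ u, |f u| ≤ L) (hf : Good f) {α D Cp θ V K1 Ks S εsh η : ℝ}
    {a N M : ℕ} (hα : α = a + θ) (hθ0 : 0 ≤ θ) (hθ1 : θ ≤ 1) (hDer : ∀ u, |deriv f u| ≤ D)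
    (hCp : 0 ≤ Cp) (hK1 : 0 ≤ K1) (hKs : 0 ≤ Ks) (hη : 0 < η)
    (hint : ∀ N M, Integrable (fun y => cubeFree f N M k (lift y)) (boxP (fun _ : Fin k => η) η))
    (hinc : ∀ M' σ, |((N : ℝ) + 1) * (cubeFree f N (M' + 1) k σ - cubeFree f N M' k σ)
      - phiK k f (cubeQ f N M' k σ)| ≤ Cp * cubeTotErr f N M' k σ)
    (hpath : ∀ M' σ, mass k * ∑ j ∈ Finset.Icc 1 k, |cubeQ f N (M' + 1) k σ j - cubeQ f N M' k σ j|
      ≤ Cp * cubeTotErr f N M' k σ)
    (hgain : ∀ b ≤ a + 1, ∀ y ∈ boxSet (fun _ : Fin k => η) η,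
      V - α * phiK k f (cubeQ f N (M + b) k (lift y))
          - (K1 * √(cubeTotErr f N (M + b) k (lift y) + mass k)
            + Ks * shiftSum f N (M + b) k (lift y))
        ≤ ((N : ℝ) + 2) * cubeFree f (N + 1) (M + b) k (lift y)
          - ((N : ℝ) + 1) * cubeFree f N (M + b) k (lift y))
    (hsync : ∀ b ≤ a + 1, boxAvg k (fun _ : Fin k => η) η (fun σ => cubeTotErr f N (M + b) k σ) ≤ S)
    (hshift : ∀ b ≤ a + 1, ∀ j ∈ Finset.Icc 1 k, boxAvg k (fun _ : Fin k => η) η (fun σ =>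
      |tail k (cubeQ f (N + 1) (M + b) k σ) j - tail k (cubeQ f N (M + b) k σ) j|) ≤ εsh) :
    V - (a + 2 : ℕ) * ((K1 + 2 * (Cp + (α + a + 1) * (D ^ 2 * Cp))) * √(S + mass k)
        + Ks * (k * εsh))
      ≤ (1 - θ) * (((N : ℝ) + 2) * boxAvg k (fun _ : Fin k => η) η (cubeFree f (N + 1) (M + a) k))
        + θ * (((N : ℝ) + 2)
          * boxAvg k (fun _ : Fin k => η) η (cubeFree f (N + 1) (M + a + 1) k))
        - ((N : ℝ) + 1) * boxAvg k (fun _ : Fin k => η) η (cubeFree f N M k) := by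
  set bx : Fin k → ℝ := fun _ => η with hbx
  obtain ⟨hp, hae⟩ := boxP_facts bx hη
  have hα0 : 0 ≤ α := by rw [hα]; positivity
  have hm0 : (0 : ℝ) < mass k := by unfold mass; positivity
  set K2 := K1 + 2 * (Cp + (α + a + 1) * (D ^ 2 * Cp)) with hK2
  have hK20 : 0 ≤ K2 := by positivity
  set P := fun y : Fin k → ℝ => ∑ b ∈ range (a + 2),
    (K2 * √(cubeTotErr f N (M + b) k (lift y) + mass k) + Ks * shiftSum f N (M + b) k (lift y))
    with hPdef
  have hpt : ∀ y ∈ boxSet bx η, V - P y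
      ≤ (1 - θ) * (((N : ℝ) + 2) * cubeFree f (N + 1) (M + a) k (lift y))
        + θ * (((N : ℝ) + 2) * cubeFree f (N + 1) (M + (a + 1)) k (lift y))
        - ((N : ℝ) + 1) * cubeFree f N (M + 0) k (lift y) := by
    intro y hy
    have hτ0 : ∀ b, 0 ≤ cubeTotErr f N (M + b) k (lift y) := fun b => cube_tot_nonneg _ _ _ _ _
    refine le_trans ?_ (step_abs (α := α) (V := V) (n := (N : ℝ) + 1) (n' := (N : ℝ) + 2)
      (Cp := Cp) (Dp := D ^ 2 * Cp)
      (F0 := fun b => cubeFree f N (M + b) k (lift y))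
      (F1 := fun b => cubeFree f (N + 1) (M + b) k (lift y))
      (φ := fun b => phiK k f (cubeQ f N (M + b) k (lift y)))
      (τ := fun b => cubeTotErr f N (M + b) k (lift y))
      (E := fun b => K1 * √(cubeTotErr f N (M + b) k (lift y) + mass k)
        + Ks * shiftSum f N (M + b) k (lift y))
      hα hθ0 hθ1 hCp (by positivity) hτ0
      (fun b => add_nonneg (mul_nonneg hK1 (sqrt_nonneg _))
        (mul_nonneg hKs (sum_nonneg fun _ _ => abs_nonneg _)))
      (fun b _ => by simp only [← add_assoc]; linarith [(abs_le.1 (hinc (M + b) (lift y))).1])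
      (fun b _ => by
        simp only [← add_assoc]
        refine (hPhi.1 f D hf hDer k _ _ (hP f L hm hL N (M + b + 1) k _)
          (hP f L hm hL N (M + b) k _)).1.trans ?_
        have := mul_le_mul_of_nonneg_left (hpath (M + b) (lift y)) (sq_nonneg D)
        linarith)
      (fun b hb => hgain b hb y hy))
    have hc : 0 ≤ Cp + (α + a + 1) * (D ^ 2 * Cp) := by positivity
    have hU : ∑ b ∈ range (a + 2), cubeTotErr f N (M + b) k (lift y)
        ≤ ∑ b ∈ range (a + 2), 2 * √(cubeTotErr f N (M + b) k (lift y) + mass k) :=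
      sum_le_sum fun b _ => by
        have h1 := hτ0 b
        have h2 := (abs_le.1 ((hR f L hm hL N (M + b) k).2.2 (lift y))).2
        have h3 : mass k ≤ 1 := by
          unfold mass; rw [div_le_one (by positivity)]; linarith [(Nat.cast_nonneg k : (0 : ℝ) ≤ k)]
        have h4 := Real.sq_sqrt (show 0 ≤ cubeTotErr f N (M + b) k (lift y) + mass k by linarith)
        nlinarith [sqrt_nonneg (cubeTotErr f N (M + b) k (lift y) + mass k)]
    have := mul_le_mul_of_nonneg_left hU hc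
    simp only [hPdef, hK2, sum_add_distrib, ← mul_sum] at this ⊢
    linarith
  have hu : ∀ b ∈ range (a + 2),
      Integrable (fun y => √(cubeTotErr f N (M + b) k (lift y) + mass k)) (boxP bx η) ∧
      ∫ y, √(cubeTotErr f N (M + b) k (lift y) + mass k) ∂boxP bx η ≤ √(S + mass k) := fun b hb =>
    root_avg hη (hR f L hm hL N (M + b) k).1 (fun y => cube_tot_nonneg _ _ _ _ _)
      (fun y => (abs_le.1 ((hR f L hm hL N (M + b) k).2.2 _)).2)
      (hsync b (by have := mem_range.1 hb; omega))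
  have hsh : ∀ b ∈ range (a + 2), Integrable (fun y => shiftSum f N (M + b) k (lift y)) (boxP bx η) ∧
      ∫ y, shiftSum f N (M + b) k (lift y) ∂boxP bx η ≤ k * εsh := by
    intro b hb
    have hi : ∀ j ∈ Finset.Icc 1 k, Integrable (fun y =>
        |tail k (cubeQ f (N + 1) (M + b) k (lift y)) j - tail k (cubeQ f N (M + b) k (lift y)) j|)
        (boxP bx η) := fun j hj => by
      refine Integrable.of_bound (Measurable.aestronglyMeasurable ?_) 1 (ae_of_all _ fun y => ?_)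
      · simp only [tail]
        exact (((Finset.measurable_sum _ fun l _ => (hR f L hm hL (N + 1) (M + b) k).2.1 l).const_mul
          _).sub ((Finset.measurable_sum _ fun l _ => (hR f L hm hL N (M + b) k).2.1 l).const_mul _)).abs
      · have h1 := tail_mem (hP f L hm hL (N + 1) (M + b) k (lift y)) (Finset.mem_Icc.1 hj).1
        have h2 := tail_mem (hP f L hm hL N (M + b) k (lift y)) (Finset.mem_Icc.1 hj).1
        simp only [Real.norm_eq_abs, abs_abs, abs_le]
        constructor <;> linarith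
    refine ⟨integrable_finsetSum _ hi, ?_⟩
    simp only [shiftSum]
    rw [integral_finsetSum _ hi]
    refine (sum_le_sum fun j hj => hshift b (by have := mem_range.1 hb; omega) j hj).trans_eq ?_
    simp
  have iP : Integrable P (boxP bx η) :=
    integrable_finsetSum _ fun b hb => ((hu b hb).1.const_mul _).add ((hsh b hb).1.const_mul _)
  have i1 := ((hint (N + 1) (M + a)).const_mul ((N : ℝ) + 2)).const_mul (1 - θ)
  have i2 := ((hint (N + 1) (M + (a + 1))).const_mul ((N : ℝ) + 2)).const_mul θ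
  have i3 := (hint N (M + 0)).const_mul ((N : ℝ) + 1)
  have i12 : Integrable (fun y => (1 - θ) * (((N : ℝ) + 2) * cubeFree f (N + 1) (M + a) k (lift y))
      + θ * (((N : ℝ) + 2) * cubeFree f (N + 1) (M + (a + 1)) k (lift y))) (boxP bx η) := i1.add i2
  have hI := integral_mono_ae ((integrable_const V).sub iP) (i12.sub i3)
    (by filter_upwards [hae] with y hy using hpt y hy)
  simp only [Pi.sub_apply] at hI
  rw [integral_sub (integrable_const _) iP, integral_sub i12 i3, integral_add i1 i2] at hI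
  simp only [integral_const_mul, integral_const, probReal_univ, one_smul, smul_eq_mul, one_mul] at hI
  have hPint : ∫ y, P y ∂boxP bx η
      ≤ (a + 2 : ℕ) * (K2 * √(S + mass k) + Ks * (k * εsh)) := by
    simp only [hPdef]
    rw [integral_finsetSum _ fun b hb =>
      (show Integrable (fun y => K2 * √(cubeTotErr f N (M + b) k (lift y) + mass k)
          + Ks * shiftSum f N (M + b) k (lift y)) (boxP bx η) from
        ((hu b hb).1.const_mul K2).add ((hsh b hb).1.const_mul Ks))]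
    refine (sum_le_sum (g := fun _ => K2 * √(S + mass k) + Ks * (k * εsh)) fun b hb => ?_).trans_eq
      (by rw [sum_const, card_range, nsmul_eq_mul])
    rw [integral_add ((hu b hb).1.const_mul _) ((hsh b hb).1.const_mul _), integral_const_mul,
      integral_const_mul]
    exact add_le_add (mul_le_mul_of_nonneg_left (hu b hb).2 hK20)
      (mul_le_mul_of_nonneg_left (hsh b hb).2 hKs)
  simp only [Nat.add_zero, ← add_assoc, ← boxAvg_eq] at hI
  simp only [hK2] at hI hPint ⊢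
  linarith

/-- `CubeLowerStmt` from the other interface statements. -/
theorem cube_lower (hD : DerivStmt) (hPat : PatternStmt) (hPhi : PhiStmt) (hP : CubePathStmt)
    (hR : CubeRegStmt) (hSync : CubeSyncStmt) (hSp : SpinStmt) (hCav : CubeCavityStmt)
    (hCon : CubeConsistStmt) (hSh : CubeShiftStmt) : CubeLowerStmt := by
  intro f α hf hα ε hε
  obtain ⟨L, hL⟩ := hf.2.exists_bound_of_continuous hf.1.continuous
  simp only [Real.norm_eq_abs] at hL
  obtain ⟨D, hDer⟩ := hf.2.deriv.exists_bound_of_continuous (hf.1.continuous_deriv (by norm_num))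
  simp only [Real.norm_eq_abs] at hDer
  have hm : Measurable f := hf.1.continuous.measurable
  have hL0 : 0 ≤ L := (abs_nonneg _).trans (hL 0)
  obtain ⟨Cp, hCp0, hCp⟩ := hPat f hf
  obtain ⟨Cs, hCs0, hCs⟩ := hSync
  set T : ℝ := α + 2 with hT
  have hT0 : 0 ≤ T := by linarith
  obtain ⟨Cv, hCv⟩ := hCav f T 1 hf
  obtain ⟨C1, hC1⟩ := hCon f T 1 hf
  set A := exp (8 * L) * L + 2 * Cp with hAdef
  have hA0 : 0 ≤ A := by positivity
  set ε₁ := ε / 16 with hε₁
  have hε₁0 : 0 < ε₁ := by positivity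
  obtain ⟨d, hd, hd1, hdε⟩ : ∃ d : ℝ, 0 < d ∧ d ≤ 1 ∧ d * (α * D ^ 2 + 1) ≤ ε₁ := by
    refine ⟨min 1 (ε₁ / (α * D ^ 2 + 1)), by positivity, min_le_left _ _, ?_⟩
    rw [← le_div_iff₀ (by positivity)]
    exact min_le_right _ _
  obtain ⟨R₀, hR₀⟩ := hSp.2.2 d hd hd1
  set R := max R₀ 0 with hRdef
  set Rr := 1 + T * D ^ 2 with hRr
  set W := (R + Rr) / 2 * |C1| with hW
  have hR0 : 0 ≤ R := le_max_right _ _
  have hW0 : 0 ≤ W := by positivity
  obtain ⟨s, hs, hs1, hsε⟩ : ∃ s : ℝ, 0 < s ∧ s ≤ 1 ∧ W * √s ≤ ε₁ := by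
    refine ⟨min 1 ((ε₁ / (W + 1)) ^ 2), by positivity, min_le_left _ _, ?_⟩
    have h1 : √(min 1 ((ε₁ / (W + 1)) ^ 2)) ≤ ε₁ / (W + 1) := by
      rw [← Real.sqrt_sq (by positivity : 0 ≤ ε₁ / (W + 1))]
      exact (Real.sqrt_le_sqrt (min_le_right _ _)).trans_eq (by rw [Real.sqrt_sq (by positivity)])
    refine (mul_le_mul_of_nonneg_left h1 hW0).trans ?_
    rw [← mul_div_assoc, div_le_iff₀ (by positivity)]
    linarith
  set K1 := |Cv| + (R + Rr) / 2 * (|C1| / s) with hK1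
  have hK10 : 0 ≤ K1 := by positivity
  set Ks := (R + Rr) / 2 with hKs
  have hKs0 : 0 ≤ Ks := by positivity
  set a := ⌊α⌋₊ with ha
  set θ := α - a with hθ
  have hθ0 : 0 ≤ θ := by rw [hθ]; linarith [Nat.floor_le hα.le]
  have hθ1 : θ ≤ 1 := by rw [hθ]; linarith [Nat.lt_floor_add_one α]
  set Kt := (a + 2 : ℕ) * (K1 + 2 * (Cp + (α + a + 1) * (D ^ 2 * Cp))) with hKt
  have hKt0 : 0 ≤ Kt := by positivity
  obtain ⟨K0, hK0⟩ : ∃ K0 : ℕ, ∀ k, K0 ≤ k →
      Kt * √(Cs + 1) / ((k : ℝ) + 1) ^ (1 / 4 : ℝ) ≤ ε₁ := by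
    have h : Filter.Tendsto (fun k : ℕ => ((k : ℝ) + 1) ^ (1 / 4 : ℝ)) Filter.atTop Filter.atTop :=
      (tendsto_rpow_atTop (by norm_num)).comp
        (tendsto_natCast_atTop_atTop.atTop_add tendsto_const_nhds)
    exact Filter.eventually_atTop.1
      ((h.const_div_atTop (Kt * √(Cs + 1))).eventually (ge_mem_nhds hε₁0))
  refine ⟨K0 + 1, fun k hk => ?_⟩
  have hk1 : 1 ≤ k := by omega
  obtain ⟨η, hη, hη1, hη2⟩ : ∃ η : ℝ, 0 < η ∧ η ≤ 1 / 2 ∧ (k : ℝ) * 4 * η ^ 2 ≤ min 1 ε₁ := by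
    refine ⟨min (1 / 2) (min 1 ε₁ / ((k : ℝ) * 4 + 1)), by positivity, min_le_left _ _, ?_⟩
    set η := min (1 / 2) (min 1 ε₁ / ((k : ℝ) * 4 + 1)) with h
    have h2 : η ≤ min 1 ε₁ / ((k : ℝ) * 4 + 1) := min_le_right _ _
    rw [le_div_iff₀ (by positivity)] at h2
    have h0 : 0 ≤ η := by positivity
    have h1 : η ≤ 1 := (min_le_left _ _).trans (by norm_num)
    have h3 : (k : ℝ) * 4 * η ^ 2 ≤ k * 4 * η := by
      rw [pow_two, ← mul_assoc]; exact mul_le_of_le_one_right (by positivity) h1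
    linarith
  set εb := ε₁ * s / (W + 1) with hεb
  have hεb0 : 0 < εb := by positivity
  have hεbε : W * (εb / s) ≤ ε₁ := by
    rw [hεb, show W * (ε₁ * s / (W + 1) / s) = W * ε₁ / (W + 1) by field_simp,
      div_le_iff₀ (by positivity)]
    linarith
  set εs := (ε₁ / (Kt + 1)) ^ 2 with hεs
  have hεs0 : 0 < εs := by positivity
  set εsh := ε₁ / ((a + 2 : ℕ) * Ks * k + 1) with hεsh
  have hεsh0 : 0 < εsh := by positivity
  obtain ⟨N₁, hN₁⟩ := hCs f L hm hL k η η η T εs hη hη hεs0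
  obtain ⟨N₂, hN₂⟩ := hCv k ε₁ hε₁0
  obtain ⟨N₃, hN₃⟩ := hC1 k εb s hεb0 hs hs1
  obtain ⟨N₄, hN₄⟩ := hSh f hf k η η η T εsh hη hη hεsh0
  obtain ⟨N₅, hN₅⟩ := exists_nat_ge (α + 2 * (a : ℝ) + 2)
  set n₀ := max (max N₁ N₂) (max (max N₃ N₄) N₅) + 1 with hn₀
  set bx : Fin k → ℝ := fun _ => η with hbx
  set G := fun (N M : ℕ) => boxAvg k bx η (cubeFree f N M k) with hG
  set g := fun (n M : ℕ) => (n : ℝ) * G (n - 1) M with hg
  set c := d * (α * D ^ 2 + 1) + Ks * (|C1| * (εb / s + √s)) + min 1 ε₁ / 2 + ε₁ with hc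
  set S := Cs / √((k : ℝ) + 1) + εs with hS
  set V := cubeVal k f α - c - (Kt * √(S + mass k) + (a + 2 : ℕ) * (Ks * (k * εsh))) with hV
  have hPN : ∀ N M σ, IsPath k (Gen.qf (cubeLeaf N) f M k ((N : ℝ) + 1) σ) := fun N M σ =>
    hP f L hm hL N M k σ
  have hGint : ∀ N M, Integrable (fun y => cubeFree f N M k (lift y)) (boxP bx η) := fun N M =>
    Gen.integrable_fr (S := cubeLeaf N) hD (by positivity) (hPN N) hm hL hη
      (R := 2 * η) (by positivity) fun i => ⟨hη.le, by simp [hbx]; linarith⟩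
  have hinc : ∀ (N M : ℕ) σ, |((N : ℝ) + 1) * (cubeFree f N (M + 1) k σ - cubeFree f N M k σ)
      - phiK k f (cubeQ f N M k σ)| ≤ Cp * cubeTotErr f N M k σ := fun N M σ =>
    cube_pattern_step hP hm hL (fun n M k S N σ β p h1 h2 h3 => (hCp n M k S N σ β p h1 h2 h3).1) N M σ
  have hgM : ∀ n M M' : ℕ, 1 ≤ n → |g n M - g n M'| ≤ A * |(M : ℝ) - M'| :=
    cube_avg_lip hη hGint fun N M σ => cube_close hP hR hPhi hm hL hCp0 (hinc N M σ)
  have hstep : ∀ t, ∀ M ≤ ⌊α * n₀⌋₊ + (a + 1) * t,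
      g (n₀ + t) M + V ≤ (1 - θ) * g (n₀ + t + 1) (M + a) + θ * g (n₀ + t + 1) (M + a + 1) := by
    intro t M hM
    obtain ⟨N, hN⟩ : ∃ N, n₀ + t = N + 1 := ⟨n₀ + t - 1, by omega⟩
    have hNb : N₁ ≤ N ∧ N₂ ≤ N ∧ N₃ ≤ N ∧ N₄ ≤ N ∧ (N₅ : ℝ) ≤ N :=
      ⟨by omega, by omega, by omega, by omega, Nat.cast_le.2 (by omega)⟩
    have hMb : ∀ b ≤ a + 1, ((M + b : ℕ) : ℝ) ≤ T * N := fun b hb =>
      patterns_le hα.le hM hN hb (hN₅.trans hNb.2.2.2.2)
    have h := cube_box_step hP hPhi hR hm hL hf (α := α) (θ := θ) (V := cubeVal k f α - c)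
      (K1 := K1) (Ks := Ks) (S := S) (εsh := εsh) (η := η) (a := a) (N := N) (M := M)
      (by rw [hθ]; ring) hθ0 hθ1 hDer hCp0 hK10 hKs0 hη hGint (hinc N)
      (cube_path_step hP hm hL hCp0
        (fun n M k S N σ β q h1 h2 h3 => (hCp n M k S N σ β q h1 h2 h3).2.2) N)
      (fun b hb y hy => by
        have hyl : ∀ i, η ≤ y i ∧ y i ≤ 2 * η := fun i => by
          have := hy i trivial
          simp only [Set.mem_Icc] at this
          exact ⟨this.1, by linarith⟩
        have hy2 : ∀ i, 0 ≤ y i ∧ y i ≤ 2 * η := fun i => ⟨hη.le.trans (hyl i).1, (hyl i).2⟩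
        have hcum : ∀ j ≤ k, cum (lift y) j ≤ min 1 ε₁ := fun j hj =>
          (sum_sq_lift_le hy2 j hj).trans (by linarith)
        have hσ0 : ∀ l, 0 ≤ lift y l := fun l => (lift_bound (by positivity) hy2 l).1
        have hB : ∑ i ∈ Finset.Icc 1 k, lift y i ^ 2 ≤ 1 :=
          (hcum k le_rfl).trans (min_le_left _ _)
        have hv := gain_value (σ := lift y) (N := N) (M := M + b) hP hPhi hSp hm hL hf hDer hα.le
          hd hd1 (R := R) (fun q r hq hr => by
            obtain ⟨r', h1, h2, h3⟩ := hR₀ k q r hq hr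
            exact ⟨r', h1, h2.trans (le_max_left _ _), h3⟩) hk1
          (fun l hl => by
            obtain ⟨h1, h2⟩ := Finset.mem_Icc.1 hl
            have := lift_succ y ⟨l - 1, by omega⟩
            simp only [show l - 1 + 1 = l by omega] at this
            rw [this]
            exact hη.trans_le (hyl _).1) hcum
          (T := T) (by
            rw [div_le_iff₀ (by positivity)]
            linarith [hMb b hb, hT0])
          (Rr := Rr) (by rw [hRr]; linarith [min_le_left (1 : ℝ) ε₁]) hR0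
          (sqrt_nonneg (cubeTotErr f N (M + b) k (lift y) + mass k)) hs hεb0.le
          ((hN₂ N hNb.2.1 (M + b) (hMb b hb) (lift y) hσ0 hB 1 0 le_rfl hk1 le_rfl zero_le_one).trans
            (add_le_add (mul_le_mul_of_nonneg_right (le_abs_self Cv) (sqrt_nonneg _)) le_rfl))
          (hN₃ N hNb.2.2.1 (M + b) (hMb b hb) (lift y) hσ0 hB)
        rw [← hKs, ← hc, ← hK1] at hv
        linarith)
      (fun b hb => hN₁ N hNb.1 (M + b) (hMb b hb) bx fun _ => ⟨le_rfl, le_rfl⟩)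
      (fun b hb => hN₄ N hNb.2.2.2.1 (M + b) (hMb b hb) bx fun _ => ⟨le_rfl, le_rfl⟩)
    rw [mul_add, ← mul_assoc, ← hKt] at h
    simp only [hg, hG]
    rw [show n₀ + t + 1 - 1 = N + 1 by omega, show n₀ + t - 1 = N by omega, hN]
    push_cast
    rw [hV]
    linarith
  rw [Filter.eventually_atTop]
  set E := |g n₀ ⌊α * n₀⌋₊| + n₀ * |V| with hE
  obtain ⟨n₁, hn₁⟩ := exists_nat_ge (max (E / ε₁) (max ((A / ε₁) ^ 2) (3 * A / ε₁)))
  rw [max_le_iff, max_le_iff, div_le_iff₀ hε₁0, div_le_iff₀ hε₁0] at hn₁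
  refine ⟨max n₀ n₁ + 1, fun n hn => ?_⟩
  have hn0 : (0 : ℝ) < n := Nat.cast_pos.2 (by omega)
  have hn1 : (n₁ : ℝ) * ε₁ ≤ n * ε₁ := mul_le_mul_of_nonneg_right (Nat.cast_le.2 (by omega)) hε₁0.le
  have hz : g n ⌊α * n⌋₊ ≤ n * pressureCube f α n + n * ε₁ := by
    obtain ⟨N, hN⟩ : ∃ N, n = N + 1 := ⟨n - 1, by omega⟩
    rw [hN]
    simp only [hg, hG, Nat.add_sub_cancel]
    rw [pressureCube_free f α N k, ← mul_add]
    refine mul_le_mul_of_nonneg_left ?_ (Nat.cast_nonneg _)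
    have : boxAvg k bx η (cubeFree f N ⌊α * ((N + 1 : ℕ) : ℝ)⌋₊ k)
        - cubeFree f N ⌊α * ((N + 1 : ℕ) : ℝ)⌋₊ k (fun _ => 0) ≤ (k : ℝ) * 4 * η ^ 2 :=
      (abs_le.1 (Gen.zero_close (S := cubeLeaf N) hD (N := (N : ℝ) + 1) (by positivity)
        (hPN N) hm hL hη hη le_rfl ⌊α * ((N + 1 : ℕ) : ℝ)⌋₊)).2
    push_cast at this ⊢
    linarith [min_le_right 1 ε₁]
  have hA1 : A * √n ≤ n * ε₁ := by
    have h1 : A / ε₁ ≤ √n := by
      rw [Real.le_sqrt (by positivity) hn0.le]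
      exact hn₁.2.1.trans (Nat.cast_le.2 (by omega))
    rw [div_le_iff₀ hε₁0] at h1
    calc A * √n ≤ √n * ε₁ * √n := mul_le_mul_of_nonneg_right h1 (sqrt_nonneg _)
      _ = √n * √n * ε₁ := by ring
      _ = _ := by rw [Real.mul_self_sqrt hn0.le]
  have h6 : V ≤ pressureCube f α n + 4 * ε₁ :=
    telescope_bound hα.le hθ hθ0 hθ1 hA0 (by omega) (by omega) hgM hstep hz hA1
      (hn₁.2.2.trans hn1) (hn₁.1.trans hn1)
  have hq := mul_le_mul_of_nonneg_left (quarter_bound hCs0 hεs0.le k) hKt0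
  rw [mul_add, ← mul_div_assoc] at hq
  have hKε : Kt * √εs ≤ ε₁ := by
    rw [hεs, Real.sqrt_sq (by positivity), ← mul_div_assoc, div_le_iff₀ (by positivity)]
    linarith
  have hshε : (a + 2 : ℕ) * (Ks * (k * εsh)) ≤ ε₁ := by
    rw [hεsh, show ((a + 2 : ℕ) : ℝ) * (Ks * (k * (ε₁ / ((a + 2 : ℕ) * Ks * k + 1))))
      = (a + 2 : ℕ) * Ks * k * ε₁ / ((a + 2 : ℕ) * Ks * k + 1) by ring,
      div_le_iff₀ (by positivity)]
    linarith
  have hcε : Ks * (|C1| * (εb / s + √s)) ≤ 2 * ε₁ := by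
    rw [← mul_assoc, ← hW, mul_add]
    linarith
  have := hK0 k (by omega)
  rw [hV, hS, hc] at h6
  linarith [min_le_right (1 : ℝ) ε₁]

end Vale.Agent.P157.Cube2.Low
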