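import Vale.Agent.P157.Cube2.Reg
import Vale.Agent.P157.Rsb.SyncGen

/-!
# P157: deterministic overlaps of the perturbed cube systems

`cubeSync : CubeSyncStmt`, the generic synchronization bound at the cube.
-/

open MeasureTheory ProbabilityTheory Real Finset
open Vale.Agent.P157.Rsb

namespace Vale.Agent.P157.Cube2

/-- `cubeSync : CubeSyncStmt`. -/
theorem cubeSync : CubeSyncStmt := by
  refine ⟨8, by norm_num, fun f L hm hL k η B δ T ε hη hδ hε => ?_⟩
  obtain ⟨N₁, h⟩ := Lf.sync_leaf hm hL k η B δ (max T 0) ε hη hδ hε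
  refine ⟨⌈N₁⌉₊, fun N hN M hM a ha => ?_⟩
  have hN1 : N₁ ≤ (N : ℝ) := (Nat.le_ceil _).trans (by exact_mod_cast hN)
  have hT : (M : ℝ) ≤ max T 0 * ((N : ℝ) + 1) := by
    refine hM.trans ?_
    have h1 := le_max_left T 0
    have h2 := le_max_right T 0
    have h3 : (0 : ℝ) ≤ N := Nat.cast_nonneg N
    nlinarith
  exact h (N + 1) (cubeLeaf N) (cube_unit N) ((N : ℝ) + 1) (by linarith) M hT a ha

end Vale.Agent.P157.Cube2
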