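import Vale.Agent.P157.Cube2.GenUpper
import Vale.Agent.P157.Cube2.Intf

/-!
# P157: the upper bound on the Ising cube

`cube_upper : CubeUpperStmt` from the leaf-generic maximum principle.  Without patterns the
perturbed pressure is the one-spin functional, which lies below every affine functional
`spinSup q - tail q . σ^2 / 2`.
-/

open MeasureTheory ProbabilityTheory Real Filter Finset
open Vale.Agent.P157.Rsb

namespace Vale.Agent.P157.Cube2

theorem cubeLeaf_unitLeaf (N : ℕ) : Gen.UnitLeaf (cubeLeaf N) where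
  same := rfl
  det _ := rfl
  unit x := by
    have := cubeField_unit (Nat.le_add_left 1 N) x
    simpa [sdot, cubeLeaf, pow_two] using this

theorem isVar_cum (σ : ℕ → ℝ) (k : ℕ) : IsVar k (cum σ) :=
  ⟨by simp [cum], fun j _ => by
    rw [cum, cum, sum_Icc_succ_top (Nat.le_add_left 1 j)]
    exact le_add_of_nonneg_right (sq_nonneg _)⟩

theorem spinG_cum_le (hSpin : SpinStmt) {k : ℕ} {q : ℕ → ℝ} (hq : IsPath k q) (σ : ℕ → ℝ) :
    spinG k (cum σ) ≤ spinSup k q - (∑ j ∈ Icc 1 k, tail k q j * σ j ^ 2) / 2 := by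
  have h : spinObj k q (cum σ) ≤ spinSup k q :=
    le_csSup (hSpin.2.1 k q hq).2.1 ⟨_, isVar_cum σ k, rfl⟩
  have e := sum_tail_eq_pair (k := k) (q := q) (r := cum σ) (Δ := fun j => σ j ^ 2) (by simp [cum])
    fun i _ => by rw [cum, cum, sum_Icc_succ_top (Nat.le_add_left 1 i)]; ring
  rw [RsbAlg.pair, RsbAlg.wid, ← sum_Icc_one (fun l => q l * cum σ l) k] at e
  rw [spinObj, mass] at h
  linarith

theorem pressureCube_eq_fr (f : ℝ → ℝ) (α : ℝ) (N k : ℕ) :
    pressureCube f α (N + 1)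
      = Gen.fr (cubeLeaf N) f ⌊α * ((N : ℝ) + 1)⌋₊ k ((N : ℝ) + 1) (fun _ => 0) := by
  rw [← show ⌊α * ((N + 1 : ℕ) : ℝ)⌋₊ = ⌊α * ((N : ℝ) + 1)⌋₊ by push_cast; rfl, pressureCube]
  generalize ⌊α * ((N + 1 : ℕ) : ℝ)⌋₊ = M
  have hN : √((N + 1 : ℕ) : ℝ) ≠ 0 := by positivity
  rw [Gen.fr, free, show ((N : ℝ) + 1) = ((N + 1 : ℕ) : ℝ) by push_cast; rfl]
  refine congrArg (· / ((N + 1 : ℕ) : ℝ)) (integral_congr_ae (ae_of_all _ fun g => ?_))
  have h : ham (k := k) (cubeLeaf N) f ((N + 1 : ℕ) : ℝ) (fun _ => 0) (fun _ => 0) g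
      = fun _ x => ∑ a, f (sdot (g a) ((cubeLeaf N).pat x)) := by
    funext z x; simp [ham, cubeLeaf]
  simp only [h, Rsb.val]
  rw [nest_indep _ _ _ _ (by omega)]
  refine congrArg log (Eq.trans ?_ (integral_cubeLaw (N + 1) _).symm)
  refine congrArg (· / 2 ^ (N + 1)) (sum_congr rfl fun x _ => congrArg exp (sum_congr rfl fun a _ => ?_))
  refine congrArg f ?_
  simp only [sdot, cubeLeaf, cubeField, sum_div]
  exact sum_congr rfl fun i _ => (mul_div_assoc _ _ _)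

/-- `CubeUpperStmt` from the other interface statements. -/
theorem cube_upper (hD : DerivStmt) (hPat : PatternStmt) (hPhi : PhiStmt) (hProd : CubeProductStmt)
    (hSpin : SpinStmt) (hPath : CubePathStmt) (hSync : CubeSyncStmt) : CubeUpperStmt := by
  intro f α hf hα ε hε
  obtain ⟨L, hL⟩ := hf.2.exists_bound_of_continuous hf.1.continuous
  simp only [Real.norm_eq_abs] at hL
  have hm : Measurable f := hf.1.continuous.measurable
  obtain ⟨Cs, hCs0, hCs⟩ := hSync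
  obtain ⟨C, hC⟩ := Gen.upper_gen hD hPat hPhi hf hα cubeLeaf cubeLeaf_unitLeaf
    (fun m M k σ => hPath f L hm hL m M k σ) ⟨Cs, hCs0, hCs f L hm hL⟩
  obtain ⟨K, hK⟩ := exists_nat_ge ((C / (ε / 4)) ^ 2)
  refine ⟨K, fun k hk => ?_⟩
  have hsmall : C / √((k : ℝ) + 1) ≤ ε / 4 := by
    have h1 : (C / (ε / 4)) ^ 2 ≤ (k : ℝ) + 1 := by
      linarith [(Nat.cast_le (α := ℝ)).2 hk]
    have h2 : C / (ε / 4) ≤ √((k : ℝ) + 1) :=
      (le_abs_self _).trans (by rw [← sqrt_sq_eq_abs]; exact sqrt_le_sqrt h1)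
    rw [div_le_iff₀ (by positivity)] at h2 ⊢
    linarith
  obtain ⟨_, ⟨q, hq, rfl⟩, hqv⟩ := exists_lt_of_csInf_lt
    (s := (fun q => spinSup k q + α * phiK k f q) '' {q | IsPath k q})
    (Set.Nonempty.image _ ⟨fun _ => 0, isPath_zero k⟩)
    (show cubeVal k f α < cubeVal k f α + ε / 4 by linarith)
  simp only at hqv
  obtain ⟨N₀, hN₀⟩ := eventually_atTop.1 (hC k q (spinSup k q) hq
    (fun R e _ he => ⟨0, fun m _ σ _ => by
      have : Gen.fr (cubeLeaf m) f 0 k ((m : ℝ) + 1) σ = spinG k (cum σ) := hProd.1 f m k σ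
      rw [this]; linarith [spinG_cum_le hSpin hq σ]⟩) (ε / 4) (by linarith))
  refine eventually_atTop.2 ⟨N₀ + 1, fun n hn => ?_⟩
  obtain ⟨N, rfl⟩ : ∃ N, n = N + 1 := ⟨n - 1, by omega⟩
  rw [pressureCube_eq_fr f α N k]
  linarith [hN₀ N (by omega)]

end Vale.Agent.P157.Cube2
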