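import Vale.Agent.P157.Rsb.Approx
import Vale.Agent.P157.Rsb.Deriv
import Vale.Agent.P157.Rsb.Pattern
import Vale.Agent.P157.Rsb.Phi
import Vale.Agent.P157.Cube2.AuxField
import Vale.Agent.P157.Cube2.CavMain
import Vale.Agent.P157.Cube2.Consist
import Vale.Agent.P157.Cube2.Lip
import Vale.Agent.P157.Cube2.Lower
import Vale.Agent.P157.Cube2.Path
import Vale.Agent.P157.Cube2.Product
import Vale.Agent.P157.Cube2.Refine
import Vale.Agent.P157.Cube2.Reg
import Vale.Agent.P157.Cube2.Shift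
import Vale.Agent.P157.Cube2.SpinFacts
import Vale.Agent.P157.Cube2.Sync
import Vale.Agent.P157.Cube2.Upper

/-!
# P157: the variational formula on the cube
-/

open MeasureTheory Filter Topology
open Vale.Agent.P157.Rsb (IsPath phiK)

namespace Vale.Agent.P157.Cube2

theorem cube_main {f : ℝ → ℝ} (hf : Measurable f)
    (hL : ∃ L, ∀ u, |f u| ≤ L) {α : ℝ} (hα : 0 < α) :
    ∃ l, Tendsto (fun N : ℕ => pressureCube f α N) atTop (𝓝 l) ∧
      IsGLB {x | ∃ (k : ℕ) (q : ℕ → ℝ), IsPath k q ∧ x = spinSup k q + α * phiK k f q} l := by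
  obtain ⟨L, hL⟩ := hL
  have hCav := cubeCavity Rsb.phiStmt Rsb.patternStmt
  obtain ⟨l, h1, h2, -⟩ := cube_parisi spin Rsb.phiStmt Rsb.approxStmt cubeLipStmt
    (cube_upper Rsb.deriv_amp Rsb.patternStmt Rsb.phiStmt cubeProduct spin cubePath cubeSync)
    (Low.cube_lower Rsb.deriv_amp Rsb.patternStmt Rsb.phiStmt cubePath cubeReg cubeSync spin hCav
      (cubeConsist hCav AuxF.cubeAux cubeProduct cubePath Rsb.phiStmt)
      (Low.cube_shift Rsb.deriv_amp cubePath cubeTangent cubeReg cubeProduct Rsb.phiStmt Rsb.patternStmt hCav))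
    hf hL hα
  exact ⟨l, h1, h2⟩

theorem cube_sup_bdd (k : ℕ) (q : ℕ → ℝ) (hq : IsPath k q) :
    BddAbove (spinObj k q '' {r | IsVar k r}) := (spin.2.1 k q hq).2.1

end Vale.Agent.P157.Cube2
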