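import Vale.Agent.P157.Cube2.Heat

/-!
# P157: the step of the single-spin recursion differentiated in a parameter
-/

open MeasureTheory ProbabilityTheory Real Filter Topology

namespace Vale.Agent.P157.Cube2

theorem int_exp_sq {u : ℝ} (hu : u < 1 / 2) : Integrable (fun y : ℝ => exp (u * y ^ 2)) γ₁ := by
  rw [show γ₁ = gaussianReal 0 1 from rfl, gaussianReal_of_var_ne_zero _ one_ne_zero,
    integrable_withDensity_iff_integrable_smul' (measurable_gaussianPDF 0 1)
      (Eventually.of_forall fun x => gaussianPDF_lt_top)]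
  refine ((integrable_exp_neg_mul_sq (show 0 < 1 / 2 - u by linarith)).const_mul (√(2 * π))⁻¹).congr
    (Eventually.of_forall fun x => ?_)
  simp only [toReal_gaussianPDF, gaussianPDFReal, NNReal.coe_one, mul_one, sub_zero, smul_eq_mul,
    mul_assoc]
  rw [← exp_add]; congr 2; ring

/-- Change of variance. -/
theorem rescale {c : ℝ} (hc : 0 < c) (G : ℝ → ℝ) :
    ∫ y, G y ∂γ₁ = ∫ x, G (√c * x) * (√c * exp ((1 - c) * x ^ 2 / 2)) ∂γ₁ := by
  rw [integral_gaussianReal_eq_integral_smul one_ne_zero,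
    integral_gaussianReal_eq_integral_smul one_ne_zero]
  have h := Measure.integral_comp_mul_left (fun y => gaussianPDFReal 0 1 y • G y) √c
  have hs : 0 < √c := sqrt_pos.2 hc
  rw [abs_of_pos (inv_pos.2 hs), smul_eq_mul] at h
  rw [show (∫ y, gaussianPDFReal 0 1 y • G y) = √c * ∫ x, gaussianPDFReal 0 1 (√c * x) • G (√c * x) by
    rw [h, ← mul_assoc, mul_inv_cancel₀ hs.ne', one_mul], ← integral_const_mul]
  refine integral_congr_ae (Eventually.of_forall fun x => ?_)
  have e : gaussianPDFReal 0 1 x * exp ((1 - c) * x ^ 2 / 2) = gaussianPDFReal 0 1 (√c * x) := by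
    simp only [gaussianPDFReal, NNReal.coe_one, mul_one, sub_zero, mul_assoc, ← exp_add]
    congr 2
    rw [mul_pow, sq_sqrt hc.le]; ring
  simp only [smul_eq_mul, ← e]
  ring

theorem abs_le_exp_abs (y : ℝ) : |y| ≤ exp |y| := by linarith [add_one_le_exp |y|]

/-- Gaussian integration by parts, twice. -/
theorem ibp2 {a h B K : ℝ} (ha : 0 ≤ a) {G G' G'' : ℝ → ℝ} (hG : ∀ x, HasDerivAt G (G' x) x)
    (hG' : ∀ x, HasDerivAt G' (G'' x) x) (hG''c : Continuous G'')
    (b0 : ∀ y, |G (h + √a * y)| ≤ B * exp (K * |y|))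
    (b1 : ∀ y, |G' (h + √a * y)| ≤ B * exp (K * |y|))
    (b2 : ∀ y, |G'' (h + √a * y)| ≤ B * exp (K * |y|)) :
    ∫ y, (y ^ 2 - 1) * G (h + √a * y) ∂γ₁ = a * ∫ y, G'' (h + √a * y) ∂γ₁ := by
  have c0 : Continuous G := continuous_iff_continuousAt.2 fun x => (hG x).continuousAt
  have c1 : Continuous G' := continuous_iff_continuousAt.2 fun x => (hG' x).continuousAt
  have hB : 0 ≤ B := by
    have := (abs_nonneg _).trans (b0 0)
    simpa using this
  have hint : ∀ (p : ℕ) (F : ℝ → ℝ), Continuous F → (∀ y, |F (h + √a * y)| ≤ B * exp (K * |y|)) →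
      Integrable (fun y => y ^ p * F (h + √a * y)) γ₁ := fun p F hF hb => by
    refine ((int_exp_abs (K + p)).const_mul B).mono' (Continuous.aestronglyMeasurable (by fun_prop))
      (ae_of_all _ fun y => ?_)
    rw [Real.norm_eq_abs, abs_mul, abs_pow]
    have h1 : |y| ^ p ≤ exp (p * |y|) := by
      rw [exp_nat_mul]; exact pow_le_pow_left₀ (abs_nonneg y) (abs_le_exp_abs y) p
    refine (mul_le_mul h1 (hb y) (abs_nonneg _) (exp_pos _).le).trans_eq ?_
    rw [mul_left_comm, ← exp_add]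
    ring_nf
  have hline : ∀ y, HasDerivAt (fun y => h + √a * y) √a y := fun y => by
    simpa using ((hasDerivAt_id y).const_mul √a).const_add h
  have i0 : Integrable (fun y => G (h + √a * y)) γ₁ := by simpa using hint 0 G c0 b0
  have i01 : Integrable (fun y => y * G (h + √a * y)) γ₁ := by simpa using hint 1 G c0 b0
  have i02 := hint 2 G c0 b0
  have i1 : Integrable (fun y => G' (h + √a * y)) γ₁ := by simpa using hint 0 G' c1 b1
  have i11 : Integrable (fun y => y * G' (h + √a * y)) γ₁ := by simpa using hint 1 G' c1 b1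
  have i2 : Integrable (fun y => G'' (h + √a * y)) γ₁ := by simpa using hint 0 G'' hG''c b2
  have s1 := P150.stein (φ := fun y => y * G (h + √a * y))
    (φ' := fun y => G (h + √a * y) + √a * (y * G' (h + √a * y)))
    (fun y => ((hasDerivAt_id y).fun_mul ((hG _).comp y (hline y))).congr_deriv
      (by simp only [Function.comp_apply, id_eq]; ring))
    i01 (i0.add (i11.const_mul _)) (i02.congr (ae_of_all _ fun y => by ring))
  have s2 := P150.stein (φ := fun y => G' (h + √a * y)) (φ' := fun y => √a * G'' (h + √a * y))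
    (fun y => ((hG' _).comp y (hline y)).congr_deriv (by ring)) i1 (i2.const_mul _) i11
  simp only [P150.std] at s1 s2
  rw [integral_add i0 (i11.const_mul _), integral_const_mul, s2, integral_const_mul, ← mul_assoc,
    Real.mul_self_sqrt ha] at s1
  have e : ∀ y, (y ^ 2 - 1) * G (h + √a * y) = y * (y * G (h + √a * y)) - G (h + √a * y) := fun y => by ring
  simp only [e]
  rw [integral_sub (i02.congr (ae_of_all _ fun y => by ring)) i0, s1]
  ring

/-- A differentiable family of potentials, observables and variances near `s₀`. -/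
structure Move (ft φt df dφ : ℝ → ℝ → ℝ) (a da : ℝ → ℝ) (s₀ r D : ℝ) : Prop where
  pos : 0 < r
  pot : ∀ s, |s - s₀| < r → Pot (ft s)
  φcont : ∀ s, |s - s₀| < r → Continuous (φt s)
  φle : ∀ s, |s - s₀| < r → ∀ x, |φt s x| ≤ D
  derivf : ∀ s, |s - s₀| < r → ∀ x, HasDerivAt (fun t => ft t x) (df s x) s
  derivφ : ∀ s, |s - s₀| < r → ∀ x, HasDerivAt (fun t => φt t x) (dφ s x) s
  dfcont : Continuous (df s₀)
  dφcont : Continuous (dφ s₀)
  dfle : ∀ s, |s - s₀| < r → ∀ x, |df s x| ≤ D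
  dφle : ∀ s, |s - s₀| < r → ∀ x, |dφ s x| ≤ D
  deriva : ∀ s, |s - s₀| < r → HasDerivAt a (da s) s
  dale : ∀ s, |s - s₀| < r → |da s| ≤ D
  apos : 0 < a s₀

variable {ft φt df dφ : ℝ → ℝ → ℝ} {a da : ℝ → ℝ} {s₀ r D : ℝ}

/-- The integrand of a numerator after one step of the heat flow. -/
noncomputable def lift2 (m : ℝ) (f φ : ℝ → ℝ) (x : ℝ) : ℝ :=
  deriv (deriv φ) x + 2 * m * (deriv f x * deriv φ x)
    + m * (φ x * (deriv (deriv f) x + m * deriv f x ^ 2))

theorem hasDerivAt_num_param (M : Move ft φt df dφ a da s₀ r D) {m C : ℝ} (hφ : Bd 2 C (φt s₀))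
    (hu : Bd 1 C (deriv (ft s₀))) (h : ℝ) :
    HasDerivAt (fun s => num m (a s) (ft s) (φt s) h)
      (num m (a s₀) (ft s₀) (fun x => dφ s₀ x + m * (φt s₀ x * df s₀ x)) h
        + da s₀ / 2 * num m (a s₀) (ft s₀) (lift2 m (ft s₀) (φt s₀)) h) s₀ := by
  have hs₀ : |s₀ - s₀| < r := by simpa using M.pos
  have hD : 0 ≤ D := (abs_nonneg _).trans (M.φle s₀ hs₀ 0)
  set a₀ := a s₀ with ha₀
  have ha₀0 : 0 < a₀ := M.apos
  set f := ft s₀ with hf₀
  set S : Set ℝ := {s | |s - s₀| < r ∧ 4 / 5 * a₀ < a s ∧ a s < 4 / 3 * a₀} with hS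
  have hSn : S ∈ 𝓝 s₀ := by
    have h1 : ∀ᶠ s in 𝓝 s₀, |s - s₀| < r := by
      filter_upwards [Metric.ball_mem_nhds s₀ M.pos] with s hs
      simpa [Real.dist_eq] using hs
    have hc := (M.deriva s₀ hs₀).continuousAt
    filter_upwards [h1, hc.eventually (Ioi_mem_nhds (show 4 / 5 * a₀ < a s₀ by linarith)),
      hc.eventually (Iio_mem_nhds (show a s₀ < 4 / 3 * a₀ by linarith))] with s p1 p2 p3
    exact ⟨p1, p2, p3⟩
  set c : ℝ → ℝ := fun s => a₀ / a s with hc
  set ρ : ℝ → ℝ → ℝ := fun s y => √(c s) * exp ((1 - c s) * y ^ 2 / 2) with hρ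
  set e : ℝ → ℝ → ℝ := fun s y => exp (m * ft s (h + √a₀ * y)) with he
  set dc : ℝ → ℝ := fun s => -(a₀ * da s) / a s ^ 2 with hdc
  set F : ℝ → ℝ → ℝ := fun s y => φt s (h + √a₀ * y) * e s y * ρ s y with hF
  set F' : ℝ → ℝ → ℝ := fun s y =>
    (dφ s (h + √a₀ * y) + m * (φt s (h + √a₀ * y) * df s (h + √a₀ * y))) * e s y * ρ s y
      + φt s (h + √a₀ * y) * e s y * (ρ s y * (dc s * (1 / (2 * c s) - y ^ 2 / 2))) with hF'
  have hcb : ∀ s ∈ S, 3 / 4 ≤ c s ∧ c s ≤ 5 / 4 ∧ |dc s| ≤ 25 / 16 * D / a₀ := by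
    rintro s ⟨hs, h1, h2⟩
    have hpos : 0 < a s := by linarith
    refine ⟨by rw [hc, le_div_iff₀ hpos]; linarith, by rw [hc, div_le_iff₀ hpos]; linarith, ?_⟩
    simp only [hdc, abs_div, abs_neg, abs_mul, abs_of_pos ha₀0, abs_pow, abs_of_pos hpos]
    rw [div_le_div_iff₀ (by positivity) ha₀0]
    have h3 : 16 / 25 * a₀ ^ 2 ≤ a s ^ 2 := by nlinarith
    nlinarith [mul_le_mul_of_nonneg_left (M.dale s hs) (sq_nonneg a₀),
      mul_le_mul_of_nonneg_left h3 hD]
  have hfb : ∀ s, |s - s₀| < r → |ft s h - f h| ≤ D * r := fun s hs => by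
    have := Convex.norm_image_sub_le_of_norm_hasDerivWithin_le (f := fun t => ft t h)
      (f' := fun t => df t h) (s := Metric.ball s₀ r) (C := D)
      (fun t ht => (M.derivf t (by simpa [Real.dist_eq] using ht) h).hasDerivWithinAt)
      (fun t ht => M.dfle t (by simpa [Real.dist_eq] using ht) h) (convex_ball _ _)
      (Metric.mem_ball_self M.pos) (y := s) (by simpa [Real.dist_eq] using hs)
    refine this.trans ?_
    rw [Real.norm_eq_abs]
    exact mul_le_mul_of_nonneg_left hs.le hD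
  set K := |m| * √a₀ with hK
  set C₀ := exp (|m| * (|f h| + D * r)) * exp (4 * K ^ 2) with hC₀
  have heb : ∀ s, |s - s₀| < r → ∀ y, e s y ≤ C₀ * exp (y ^ 2 / 16) := by
    intro s hs y
    rw [hC₀, mul_assoc, ← exp_add, ← exp_add]
    refine exp_le_exp.2 (((M.pot s hs).bound (m := m) (a := a₀) h h y).trans ?_)
    have h1 : |ft s h| ≤ |f h| + D * r := by
      have := abs_sub_abs_le_abs_sub (ft s h) (f h)
      linarith [hfb s hs]
    have h2 := mul_le_mul_of_nonneg_left h1 (abs_nonneg m)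
    simp only [sub_self, abs_zero, add_zero]
    nlinarith [sq_nonneg (|y| / 4 - 2 * K), sq_abs y]
  have hρb : ∀ s ∈ S, ∀ y, ρ s y ≤ 2 * exp (y ^ 2 / 8) := by
    intro s hs y
    obtain ⟨h1, h2, -⟩ := hcb s hs
    refine mul_le_mul ?_ (exp_le_exp.2 ?_) (exp_pos _).le zero_le_two
    · rw [sqrt_le_iff]; constructor <;> linarith
    · nlinarith [sq_nonneg y]
  have hder : ∀ s ∈ S, ∀ y, HasDerivAt (fun t => F t y) (F' s y) s := by
    intro s hs y
    obtain ⟨h1, -, -⟩ := hcb s hs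
    have hpos : 0 < a s := by linarith [hs.2.1]
    have d1 : HasDerivAt c (dc s) s := by
      refine ((hasDerivAt_const s a₀).fun_div (M.deriva s hs.1) hpos.ne').congr_deriv ?_
      simp only [hdc]; ring
    have d2 : HasDerivAt (fun t => ρ t y) (ρ s y * (dc s * (1 / (2 * c s) - y ^ 2 / 2))) s := by
      refine ((d1.sqrt (by linarith)).fun_mul
        (((d1.const_sub 1).mul_const (y ^ 2)).div_const 2).exp).congr_deriv ?_
      simp only [hρ]
      have hsq := sq_sqrt (show 0 ≤ c s by linarith)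
      have : √(c s) ≠ 0 := (sqrt_pos.2 (by linarith)).ne'
      field_simp
      rw [hsq]; ring
    have d3 := (((M.derivf s hs.1 (h + √a₀ * y)).const_mul m)).exp
    refine (((M.derivφ s hs.1 (h + √a₀ * y)).fun_mul d3).fun_mul d2).congr_deriv ?_
    simp only [hF', he]; ring
  have hfc := (M.pot s₀ hs₀).diff.continuous
  have hline : Continuous fun y => h + √a₀ * y := by fun_prop
  have mF : ∀ s, |s - s₀| < r → Continuous (F s) := fun s hs => by
    have := (M.pot s hs).diff.continuous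
    have := M.φcont s hs
    simp only [hF, he, hρ]; fun_prop
  set Q := D + |m| * (D * D) with hQ
  set R := 25 / 16 * D / a₀ with hR
  have hmain := hasDerivAt_integral_of_dominated_loc_of_deriv_le (μ := γ₁) (x₀ := s₀) (s := S)
    (F := F) (F' := F')
    (bound := fun y => C₀ * 2 * (Q + D * R * (1 + 4)) * exp (5 / 16 * y ^ 2)) hSn
    (by filter_upwards [hSn] with s hs using (mF s hs.1).aestronglyMeasurable)
    ?_ (Continuous.aestronglyMeasurable ?_)
    (ae_of_all _ fun y s hs => ?_) ((int_exp_sq (by norm_num)).const_mul _)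
    (ae_of_all _ fun y s hs => hder s hs y)
  rotate_left
  · refine ((int_exp_sq (u := 5 / 16) (by norm_num)).const_mul (D * C₀ * 2)).mono'
      (mF s₀ hs₀).aestronglyMeasurable (ae_of_all _ fun y => ?_)
    have h2 := hρb s₀ ⟨hs₀, by linarith, by linarith⟩ y
    have hρ0 : 0 ≤ ρ s₀ y := by simp only [hρ]; positivity
    simp only [hF, Real.norm_eq_abs, abs_mul, abs_of_nonneg hρ0, he, Real.abs_exp]
    refine (mul_le_mul (mul_le_mul (M.φle s₀ hs₀ _) (heb s₀ hs₀ y) (exp_pos _).le hD) h2 hρ0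
      (mul_nonneg hD (by positivity))).trans ?_
    calc D * (C₀ * exp (y ^ 2 / 16)) * (2 * exp (y ^ 2 / 8))
        = D * C₀ * 2 * exp (y ^ 2 / 16 + y ^ 2 / 8) := by rw [exp_add]; ring
      _ ≤ _ := mul_le_mul_of_nonneg_left (exp_le_exp.2 (by nlinarith [sq_nonneg y]))
          (by rw [hC₀]; positivity)
  · have := M.φcont s₀ hs₀
    have := M.dfcont
    have := M.dφcont
    simp only [hF', he, hρ]; fun_prop
  · obtain ⟨h1, h2, h3⟩ := hcb s hs
    have hρ0 : 0 ≤ ρ s y := by simp only [hρ]; positivity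
    have hy : 1 / (2 * c s) + y ^ 2 / 2 ≤ 5 * exp (y ^ 2 / 8) := by
      have : 1 / (2 * c s) ≤ 1 := by rw [div_le_one (by linarith)]; linarith
      have h5 := add_one_le_exp (y ^ 2 / 8)
      nlinarith [one_le_exp (show 0 ≤ y ^ 2 / 8 by positivity)]
    have b1 : |dφ s (h + √a₀ * y) + m * (φt s (h + √a₀ * y) * df s (h + √a₀ * y))| ≤ Q := by
      refine (abs_add_le _ _).trans (add_le_add (M.dφle s hs.1 _) ?_)
      rw [abs_mul, abs_mul]
      exact mul_le_mul_of_nonneg_left (mul_le_mul (M.φle s hs.1 _) (M.dfle s hs.1 _) (abs_nonneg _) hD)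
        (abs_nonneg m)
    have hQ0 : 0 ≤ Q := (abs_nonneg _).trans b1
    have hR0 : 0 ≤ R := by rw [hR]; positivity
    have b2 : |dc s * (1 / (2 * c s) - y ^ 2 / 2)| ≤ R * (5 * exp (y ^ 2 / 8)) := by
      rw [abs_mul]
      refine mul_le_mul h3 (le_trans ?_ hy) (abs_nonneg _) hR0
      refine (abs_sub _ _).trans (le_of_eq ?_)
      rw [abs_of_nonneg (by positivity : (0 : ℝ) ≤ 1 / (2 * c s)),
        abs_of_nonneg (by positivity : (0 : ℝ) ≤ y ^ 2 / 2)]
    have he0 : 0 ≤ e s y := (exp_pos _).le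
    simp only [hF', Real.norm_eq_abs]
    refine (abs_add_le _ _).trans ?_
    simp only [abs_mul, abs_of_nonneg hρ0, abs_of_nonneg he0] at b2 ⊢
    calc _ ≤ Q * (e s y) * ρ s y + D * e s y * (ρ s y * (R * (5 * exp (y ^ 2 / 8)))) := by
            gcongr
            · exact M.φle s hs.1 _
      _ = (Q + D * R * 5 * exp (y ^ 2 / 8)) * (e s y * ρ s y) := by ring
      _ ≤ ((Q + D * R * 5) * exp (y ^ 2 / 8))
            * ((C₀ * exp (y ^ 2 / 16)) * (2 * exp (y ^ 2 / 8))) := by
            refine mul_le_mul ?_ (mul_le_mul (heb s hs.1 y) (hρb s hs y) hρ0 (by rw [hC₀]; positivity))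
              (by positivity) (by positivity)
            nlinarith [one_le_exp (show 0 ≤ y ^ 2 / 8 by positivity)]
      _ = C₀ * 2 * (Q + D * R * (1 + 4)) * exp (y ^ 2 / 8 + y ^ 2 / 16 + y ^ 2 / 8) := by
            rw [exp_add, exp_add]; ring
      _ = _ := by congr 2; ring
  refine HasDerivAt.congr_of_eventuallyEq (f := fun s => ∫ y, F s y ∂γ₁) ?_ ?_
  swap
  · filter_upwards [hSn] with s hs
    have hpos : 0 < a s := by linarith [hs.2.1]
    simp only [num, hF, he, hρ]
    rw [rescale (show 0 < c s by simp only [hc]; positivity)]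
    have e' : ∀ y, √(a s) * (√(c s) * y) = √a₀ * y := fun y => by
      rw [← mul_assoc, ← sqrt_mul hpos.le, hc, mul_div_cancel₀ _ hpos.ne']
    simp only [e']
  refine hmain.2.congr_deriv ?_
  have hc1 : c s₀ = 1 := div_self ha₀0.ne'
  set G : ℝ → ℝ := fun x => φt s₀ x * exp (m * f x) with hG
  set G' : ℝ → ℝ := fun x => (deriv (φt s₀) x + m * (φt s₀ x * deriv f x)) * exp (m * f x) with hG'
  have hf := M.pot s₀ hs₀
  have hd1 : ∀ x, HasDerivAt G (G' x) x := fun x =>
    ((hφ.1 x).hasDerivAt.fun_mul ((hf.diff x).hasDerivAt.const_mul m).exp).congr_deriv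
      (by simp only [hG']; ring)
  have hd2 : ∀ x, HasDerivAt G' (lift2 m f (φt s₀) x * exp (m * f x)) x := fun x =>
    (((hφ.2.2.1 x).hasDerivAt.fun_add (((hφ.1 x).hasDerivAt.fun_mul (hu.1 x).hasDerivAt).const_mul m)).fun_mul
      ((hf.diff x).hasDerivAt.const_mul m).exp).congr_deriv (by simp only [lift2]; ring)
  have hC := hφ.nonneg
  have hl : Continuous (lift2 m f (φt s₀)) ∧
      ∀ x, |lift2 m f (φt s₀) x| ≤ C + 2 * |m| * C + |m| * (C * (C + |m|)) := by
    refine ⟨?_, fun x => ?_⟩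
    · have := hφ.cont; have := hφ.2.2.cont; have := hφ.2.2.2.2.cont; have := hu.cont
      have := hu.2.2.cont
      unfold lift2; fun_prop
    · refine (abs_add_le _ _).trans (add_le_add ((abs_add_le _ _).trans
        (add_le_add (hφ.2.2.2.2.abs_le x) ?_)) ?_)
      · rw [abs_mul, abs_mul, abs_mul, abs_two, mul_assoc]
        refine (mul_le_mul_of_nonneg_left (mul_le_mul_of_nonneg_left (mul_le_mul (hf.dle x)
          (hφ.2.2.abs_le x) (abs_nonneg _) zero_le_one) (abs_nonneg m)) zero_le_two).trans_eq ?_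
        ring
      · rw [abs_mul, abs_mul]
        refine mul_le_mul_of_nonneg_left (mul_le_mul (hφ.abs_le x) ?_ (abs_nonneg _) hC) (abs_nonneg m)
        refine (abs_add_le _ _).trans (add_le_add (hu.2.2.abs_le x) ?_)
        rw [abs_mul, abs_pow]
        exact mul_le_of_le_one_right (abs_nonneg m) (pow_le_one₀ (abs_nonneg _) (hf.dle x))
  set B := C + 2 * |m| * C + |m| * (C * (C + |m|)) with hB
  have hexp : ∀ y, exp (m * f (h + √a₀ * y)) ≤ exp (|m| * |f h|) * exp (K * |y|) := fun y => by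
    rw [← exp_add]; refine exp_le_exp.2 ?_
    simpa using hf.bound (m := m) (a := a₀) h h y
  have hbd : ∀ (ψ : ℝ → ℝ), (∀ x, |ψ x| ≤ B) → ∀ y,
      |ψ (h + √a₀ * y) * exp (m * f (h + √a₀ * y))| ≤ B * exp (|m| * |f h|) * exp (K * |y|) := by
    intro ψ hψ y
    rw [abs_mul, Real.abs_exp, mul_assoc B]
    exact mul_le_mul (hψ _) (hexp y) (exp_pos _).le ((abs_nonneg _).trans (hψ 0))
  have hB2 : 0 ≤ |m| * (C * |m|) := by positivity
  have hI := ibp2 (h := h) (B := B * exp (|m| * |f h|)) (K := K) ha₀0.le hd1 hd2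
    (by have := hl.1; fun_prop)
    (hbd _ fun x => (hφ.abs_le x).trans (by rw [hB]; nlinarith [abs_nonneg m, mul_nonneg hC hC]))
    (hbd (fun x => deriv (φt s₀) x + m * (φt s₀ x * deriv f x)) fun x => (abs_add_le _ _).trans (by
      have h1 := hφ.2.2.abs_le x
      have h2 : |m * (φt s₀ x * deriv f x)| ≤ |m| * C := by
        rw [abs_mul, abs_mul]
        exact mul_le_mul_of_nonneg_left ((mul_le_mul (hφ.abs_le x) (hf.dle x) (abs_nonneg _) hC).trans_eq
          (mul_one C)) (abs_nonneg m)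
      have : 0 ≤ |m| * (C * C) := by positivity
      have : 0 ≤ |m| * C := by positivity
      rw [hB]; linarith))
    (hbd _ hl.2)
  have hb1 : ∀ x, |dφ s₀ x + m * (φt s₀ x * df s₀ x)| ≤ Q := fun x => by
    refine (abs_add_le _ _).trans (add_le_add (M.dφle s₀ hs₀ _) ?_)
    rw [abs_mul, abs_mul]
    exact mul_le_mul_of_nonneg_left (mul_le_mul (M.φle s₀ hs₀ _) (M.dfle s₀ hs₀ _) (abs_nonneg _) hD)
      (abs_nonneg m)
  have i1 := int_num (m := m) (a := a₀) hf
    (by have := M.φcont s₀ hs₀; have := M.dfcont; have := M.dφcont; fun_prop) hb1 h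
  have i2 : Integrable (fun y => (y ^ 2 - 1) * G (h + √a₀ * y)) γ₁ := by
    refine ((int_exp_abs (K + 2)).const_mul (2 * (C * exp (|m| * |f h|)))).mono'
      (Continuous.aestronglyMeasurable (by have := hφ.cont; fun_prop)) (ae_of_all _ fun y => ?_)
    simp only [hG, Real.norm_eq_abs, abs_mul, Real.abs_exp]
    have h1 : |y ^ 2 - 1| ≤ 2 * exp (2 * |y|) := by
      have h2 : y ^ 2 ≤ exp (2 * |y|) := by
        rw [← sq_abs, show (2 : ℝ) * |y| = |y| + |y| by ring, exp_add, sq]
        exact mul_le_mul (abs_le_exp_abs y) (abs_le_exp_abs y) (abs_nonneg _) (exp_pos _).le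
      rw [abs_le]; constructor <;>
        linarith [sq_nonneg y, one_le_exp (show 0 ≤ 2 * |y| by positivity)]
    refine (mul_le_mul h1 (mul_le_mul (hφ.abs_le _) (hexp y) (exp_pos _).le hC)
      (by positivity) (by positivity)).trans_eq ?_
    rw [show (K + 2) * |y| = K * |y| + 2 * |y| by ring, exp_add]; ring
  have eF : ∀ y, F' s₀ y = (dφ s₀ (h + √a₀ * y) + m * (φt s₀ (h + √a₀ * y) * df s₀ (h + √a₀ * y)))
      * exp (m * f (h + √a₀ * y)) + da s₀ / (2 * a₀) * ((y ^ 2 - 1) * G (h + √a₀ * y)) := fun y => by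
    simp only [hF', hρ, hc1, he, hdc, hG, sub_self, zero_mul, zero_div, exp_zero, sqrt_one, mul_one]
    rw [← ha₀]
    field_simp
    ring
  simp only [eF]
  rw [integral_add i1 (i2.const_mul _), integral_const_mul, hI]
  simp only [num]
  field_simp
  rw [hf₀]; ring

/-- The log-Laplace step differentiated in the parameter. -/
theorem hasDerivAt_hT_param (M : Move ft φt df dφ a da s₀ r D) {m C : ℝ} (hm : m ≠ 0)
    (hu : Bd 1 C (deriv (ft s₀))) (h : ℝ) :
    HasDerivAt (fun s => hT m (a s) (ft s) h)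
      (tE m (a s₀) (ft s₀) (df s₀) h + da s₀ / 2 *
        tE m (a s₀) (ft s₀) (fun x => deriv (deriv (ft s₀)) x + m * deriv (ft s₀) x ^ 2) h) s₀ := by
  have hs₀ : |s₀ - s₀| < r := by simpa using M.pos
  have hD : 0 ≤ D := (abs_nonneg _).trans (M.φle s₀ hs₀ 0)
  have M1 : Move ft (fun _ _ => 1) df (fun _ _ => 0) a da s₀ r (D + 1) :=
    ⟨M.pos, M.pot, fun _ _ => continuous_const, fun _ _ _ => by simp; linarith, M.derivf,
      fun _ _ _ => hasDerivAt_const _ _, M.dfcont, continuous_const,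
      fun s hs x => (M.dfle s hs x).trans (by linarith), fun _ _ _ => by simp; linarith,
      M.deriva, fun s hs => (M.dale s hs).trans (by linarith), M.apos⟩
  have hd := hasDerivAt_num_param (m := m) M1 (C := max C 1)
    ((Bd.const 2 1).mono (by simp)) (hu.mono (le_max_left _ _)) h
  simp only [num_one] at hd
  refine ((hd.log (den_pos (M.pot s₀ hs₀) h).ne').div_const m).congr_deriv ?_
  have e1 : lift2 m (ft s₀) (fun _ => 1)
      = fun x => m * (deriv (deriv (ft s₀)) x + m * deriv (ft s₀) x ^ 2) := by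
    funext x; simp [lift2]
  simp only [e1, one_mul, zero_add, tE, num, mul_assoc m, integral_const_mul]
  field_simp

/-- The tilted average differentiated in the parameter. -/
theorem hasDerivAt_tE_param (M : Move ft φt df dφ a da s₀ r D) {m C : ℝ} (hφ : Bd 2 C (φt s₀))
    (hu : Bd 1 C (deriv (ft s₀))) (h : ℝ) :
    HasDerivAt (fun s => tE m (a s) (ft s) (φt s) h)
      (tE m (a s₀) (ft s₀) (dφ s₀) h + m * tC m (a s₀) (ft s₀) (φt s₀) (df s₀) h
        + da s₀ / 2 * (tE m (a s₀) (ft s₀) (deriv (deriv (φt s₀))) h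
          + 2 * m * tE m (a s₀) (ft s₀) (fun x => deriv (ft s₀) x * deriv (φt s₀) x) h
          + m * tC m (a s₀) (ft s₀) (φt s₀)
              (fun x => deriv (deriv (ft s₀)) x + m * deriv (ft s₀) x ^ 2) h)) s₀ := by
  have hs₀ : |s₀ - s₀| < r := by simpa using M.pos
  have hD : 0 ≤ D := (abs_nonneg _).trans (M.φle s₀ hs₀ 0)
  have M1 : Move ft (fun _ _ => 1) df (fun _ _ => 0) a da s₀ r (D + 1) :=
    ⟨M.pos, M.pot, fun _ _ => continuous_const, fun _ _ _ => by simp; linarith, M.derivf,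
      fun _ _ _ => hasDerivAt_const _ _, M.dfcont, continuous_const,
      fun s hs x => (M.dfle s hs x).trans (by linarith), fun _ _ _ => by simp; linarith,
      M.deriva, fun s hs => (M.dale s hs).trans (by linarith), M.apos⟩
  have hn := hasDerivAt_num_param (m := m) M hφ hu h
  have hd := hasDerivAt_num_param (m := m) M1 (C := max C 1)
    ((Bd.const 2 1).mono (by simp)) (hu.mono (le_max_left _ _)) h
  simp only [num_one] at hd
  have hf := M.pot s₀ hs₀
  refine (hn.fun_div hd (den_pos hf h).ne').congr_deriv ?_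
  set f := ft s₀
  set φ := φt s₀
  have hp0 : Bd 0 C φ := hφ.down.down
  have hup : Bd 0 _ fun x => deriv f x * deriv φ x := hu.down.mul hφ.2.2.down
  have hP : Bd 0 _ fun x => deriv (deriv f) x + m * (deriv f x * deriv f x) :=
    hu.2.2.add ((Bd.const 0 m).mul (hu.down.mul hu.down))
  have e2 : (fun x => deriv (deriv f) x + m * deriv f x ^ 2)
      = fun x => deriv (deriv f) x + m * (deriv f x * deriv f x) := by simp only [sq]
  have hpd : Bd 0 _ fun x => φ x * df s₀ x :=
    hp0.mul (show Bd 0 D (df s₀) from ⟨M.dfcont, M.dfle s₀ hs₀⟩)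
  have hdp : Bd 0 D (dφ s₀) := ⟨M.dφcont, M.dφle s₀ hs₀⟩
  have q1 : tE m (a s₀) f (fun x => dφ s₀ x + m * (φ x * df s₀ x)) h
      = tE m (a s₀) f (dφ s₀) h + m * tE m (a s₀) f (fun x => φ x * df s₀ x) h := by
    rw [← tE_const_mul]; exact tE_add hf hdp ((Bd.const 0 m).mul hpd) h
  have q2 : tE m (a s₀) f (lift2 m f φ) h = tE m (a s₀) f (deriv (deriv φ)) h
      + 2 * m * tE m (a s₀) f (fun x => deriv f x * deriv φ x) h
      + m * tE m (a s₀) f (fun x => φ x * (deriv (deriv f) x + m * deriv f x ^ 2)) h := by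
    simp only [← tE_const_mul, sq]
    rw [← tE_add hf hφ.2.2.2.2 ((Bd.const 0 (2 * m)).mul hup),
      ← tE_add hf (hφ.2.2.2.2.add ((Bd.const 0 (2 * m)).mul hup)) ((Bd.const 0 m).mul (hp0.mul hP))]
    congr 1
    funext x
    rw [lift2]; ring
  have d1 : ∀ ψ, num m (a s₀) f ψ h = tE m (a s₀) f ψ h * den m (a s₀) f h := fun ψ => by
    rw [tE, div_mul_cancel₀ _ (den_pos hf h).ne']
  have e1 : lift2 m f (fun _ => 1) = fun x => m * (deriv (deriv f) x + m * deriv f x ^ 2) := by
    funext x; simp [lift2]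
  simp only [e1, one_mul, zero_add]
  simp only [d1, tE_const_mul, q1, q2]
  simp only [tC]
  field_simp [(den_pos (m := m) (a := a s₀) hf h).ne']
  ring

end Vale.Agent.P157.Cube2
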