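import Vale.Agent.P157.Cube2.LowTools

/-!
# P157: one more spin does not move the tails

The free energies of dimensions `N + 1` and `N + 2` are within `O(1/N)`, and both are semiconvex in
each amplitude; so their slopes agree on average over a box of amplitudes.
-/

open MeasureTheory ProbabilityTheory Real Finset
open Vale.Agent.P157.Rsb

namespace Vale.Agent.P157.Cube2.Low

variable {k : ℕ}

/-- The average of a translated difference. -/
theorem box_shift_diff {Δ : (Fin k → ℝ) → ℝ} {a : Fin k → ℝ} {δ h D : ℝ} (i : Fin k) (hδ : 0 < δ)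
    (hh : 0 ≤ h) (hhδ : h ≤ δ)
    (hc : ContinuousOn Δ (Set.Icc (fun l => a l - δ) fun l => a l + δ))
    (hb : ∀ y ∈ Set.Icc (fun l => a l - δ) (fun l => a l + δ), |Δ y| ≤ D) :
    (∫ y, (Δ y - Δ (y - Function.update (0 : Fin k → ℝ) i h)) ∂boxP a δ) ≤ 2 * D * h / δ := by
  set v : Fin k → ℝ := Function.update 0 i h with hv
  set b : Fin k → ℝ := fun l => a l + δ with hbdef
  set big := Set.Icc (fun l => a l - δ) b with hbig
  have hv0 : ∀ l, 0 ≤ v l ∧ v l ≤ δ := fun l => by
    rcases eq_or_ne l i with rfl | hl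
    · simp [hv, hh, hhδ]
    · simp [hv, Function.update_of_ne hl, hδ.le]
  have hA : Set.Icc a b ⊆ big := fun y hy =>
    ⟨fun l => by linarith [hy.1 l], hy.2⟩
  have hB : Set.Icc (a - v) (b - v) ⊆ big := fun y hy =>
    ⟨fun l => by have := hy.1 l; simp only [Pi.sub_apply] at this; linarith [(hv0 l).2],
      fun l => by have := hy.2 l; simp only [Pi.sub_apply] at this; linarith [(hv0 l).1]⟩
  have iA : IntegrableOn Δ (Set.Icc a b) := (hc.mono hA).integrableOn_compact isCompact_Icc
  have iB : IntegrableOn Δ (Set.Icc (a - v) (b - v)) :=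
    (hc.mono hB).integrableOn_compact isCompact_Icc
  have htr : ∫ y in Set.Icc a b, Δ (y - v) = ∫ y in Set.Icc (a - v) (b - v), Δ y := by
    have h1 := (measurePreserving_sub_right (volume : Measure (Fin k → ℝ)) v).setIntegral_preimage_emb
      (MeasurableEquiv.subRight v).measurableEmbedding Δ (Set.Icc (a - v) (b - v))
    simpa using h1
  have hvol : ∀ u w : Fin k → ℝ, (∀ l, l ≠ i → w l - u l = δ) → w i - u i = h →
      volume.real (Set.Icc u w) = h * ∏ l ∈ univ.erase i, δ := fun u w h1 h2 => by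
    have huw : u ≤ w := fun l => by
      rcases eq_or_ne l i with rfl | hl
      · linarith
      · linarith [h1 l hl]
    rw [measureReal_def, Real.volume_Icc_pi_toReal huw, ← mul_prod_erase univ _ (mem_univ i), h2]
    exact congrArg (h * ·) (prod_congr rfl fun l hl => h1 l (ne_of_mem_erase hl))
  set P := ∏ l ∈ (univ : Finset (Fin k)).erase i, δ with hP
  have hP0 : 0 < P := prod_pos fun _ _ => hδ
  have piece : ∀ {s t : Set (Fin k → ℝ)} {u w : Fin k → ℝ}, MeasurableSet t →
      s ⊆ big → s \ t ⊆ Set.Icc u w → (∀ l, l ≠ i → w l - u l = δ) → w i - u i = h →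
      |∫ y in s \ t, Δ y| ≤ D * (h * P) := by
    intro s t u w _ hs hsub h1 h2
    have hD : 0 ≤ D :=
      (abs_nonneg _).trans (hb a ⟨fun l => by linarith, fun l => by simp [hbdef, hδ.le]⟩)
    have hfin : volume (s \ t) < ⊤ := (measure_mono hsub).trans_lt isCompact_Icc.measure_lt_top
    rw [← Real.norm_eq_abs]
    refine (norm_setIntegral_le_of_norm_le_const hfin fun y hy => hb y (hs hy.1)).trans ?_
    refine mul_le_mul_of_nonneg_left ?_ hD
    rw [← hvol u w h1 h2]
    exact measureReal_mono hsub isCompact_Icc.measure_lt_top.ne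
  have hdiff : |(∫ y in Set.Icc a b, Δ y) - ∫ y in Set.Icc (a - v) (b - v), Δ y|
      ≤ 2 * D * (h * P) := by
    have h1 := integral_inter_add_sdiff (s := Set.Icc a b)
      (measurableSet_Icc (a := a - v) (b := b - v)) iA
    have h2 := integral_inter_add_sdiff (s := Set.Icc (a - v) (b - v))
      (measurableSet_Icc (a := a) (b := b)) iB
    rw [Set.inter_comm] at h2
    have e1 := piece (s := Set.Icc a b) (t := Set.Icc (a - v) (b - v))
      (u := Function.update a i (b i - h)) (w := b) measurableSet_Icc hA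
      (fun y ⟨⟨y1, y2⟩, hy⟩ => ⟨fun l => by
        rcases eq_or_ne l i with rfl | hl
        · simp only [Function.update_self]
          by_contra hlt
          refine hy ⟨fun m => ?_, fun m => ?_⟩
          · simp only [Pi.sub_apply]; linarith [y1 m, (hv0 m).1]
          · rcases eq_or_ne m l with rfl | hm
            · simp only [Pi.sub_apply, hv, Function.update_self]; linarith
            · simp only [Pi.sub_apply, hv, Function.update_of_ne hm, Pi.zero_apply, sub_zero]
              exact y2 m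
        · simp only [Function.update_of_ne hl]; exact y1 l, y2⟩)
      (fun l hl => by simp [Function.update_of_ne hl, hbdef]) (by simp)
    have e2 := piece (s := Set.Icc (a - v) (b - v)) (t := Set.Icc a b)
      (u := a - v) (w := Function.update (b - v) i (a i)) measurableSet_Icc hB
      (fun y ⟨⟨y1, y2⟩, hy⟩ => ⟨y1, fun l => by
        rcases eq_or_ne l i with rfl | hl
        · simp only [Function.update_self]
          by_contra hlt
          refine hy ⟨fun m => ?_, fun m => ?_⟩
          · rcases eq_or_ne m l with rfl | hm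
            · linarith
            · have := y1 m
              simp only [Pi.sub_apply, hv, Function.update_of_ne hm, Pi.zero_apply, sub_zero] at this
              exact this
          · have := y2 m; simp only [Pi.sub_apply] at this; linarith [(hv0 m).1]
        · simp only [Function.update_of_ne hl]; exact y2 l⟩)
      (fun l hl => by simp [hv, Function.update_of_ne hl, hbdef]) (by simp [hv])
    rw [abs_le] at e1 e2 ⊢
    constructor <;> linarith
  have iT : IntegrableOn (fun y => Δ (y - v)) (Set.Icc a b) := by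
    refine ContinuousOn.integrableOn_compact isCompact_Icc
      ((hc.mono hB).comp (Continuous.continuousOn (by fun_prop)) fun y hy => ?_)
    exact ⟨sub_le_sub_right hy.1 v, sub_le_sub_right hy.2 v⟩
  have hbox : boxSet a δ = Set.Icc a b := by rw [boxSet, Set.pi_univ_Icc]
  have hmass : volume.real (Set.Icc a b) = δ * P := by
    rw [measureReal_def, Real.volume_Icc_pi_toReal (fun l => by simp [hbdef, hδ.le]), hP,
      mul_prod_erase univ (fun _ => δ) (mem_univ i)]
    simp [hbdef]
  rw [boxP, hbox, Measure.restrict_apply_univ, ← setAverage_eq', setAverage_eq, hmass, smul_eq_mul,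
    integral_sub iA iT, htr, le_div_iff₀ hδ, mul_comm _ δ, ← mul_assoc, mul_inv, ← mul_assoc,
    mul_inv_cancel₀ hδ.ne', one_mul, inv_mul_le_iff₀ hP0]
  linarith [(abs_le.1 hdiff).2]

/-- Two-sided secant bounds for a semiconvex function. -/
theorem slope_close {Fp F0 Fm Gp G0 Gm g g' e h : ℝ}
    (hp : h * g - h ^ 2 / 2 ≤ Fp - F0) (hm : -(h * g) - h ^ 2 / 2 ≤ Fm - F0)
    (gp : h * g' - h ^ 2 / 2 ≤ Gp - G0) (gm : -(h * g') - h ^ 2 / 2 ≤ Gm - G0)
    (e1 : |Gp - Fp| ≤ e) (e2 : |G0 - F0| ≤ e) (e3 : |Gm - Fm| ≤ e) :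
    h * |g' - g| ≤ (Fp - 2 * F0 + Fm) + h ^ 2 + 6 * e := by
  have h1 := abs_le.1 e1
  have h2 := abs_le.1 e2
  have h3 := abs_le.1 e3
  rcases le_total g g' with hg | hg
  · rw [abs_of_nonneg (sub_nonneg.2 hg)]; linarith
  · rw [abs_sub_comm, abs_of_nonneg (sub_nonneg.2 hg)]; linarith

/-- One more spin moves the free energy by `O(1/N)`. -/
theorem free_shift (hD : DerivStmt) (hP : CubePathStmt) (hR : CubeRegStmt) (hPr : CubeProductStmt)
    (hPhi : PhiStmt) (hPat : PatternStmt) (hCav : CubeCavityStmt) {f : ℝ → ℝ} (hf : Good f)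
    (hk : 1 ≤ k) (T : ℝ) {R : ℝ} (hR0 : 0 ≤ R) :
    ∃ G : ℝ, ∃ N₀ : ℕ, ∀ N : ℕ, N₀ ≤ N → ∀ M : ℕ, (M : ℝ) ≤ T * N →
      ∀ y : Fin k → ℝ, (∀ i, 0 ≤ y i ∧ y i ≤ R) →
        |cubeFree f (N + 1) M k (lift y) - cubeFree f N M k (lift y)| ≤ G / ((N : ℝ) + 1) := by
  obtain ⟨L, hL⟩ := hf.2.exists_bound_of_continuous hf.1.continuous
  simp only [Real.norm_eq_abs] at hL
  obtain ⟨D, hDer⟩ := hf.2.deriv.exists_bound_of_continuous (hf.1.continuous_deriv (by norm_num))
  simp only [Real.norm_eq_abs] at hDer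
  have hm : Measurable f := hf.1.continuous.measurable
  have hL0 : 0 ≤ L := (abs_nonneg _).trans (hL 0)
  obtain ⟨Cp, hCp0, hCp⟩ := hPat f hf
  set A := exp (8 * L) * L + 2 * Cp
  have hA0 : 0 ≤ A := by positivity
  set Bc := (k : ℝ) * R ^ 2 with hBc
  obtain ⟨C, hC⟩ := hCav f T Bc hf
  obtain ⟨N₀, hN₀⟩ := hC k 1 one_pos
  set Rr := Bc + |T| * D ^ 2 with hRr
  set X := (k : ℝ) * (Rr + 1) * (Rr + 1) + Rr + (|C| * 2 + 1) + ((k : ℝ) * R * R + |T| * A) with hX
  refine ⟨X, N₀, fun N hN M hM y hy => ?_⟩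
  set σ := lift y with hσ
  have hσ0 : ∀ l, 0 ≤ σ l ∧ σ l ≤ R := lift_bound hR0 hy
  have hsum : ∀ j ≤ k, ∑ i ∈ Finset.Icc 1 j, σ i ^ 2 ≤ Bc := fun j hj => by
    refine (sum_le_sum (g := fun _ => R ^ 2) fun i _ =>
      pow_le_pow_left₀ (hσ0 i).1 (hσ0 i).2 2).trans ?_
    rw [sum_const, Nat.card_Icc, nsmul_eq_mul, hBc]
    exact mul_le_mul_of_nonneg_right (Nat.cast_le.2 (by omega)) (sq_nonneg R)
  have hq := hP f L hm hL N M k σ
  set q := cubeQ f N M k σ with hqdef
  set t := (M : ℝ) / (N + 1) with ht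
  have ht0 : 0 ≤ t := by positivity
  have htT : t ≤ |T| := by
    rw [ht, div_le_iff₀ (by positivity)]
    linarith [mul_le_mul_of_nonneg_right (le_abs_self T) (Nat.cast_nonneg N : (0 : ℝ) ≤ N),
      abs_nonneg T]
  have hphi := hPhi.1 f D hf hDer k q q hq hq
  set ρ := rhoOf k f t σ q with hρ
  have hρb : ∀ l ∈ Finset.Icc 1 k, 0 ≤ ρ l - cum σ l ∧ ρ l - cum σ l ≤ |T| * D ^ 2 := fun l hl => by
    have hl' := Finset.mem_Icc.1 hl
    have hg := hphi.2.2.1 l hl'.2
    simp only [hρ, rhoOf, cum, if_neg (show l ≠ 0 by omega), add_sub_cancel_left]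
    exact ⟨mul_nonneg ht0 hg.1, mul_le_mul htT hg.2 hg.1 (abs_nonneg T)⟩
  have hvar : IsVar k ρ := by
    refine ⟨by simp [hρ, rhoOf], fun j hj => ?_⟩
    rcases Nat.eq_zero_or_pos j with h | h
    · subst h
      simp only [hρ, rhoOf, if_pos, zero_add, one_ne_zero, if_false]
      exact add_nonneg (sum_nonneg fun i _ => sq_nonneg _) (mul_nonneg ht0 (hphi.2.2.1 1 hj).1)
    · simp only [hρ, rhoOf, if_neg h.ne', if_neg (Nat.succ_ne_zero j)]
      refine add_le_add ?_ (mul_le_mul_of_nonneg_left (hphi.2.2.2 j hj) ht0)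
      exact sum_le_sum_of_subset_of_nonneg (Finset.Icc_subset_Icc_right (by omega))
        fun i _ _ => sq_nonneg _
  have hρk : ρ k ≤ Rr := by
    have := hρb k (Finset.mem_Icc.2 ⟨hk, le_rfl⟩)
    have hc : cum σ k ≤ Bc := hsum k le_rfl
    linarith
  have hs := abs_spinG_le hD hP hPr hvar hρk
  have hterm : |mass k / 2 * ∑ l ∈ Finset.Icc 1 k, (ρ l - cum σ l) * q l| ≤ Rr := by
    have h1 : ∀ l ∈ Finset.Icc 1 k, |(ρ l - cum σ l) * q l| ≤ Rr := fun l hl => by
      have hq1 := path_mem hq (Finset.mem_Icc.1 hl).2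
      rw [abs_mul, abs_of_nonneg (hρb l hl).1, abs_of_nonneg hq1.1]
      refine (mul_le_of_le_one_right (hρb l hl).1 hq1.2).trans ((hρb l hl).2.trans ?_)
      rw [hRr]; linarith [show 0 ≤ Bc by positivity]
    have h2 := (abs_sum_le_sum_abs _ _).trans (sum_le_sum h1)
    rw [sum_const, Nat.card_Icc, nsmul_eq_mul] at h2
    have hm1 : mass k / 2 * (k : ℝ) ≤ 1 := by
      unfold mass; rw [div_div, one_div_mul_eq_div, div_le_one (by positivity)]; linarith
    rw [abs_mul, abs_of_nonneg (by unfold mass; positivity)]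
    refine (mul_le_mul_of_nonneg_left h2 (by unfold mass; positivity)).trans ?_
    rw [← mul_assoc]
    refine mul_le_of_le_one_left (by positivity) ?_
    simpa using hm1
  have hcav := hN₀ N hN M hM σ (fun l => (hσ0 l).1) (hsum k le_rfl) 1 0 le_rfl hk le_rfl zero_le_one
  simp only [← hqdef, ← ht, ← hρ, bump_zero, cubeGain_zero] at hcav
  have hroot : C * √(cubeTotErr f N M k σ + mass k) ≤ |C| * 2 := by
    refine (mul_le_mul_of_nonneg_right (le_abs_self C) (sqrt_nonneg _)).trans
      (mul_le_mul_of_nonneg_left ?_ (abs_nonneg C))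
    rw [Real.sqrt_le_left two_pos.le]
    have h1 := (abs_le.1 ((hR f L hm hL N M k).2.2 σ)).2
    have h2 : mass k ≤ 1 := by
      unfold mass; rw [div_le_one (by positivity)]; linarith [(Nat.cast_nonneg k : (0 : ℝ) ≤ k)]
    linarith
  have hF := abs_cubeFree_le (k := k) hD hP hm hL hA0 hM (fun M σ =>
    cube_close hP hR hPhi hm hL hCp0 (cube_pattern_step hP hm hL
      (fun n M k S N σ β p h1 h2 h3 => (hCp n M k S N σ β p h1 h2 h3).1) N M σ))
    hR0 (fun i => abs_le.2 ⟨by linarith [(hy i).1], (hy i).2⟩)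
  rw [← hσ] at hF
  have hmain : |((N : ℝ) + 2) * (cubeFree f (N + 1) M k σ - cubeFree f N M k σ)| ≤ X := by
    rw [abs_le] at hs hterm hcav hF ⊢
    constructor <;> linarith
  rw [abs_mul, abs_of_pos (by positivity)] at hmain
  rw [le_div_iff₀ (by positivity)]
  linarith [abs_nonneg (cubeFree f (N + 1) M k σ - cubeFree f N M k σ)]

/-- `CubeShiftStmt` from the other interface statements. -/
theorem cube_shift (hD : DerivStmt) (hP : CubePathStmt) (hTan : CubeTangentStmt) (hR : CubeRegStmt)
    (hPr : CubeProductStmt) (hPhi : PhiStmt) (hPat : PatternStmt) (hCav : CubeCavityStmt) :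
    CubeShiftStmt := by
  intro f hf k η B δ T ε hη hδ hε
  rcases Nat.eq_zero_or_pos k with hk | hk
  · subst hk
    exact ⟨0, fun N _ M _ a _ j hj => absurd (Finset.mem_Icc.1 hj) (by omega)⟩
  obtain ⟨L, hL⟩ := hf.2.exists_bound_of_continuous hf.1.continuous
  simp only [Real.norm_eq_abs] at hL
  have hm : Measurable f := hf.1.continuous.measurable
  set R := |B| + 2 * δ + 1 with hRdef
  have hR0 : 0 ≤ R := by positivity
  obtain ⟨G, N₁, hG⟩ := free_shift hD hP hR hPr hPhi hPat hCav hf hk T hR0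
  obtain ⟨h, hh, hhδ, hhη, hh1, hhε⟩ : ∃ h, 0 < h ∧ h ≤ δ ∧ h ≤ η ∧ h ≤ 1 ∧
      h * (1 + 2 * R / δ) ≤ η * ε / 2 := by
    refine ⟨min (min δ η) (min 1 (η * ε / 2 / (1 + 2 * R / δ))), by positivity,
      (min_le_left _ _).trans (min_le_left _ _), (min_le_left _ _).trans (min_le_right _ _),
      (min_le_right _ _).trans (min_le_left _ _), ?_⟩
    rw [← le_div_iff₀ (by positivity)]
    exact (min_le_right _ _).trans (min_le_right _ _)
  obtain ⟨N₂, hN₂⟩ := exists_nat_ge (6 * |G| / (η * h * ε / 2))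
  refine ⟨max N₁ N₂, fun N hN M hM a ha j hj => ?_⟩
  rw [Finset.mem_Icc] at hj
  obtain ⟨i, rfl⟩ : ∃ i : Fin k, j = (i : ℕ) + 1 := ⟨⟨j - 1, by omega⟩, by simp; omega⟩
  set v : Fin k → ℝ := Function.update 0 i h with hv
  have hN1 : (0 : ℝ) < (N : ℝ) + 1 := by positivity
  have hPN : ∀ M σ, IsPath k (Gen.qf (cubeLeaf N) f M k ((N : ℝ) + 1) σ) := fun M σ =>
    hP f L hm hL N M k σ
  have haR : ∀ l, η ≤ a l ∧ a l + 2 * δ ≤ R := fun l =>
    ⟨(ha l).1, by rw [hRdef]; linarith [(ha l).2, le_abs_self B]⟩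
  have hadd : ∀ y : Fin k → ℝ, y + v = Function.update y i (y i + h) := fun y => by
    funext l; rcases eq_or_ne l i with rfl | hl
    · simp [hv]
    · simp [hv, Function.update_of_ne hl]
  have hsub : ∀ y : Fin k → ℝ, y - v = Function.update y i (y i - h) := fun y => by
    funext l; rcases eq_or_ne l i with rfl | hl
    · simp [hv]
    · simp [hv, Function.update_of_ne hl]
  set F := fun y : Fin k → ℝ => cubeFree f N M k (lift y) with hF
  set Δ := fun y => F (y + v) - F y with hΔ
  set big := Set.Icc (fun l => a l - δ) (fun l => a l + δ) with hbig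
  have hin : ∀ y ∈ big, ∀ l, |y l| ≤ R ∧ |(y + v) l| ≤ R := fun y hy l => by
    have h1 := hy.1 l; have h2 := hy.2 l
    simp only at h1 h2
    have h3 : 0 ≤ v l ∧ v l ≤ δ := by
      rcases eq_or_ne l i with rfl | hl
      · simp [hv, hh.le, hhδ]
      · simp [hv, Function.update_of_ne hl, hδ.le]
    simp only [Pi.add_apply, abs_le]
    refine ⟨⟨?_, ?_⟩, ?_, ?_⟩ <;> linarith [haR l, hη.le]
  have hcF : ∀ s : Set (Fin k → ℝ), (∀ y ∈ s, ∀ l, |y l| ≤ R) → ContinuousOn F s := fun s hs =>
    (Gen.continuousOn_fr (S := cubeLeaf N) hD hN1 hPN hm hL hR0).mono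
      fun y hy l _ => abs_le.1 (hs y hy l)
  have hcΔ : ContinuousOn Δ big := by
    refine ContinuousOn.sub ?_ (hcF big fun y hy l => (hin y hy l).1)
    exact (hcF ((· + v) '' big) (by rintro _ ⟨y, hy, rfl⟩ l; exact (hin y hy l).2)).comp
      (Continuous.continuousOn (by fun_prop)) (Set.mapsTo_image _ _)
  have hbΔ : ∀ y ∈ big, |Δ y| ≤ R * h := fun y hy => by
    have h1 := Gen.fr_step (S := cubeLeaf N) hD hN1 hPN hm hL (M := M) (R := R) y i
      (s := y i + h) (hin y hy i).1 (by simpa [hv] using (hin y hy i).2)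
    rw [add_sub_cancel_left, abs_of_pos hh, ← hadd] at h1
    exact h1
  have hbox := box_shift_diff i hδ hh.le hhδ hcΔ hbΔ (a := a)
  obtain ⟨hp, hae⟩ := boxP_facts a hδ
  have iΔ : Integrable (fun y => Δ y - Δ (y - v)) (boxP a δ) := by
    have hbs : ∀ y ∈ boxSet a δ, y ∈ big ∧ y - v ∈ big := fun y hy => by
      refine ⟨⟨fun l => ?_, fun l => (hy l trivial).2⟩, ⟨fun l => ?_, fun l => ?_⟩⟩
      · linarith [(hy l trivial).1]
      all_goals
        have h3 : 0 ≤ v l ∧ v l ≤ δ := by
          rcases eq_or_ne l i with rfl | hl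
          · simp [hv, hh.le, hhδ]
          · simp [hv, Function.update_of_ne hl, hδ.le]
        have := hy l trivial
        simp only [Pi.sub_apply, Set.mem_Icc] at *
        linarith
    exact integrable_boxP hδ ((hcΔ.mono fun y hy => (hbs y hy).1).sub
      (hcΔ.comp (Continuous.continuousOn (by fun_prop)) fun y hy => (hbs y hy).2))
  set e := G / ((N : ℝ) + 1) with he
  set d := fun y : Fin k → ℝ => |tail k (cubeQ f (N + 1) M k (lift y)) ((i : ℕ) + 1)
    - tail k (cubeQ f N M k (lift y)) ((i : ℕ) + 1)| with hd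
  have hpt : ∀ y ∈ boxSet a δ, η * h * d y ≤ (Δ y - Δ (y - v)) + h ^ 2 + 6 * e := fun y hy => by
    have hyl : ∀ l, a l ≤ y l ∧ y l ≤ a l + δ := fun l => hy l trivial
    have key : ∀ N' (s : ℝ), cubeFree f N' M k (lift y)
        + (s - y i) * (-y i * tail k (cubeQ f N' M k (lift y)) ((i : ℕ) + 1)) - (s - y i) ^ 2 / 2
        ≤ cubeFree f N' M k (lift (Function.update y i s)) := fun N' s => by
      have := hTan f L hm hL N' M k ((i : ℕ) + 1) (lift y) s (by omega) i.2
      rwa [← lift_update, lift_succ] at this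
    have hN' : N₁ ≤ N := (le_max_left _ _).trans hN
    have hr : ∀ z : Fin k → ℝ, (z = y ∨ z = y + v ∨ z = y - v) → ∀ l, 0 ≤ z l ∧ z l ≤ R := by
      intro z hz l
      have h1 := hyl l
      rcases hz with rfl | rfl | rfl <;> rcases eq_or_ne l i with rfl | hl <;>
        simp [hv, Function.update_of_ne, *] <;> constructor <;> linarith [haR l]
    have hc := slope_close (h := h) (g := -y i * tail k (cubeQ f N M k (lift y)) ((i : ℕ) + 1))
      (g' := -y i * tail k (cubeQ f (N + 1) M k (lift y)) ((i : ℕ) + 1))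
      (Fp := F (y + v)) (F0 := F y) (Fm := F (y - v))
      (Gp := cubeFree f (N + 1) M k (lift (y + v))) (G0 := cubeFree f (N + 1) M k (lift y))
      (Gm := cubeFree f (N + 1) M k (lift (y - v)))
      (by have := key N (y i + h); rw [← hadd] at this; simp only [hF] at *; linarith)
      (by have := key N (y i - h); rw [← hsub] at this; simp only [hF] at *; linarith)
      (by have := key (N + 1) (y i + h); rw [← hadd] at this; linarith)
      (by have := key (N + 1) (y i - h); rw [← hsub] at this; linarith)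
      (hG N hN' M hM _ (hr _ (Or.inr (Or.inl rfl)))) (hG N hN' M hM _ (hr _ (Or.inl rfl)))
      (hG N hN' M hM _ (hr _ (Or.inr (Or.inr rfl))))
    have hya : η ≤ y i := by linarith [(hyl i).1, (ha i).1]
    rw [← mul_sub, abs_mul, abs_neg, abs_of_nonneg (hη.le.trans hya)] at hc
    have h4 : η * (h * d y) ≤ y i * (h * d y) :=
      mul_le_mul_of_nonneg_right hya (by positivity)
    simp only [hΔ, sub_add_cancel]
    linarith
  have hdm : Integrable d (boxP a δ) := by
    have hq1 := (hR f L hm hL (N + 1) M k).2.1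
    have hq0 := (hR f L hm hL N M k).2.1
    refine Integrable.of_bound (Measurable.aestronglyMeasurable ?_) 1 (ae_of_all _ fun y => ?_)
    · simp only [hd, tail]
      exact (((Finset.measurable_sum _ fun l _ => hq1 l).const_mul _).sub
        ((Finset.measurable_sum _ fun l _ => hq0 l).const_mul _)).abs
    · have h1 := tail_mem (hP f L hm hL (N + 1) M k (lift y)) (j := (i : ℕ) + 1) (by omega)
      have h2 := tail_mem (hP f L hm hL N M k (lift y)) (j := (i : ℕ) + 1) (by omega)
      simp only [hd, Real.norm_eq_abs, abs_abs, abs_le]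
      constructor <;> linarith
  have hint := integral_mono_ae (hdm.const_mul (η * h))
    ((iΔ.add (integrable_const _)).add (integrable_const _))
    (by filter_upwards [hae] with y hy using hpt y hy)
  simp only [Pi.add_apply] at hint
  rw [integral_const_mul, integral_add (f := fun y => Δ y - Δ (y - v) + h ^ 2)
    (iΔ.add (integrable_const _)) (integrable_const _), integral_add iΔ (integrable_const _),
    integral_const, integral_const, probReal_univ, one_smul, one_smul] at hint
  rw [boxAvg_eq]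
  change ∫ y, d y ∂boxP a δ ≤ ε
  have h6 : 6 * e ≤ η * h * ε / 2 := by
    rw [he, ← mul_div_assoc, div_le_iff₀ hN1]
    have : 6 * |G| / (η * h * ε / 2) ≤ (N : ℝ) + 1 := by
      have : (N₂ : ℝ) ≤ N := Nat.cast_le.2 ((le_max_right _ _).trans hN)
      linarith
    rw [div_le_iff₀ (by positivity)] at this
    linarith [le_abs_self G]
  have h7 : h ^ 2 + 2 * (R * h) * h / δ ≤ η * h * ε / 2 := by
    have := mul_le_mul_of_nonneg_left hhε hh.le
    calc h ^ 2 + 2 * (R * h) * h / δ = h * (h * (1 + 2 * R / δ)) := by ring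
      _ ≤ h * (η * ε / 2) := this
      _ = η * h * ε / 2 := by ring
  refine le_of_mul_le_mul_left ?_ (show 0 < η * h by positivity)
  rw [← hv] at hbox
  linarith

end Vale.Agent.P157.Cube2.Low
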